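import Vale.Agent.P146.H425.Tan

/-!
Upper tail of the squared gradient of the layer functional under the tilted law: the exponential
moment `E_x exp (x² b² |D_t|² / 2) ≤ exp (x (φ(2x) - φ(x)))`, `φ(x) = (1/x) log E exp (x F)`.
-/

open MeasureTheory ProbabilityTheory

namespace Vale.Agent.P146.H425

open Vale.Agent.P157.Lv

set_option linter.unusedSectionVars false

variable {κ : Type} [Fintype κ] {F : (κ → ℝ) → ℝ} {D : κ → (κ → ℝ) → ℝ} {B L x b : ℝ}

/-- the function seen from the position `y` at the scale `b` -/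
lemma C11.shift (h : C11 F D B L) (y : κ → ℝ) (b : ℝ) :
    C11 (fun z => F (y + b • z)) (fun e z => b * D e (y + b • z)) (|b| * B) (b ^ 2 * L) := by
  have hB := h.B0
  have hL := h.L0
  have e0 : ∀ z w : κ → ℝ, y + b • (z + w) = (y + b • z) + b • w := by
    intro z w; rw [smul_add, add_assoc]
  refine ⟨by positivity, by positivity, fun z w => ?_, fun e => ?_, fun e z => ?_, fun z w => ?_⟩
  · rw [e0]
    refine (h.lip _ _).trans (le_of_eq ?_)
    rw [norm_smul, Real.norm_eq_abs]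
    ring
  · exact ((h.meas e).comp (by fun_prop)).const_mul b
  · rw [abs_mul]
    exact mul_le_mul_of_nonneg_left (h.bd e _) (abs_nonneg b)
  · rw [e0]
    have h1 := h.quad (y + b • z) (b • w)
    have e1 : ∑ e, D e (y + b • z) * (b • w) e = ∑ e, b * D e (y + b • z) * w e :=
      Finset.sum_congr rfl fun e _ => by rw [Pi.smul_apply, smul_eq_mul]; ring
    rw [e1] at h1
    refine h1.trans (le_of_eq ?_)
    rw [norm_smul, Real.norm_eq_abs, mul_pow, sq_abs]
    ring

lemma Cv.shift (hc : Cv F) (y : κ → ℝ) (b : ℝ) : Cv fun z => F (y + b • z) := by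
  intro p q hp hq hpq w0 w1
  have h1 := hc p q hp hq hpq (y + b • w0) (y + b • w1)
  have e : p • (y + b • w0) + q • (y + b • w1) = y + b • (p • w0 + q • w1) := by
    have e2 : p • y + q • y = y := by rw [← add_smul, hpq, one_smul]
    rw [smul_add, smul_add, smul_add, smul_comm p b, smul_comm q b]
    nth_rewrite 3 [← e2]
    abel
  rw [e] at h1
  exact h1

lemma W_shift (x b : ℝ) (F : (κ → ℝ) → ℝ) (y : κ → ℝ) :
    W x 1 (fun z => F (y + b • z)) 0 = W x b F y := by
  unfold W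
  simp

/-- the squared gradient as an entropy lower bound, at the position `y` -/
lemma KL_shift_ge (h : C11 F D B L) (hx : 0 < x) (y : κ → ℝ) :
    x ^ 2 / 2 * (b ^ 2 * G2 x b F D y) ≤ KL (fun z => F (y + b • z)) x := by
  have h1 := KL_ge (h.shift y b) hx
  refine le_trans (le_of_eq ?_) h1
  unfold G2
  rw [Finset.mul_sum]
  congr 1
  refine Finset.sum_congr rfl fun e _ => ?_
  rw [← mul_pow]
  congr 1
  unfold DW
  rw [← mul_div_assoc, ← integral_const_mul]
  congr 1
  congr 1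
  funext z
  ring

/-- **The gain from the doubled exponent dominates the squared gradient.** -/
theorem W_two_ge (h : C11 F D B L) (hc : Cv F) (hx : 0 < x) (y : κ → ℝ) :
    W x b F y + x / 2 * (b ^ 2 * G2 x b F D y) ≤ W (2 * x) b F y := by
  have h1 := tangent (h.shift y b) (hc.shift y b) hx (x' := 2 * x) (by positivity)
  rw [W_shift, W_shift] at h1
  have h2 := KL_shift_ge (b := b) h hx y
  have h3 : (2 * x - x) * (x ^ 2 / 2 * (b ^ 2 * G2 x b F D y) / x ^ 2) ≤
      (2 * x - x) * (KL (fun z => F (y + b • z)) x / x ^ 2) := by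
    have hx1 : 0 ≤ 2 * x - x := by linarith
    gcongr
  have e : (2 * x - x) * (x ^ 2 / 2 * (b ^ 2 * G2 x b F D y) / x ^ 2) =
      x / 2 * (b ^ 2 * G2 x b F D y) := by
    field_simp
    ring
  linarith

/-- `φ(2x) - φ(x) ≤ (x/2) G(2x)`, `G = ∫ E_x |D_t|² dt` -/
theorem phi_two_le (h : C11 F D B L) (hc : Cv F) (hx : 0 < x) :
    W (2 * x) 1 F 0 - W x 1 F 0 ≤ x / 2 * ∫ t in (0 : ℝ)..1, Phi (2 * x) F D t := by
  have hx2 : 0 < 2 * x := by positivity
  have h1 := tangent h hc hx2 hx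
  have h2 := KL_le h hx2
  have h3 : (2 * x - x) * (KL F (2 * x) / (2 * x) ^ 2) ≤
      (2 * x - x) * ((2 * x) ^ 2 / 2 * (∫ t in (0 : ℝ)..1, Phi (2 * x) F D t) / (2 * x) ^ 2) := by
    have hx1 : 0 ≤ 2 * x - x := by linarith
    gcongr
  have e : (2 * x - x) * ((2 * x) ^ 2 / 2 * (∫ t in (0 : ℝ)..1, Phi (2 * x) F D t) /
      (2 * x) ^ 2) = x / 2 * ∫ t in (0 : ℝ)..1, Phi (2 * x) F D t := by
    field_simp
    ring
  linarith

/-- the mean of `exp (x u^{(2x)})` -/
lemma int_exp_two (h : C11 F D B L) (hx : 0 < x) {a b : ℝ} (hab : a ^ 2 + b ^ 2 = 1) :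
    ∫ z, Real.exp (x * W (2 * x) b F (a • z)) ∂(gI κ) ≤ Real.exp (x * W (2 * x) 1 F 0) := by
  have hx2 : 0 < 2 * x := by positivity
  have hW := h.W' hx2 b
  have eg : EG fun z : κ → ℝ => Real.exp (x * W (2 * x) b F (a • z)) :=
    EG.smul' (hW.eg_exp x) a
  have e1 : ∫ z, Real.exp (x * W (2 * x) b F (a • z)) ^ 2 ∂(gI κ) =
      Real.exp (x * W (2 * x) 1 F 0) ^ 2 := by
    have h1 : ∀ z : κ → ℝ, Real.exp (x * W (2 * x) b F (a • z)) ^ 2 =
        Real.exp (2 * x * W (2 * x) b F (a • z)) := by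
      intro z
      rw [← Real.exp_nat_mul]
      congr 1
      push_cast
      ring
    simp_rw [h1]
    rw [Nm_one h hx2 hab, ← Real.exp_nat_mul]
    have h2 : ((2 : ℕ) : ℝ) * (x * W (2 * x) 1 F 0) = 2 * x * W (2 * x) 1 F 0 := by
      push_cast; ring
    rw [h2, h.lip.exp_W h.B0 hx2]
    simp
  have h3 := cs_int (q := fun _ : κ → ℝ => (1 : ℝ)) (EG.const 1) (fun _ => zero_le_one)
    (by simp) eg
  simp only [one_mul, integral_const, probReal_univ, smul_eq_mul] at h3
  rw [e1] at h3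
  have h4 : 0 ≤ ∫ z, Real.exp (x * W (2 * x) b F (a • z)) ∂(gI κ) :=
    integral_nonneg fun z => (Real.exp_pos _).le
  have h5 : (∫ z, Real.exp (x * W (2 * x) b F (a • z)) ∂(gI κ)) ^ 2 ≤
      Real.exp (x * W (2 * x) 1 F 0) ^ 2 := by simpa using h3
  exact (abs_le.1 (abs_le_of_sq_le_sq h5 (Real.exp_pos _).le)).2

/-- **The exponential moment of the squared gradient under the tilted law.** -/
theorem ut (h : C11 F D B L) (hc : Cv F) (hx : 0 < x) {a b : ℝ} (hab : a ^ 2 + b ^ 2 = 1) :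
    ∫ z, Real.exp (x * W x b F (a • z)) * Real.exp (x ^ 2 / 2 * (b ^ 2 * G2 x b F D (a • z)))
      ∂(gI κ) ≤ Real.exp (x * W (2 * x) 1 F 0) := by
  have hx2 : 0 < 2 * x := by positivity
  refine le_trans ?_ (int_exp_two h hx hab)
  have hG := (h.W' hx b).eg_G2
  obtain ⟨-, hGb⟩ : (∀ y, 0 ≤ G2 x b F D y) ∧ ∀ y, G2 x b F D y ≤ Fintype.card κ * B ^ 2 :=
    ⟨fun y => (G2_bd (h.W' hx b) y).1, fun y => (G2_bd (h.W' hx b) y).2⟩
  have e1 : EG fun y => Real.exp (x ^ 2 / 2 * (b ^ 2 * G2 x b F D y)) := by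
    refine EG.of_bdd ((hG.meas.const_mul _).const_mul _).exp
      (C := Real.exp (x ^ 2 / 2 * (b ^ 2 * (Fintype.card κ * B ^ 2)))) fun y => ?_
    rw [abs_of_pos (Real.exp_pos _)]
    refine Real.exp_le_exp.2 ?_
    have := hGb y
    gcongr
  refine integral_mono (EG.smul' (((h.W' hx b).eg_exp x).mul e1) a).integrable
    (EG.smul' ((h.W' hx2 b).eg_exp x) a).integrable fun z => ?_
  simp only
  rw [← Real.exp_add]
  refine Real.exp_le_exp.2 ?_
  have h1 := mul_le_mul_of_nonneg_left (W_two_ge (b := b) h hc hx (a • z)) hx.le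
  refine le_trans (le_of_eq ?_) h1
  ring

end Vale.Agent.P146.H425
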