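import Vale.Agent.P146.H425.Core

/-!
For a convex function `F` of a standard Gaussian vector, `x ↦ (1/x) log E exp (x F)` is convex
and `x^2 Var F / 2` is at most the relative entropy of the law tilted by `exp (x F)`.
-/

open MeasureTheory ProbabilityTheory Filter Topology

namespace Vale.Agent.P146.H425

open Vale.Agent.P157.Lv

variable {κ : Type} [Fintype κ] {F : (κ → ℝ) → ℝ} {D : κ → (κ → ℝ) → ℝ} {B L x : ℝ}

/-- Convex functions. -/
def Cv (F : (κ → ℝ) → ℝ) : Prop := ∀ (a b : ℝ), 0 ≤ a → 0 ≤ b → a + b = 1 →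
  ∀ w0 w1, F (a • w0 + b • w1) ≤ a * F w0 + b * F w1

/-- The relative entropy of the law tilted by `exp (x F)`. -/
noncomputable def KL (F : (κ → ℝ) → ℝ) (x : ℝ) : ℝ :=
  x * ((∫ z, Real.exp (x * F z) * F z ∂(gI κ)) / ∫ z, Real.exp (x * F z) ∂(gI κ)) -
    Real.log (∫ z, Real.exp (x * F z) ∂(gI κ))

lemma W_one_zero (F : (κ → ℝ) → ℝ) (x : ℝ) : W x 1 F 0 =
    1 / x * Real.log (∫ z, Real.exp (x * F z) ∂(gI κ)) := by
  unfold W
  simp

/-- The exponent functional is convex in the exponent. -/
theorem convexOn_W (h : C11 F D B L) (hc : Cv F) :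
    ConvexOn ℝ (Set.Ioi 0) fun x => W x 1 F 0 := by
  refine ⟨convex_Ioi 0, fun x0 h0 x1 h1 a b ha hb hab => ?_⟩
  have := layer h h.lip h.B0 h.lip h.B0 h0 h1 ha hb hab (hc a b ha hb hab) 0 0
  simpa using this

lemma jensen_tilt {q t : (κ → ℝ) → ℝ} (hq : EG q) (hq0 : ∀ z, 0 ≤ q z)
    (hA : 0 < ∫ z, q z ∂(gI κ)) (ht : EG t) (he : EG fun z => q z * Real.exp (t z)) :
    (∫ z, q z ∂(gI κ)) * Real.exp ((∫ z, q z * t z ∂(gI κ)) / ∫ z, q z ∂(gI κ)) ≤
      ∫ z, q z * Real.exp (t z) ∂(gI κ) := by
  set A := ∫ z, q z ∂(gI κ) with hAd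
  set T1 := ∫ z, q z * t z ∂(gI κ) with hT1
  have i1 := (hq.mul ht).integrable
  have i0 := hq.integrable
  have h1 : ∫ z, (Real.exp (T1 / A) * (1 - T1 / A)) * q z +
      Real.exp (T1 / A) * (q z * t z) ∂(gI κ) = A * Real.exp (T1 / A) := by
    rw [integral_add (i0.const_mul _) (i1.const_mul _), integral_const_mul,
      integral_const_mul, ← hAd, ← hT1]
    field_simp
    ring
  rw [← h1]
  refine integral_mono ((i0.const_mul _).add (i1.const_mul _)) he.integrable fun z => ?_
  simp only
  have h2 := Real.add_one_le_exp (t z - T1 / A)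
  have h3 : Real.exp (t z) = Real.exp (T1 / A) * Real.exp (t z - T1 / A) := by
    rw [← Real.exp_add]; congr 1; ring
  rw [h3]
  have h4 := mul_le_mul_of_nonneg_left h2 (mul_nonneg (hq0 z) (Real.exp_pos (T1 / A)).le)
  nlinarith [h4]

/-- tangent at `x` -/
lemma tangent_W (h : LipB F B) (hB : 0 ≤ B) (hx : 0 < x) {η : ℝ} (hη : 0 < η) (hηx : η < x) :
    (W x 1 F 0 - W (x - η) 1 F 0) / η ≤ KL F x / (x * (x - η)) := by
  have hxη : 0 < x - η := by linarith
  set A := ∫ z, Real.exp (x * F z) ∂(gI κ) with hA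
  set A' := ∫ z, Real.exp ((x - η) * F z) ∂(gI κ) with hA'
  set T1 := ∫ z, Real.exp (x * F z) * F z ∂(gI κ) with hT1
  have hl := h.lip hB
  have pA : 0 < A := integral_exp_pos (hl.exp_eg x).integrable
  have pA' : 0 < A' := integral_exp_pos (hl.exp_eg (x - η)).integrable
  have e1 : ∀ z, Real.exp (x * F z) * Real.exp (-η * F z) = Real.exp ((x - η) * F z) := by
    intro z
    rw [← Real.exp_add]
    congr 1
    ring
  have h1 := jensen_tilt (q := fun z => Real.exp (x * F z)) (t := fun z => -η * F z)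
    (hl.exp_eg x) (fun z => (Real.exp_pos _).le) pA (hl.eg.const_mul _)
    (by simp_rw [e1]; exact hl.exp_eg _)
  simp_rw [e1] at h1
  have e2 : ∫ z, Real.exp (x * F z) * (-η * F z) ∂(gI κ) = -η * T1 := by
    rw [hT1, ← integral_const_mul]
    exact integral_congr_ae (Eventually.of_forall fun z => by simp only; ring)
  rw [e2] at h1
  have h2 := Real.log_le_log (by positivity) h1
  rw [Real.log_mul pA.ne' (Real.exp_pos _).ne', Real.log_exp] at h2
  have e3 : -η * T1 / A = -(η * (T1 / A)) := by ring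
  rw [e3] at h2
  have h3 : KL F x = x * (T1 / A) - Real.log A := rfl
  rw [W_one_zero, W_one_zero, h3, div_le_div_iff₀ hη (by positivity)]
  have e4 : (1 / x * Real.log A - 1 / (x - η) * Real.log A') * (x * (x - η)) =
      (x - η) * Real.log A - x * Real.log A' := by
    field_simp
  rw [e4]
  nlinarith [mul_le_mul_of_nonneg_left h2 hx.le]

section small

variable {Y : (κ → ℝ) → ℝ}

lemma Lip.egabs (h : Lip Y) : EG (fun z => Real.exp |Y z|) := by
  have h1 := Lip.comp h (g := fun t => |t|) zero_le_one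
    (fun x y => by rw [one_mul]; exact abs_abs_sub_abs_le x y)
  simpa using h1.exp_eg 1

lemma exp_cube (v : ℝ) : 1 + v + v ^ 2 / 2 - |v| ^ 3 * Real.exp |v| ≤ Real.exp v := by
  have h := Complex.norm_exp_sub_sum_le_norm_mul_exp (v : ℂ) 3
  have e : (Complex.exp (v : ℂ) - ∑ m ∈ Finset.range 3, (v : ℂ) ^ m / m.factorial) =
      ((Real.exp v - (1 + v + v ^ 2 / 2) : ℝ) : ℂ) := by
    simp [Finset.sum_range_succ, Nat.factorial]
  rw [e, Complex.norm_real, Complex.norm_real, Real.norm_eq_abs, Real.norm_eq_abs] at h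
  linarith [(abs_le.1 h).1]

/-- small exponents: lower bound for a centred function -/
lemma small_lower (h : Lip Y) (h0 : ∫ z, Y z ∂(gI κ) = 0) : ∃ C b0 : ℝ, 0 < b0 ∧
    ∀ b, 0 < b → b ≤ b0 → Real.exp (b ^ 2 * (∫ z, Y z ^ 2 ∂(gI κ)) / 2 - C * b ^ 3) ≤
      ∫ z, Real.exp (b * Y z) ∂(gI κ) := by
  set V := ∫ z, Y z ^ 2 ∂(gI κ) with hV
  have e3 : EG fun z => |Y z| ^ 3 * Real.exp |Y z| := (h.eg.abs.pow 3).mul (Lip.egabs h)
  set M := ∫ z, |Y z| ^ 3 * Real.exp |Y z| ∂(gI κ) with hM
  have hM0 : 0 ≤ M := integral_nonneg fun z => by positivity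
  have hV0 : 0 ≤ V := integral_nonneg fun z => by positivity
  set C := M + 1 with hC
  set k := (V / 2 + C) ^ 2 + (V / 2 + C) with hk
  have hk1 : 0 < V / 2 + C := by rw [hC]; positivity
  refine ⟨C, min 1 (1 / k), by positivity, fun b hb hb0 => ?_⟩
  have hb1 : b ≤ 1 := hb0.trans (min_le_left _ _)
  have hbk : b * k ≤ 1 := by
    have := hb0.trans (min_le_right _ _)
    rwa [le_div_iff₀ (by positivity)] at this
  have h1 : 1 + b ^ 2 * V / 2 - b ^ 3 * M ≤ ∫ z, Real.exp (b * Y z) ∂(gI κ) := by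
    have i1 : Integrable (fun z => 1 + b * Y z) (gI κ) :=
      (integrable_const _).add (h.eg.integrable.const_mul _)
    have i2 : Integrable (fun z => b ^ 2 / 2 * Y z ^ 2) (gI κ) :=
      (h.eg.pow 2).integrable.const_mul _
    have i3 : Integrable (fun z => b ^ 3 * (|Y z| ^ 3 * Real.exp |Y z|)) (gI κ) :=
      e3.integrable.const_mul _
    have h2 : ∫ z, (1 + b * Y z) + b ^ 2 / 2 * Y z ^ 2 -
        b ^ 3 * (|Y z| ^ 3 * Real.exp |Y z|) ∂(gI κ) = 1 + b ^ 2 * V / 2 - b ^ 3 * M := by
      have i12 : Integrable (fun z => (1 + b * Y z) + b ^ 2 / 2 * Y z ^ 2) (gI κ) := i1.add i2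
      rw [integral_sub i12 i3, integral_add i1 i2,
        integral_add (integrable_const _) (h.eg.integrable.const_mul _), integral_const_mul,
        integral_const_mul, integral_const_mul, h0, ← hV, ← hM]
      simp
      ring
    rw [← h2]
    refine integral_mono ((i1.add i2).sub i3) (h.exp_eg b).integrable fun z => ?_
    simp only
    have h3 := exp_cube (b * Y z)
    rw [abs_mul, abs_of_pos hb] at h3
    have h4 : (b * |Y z|) ^ 3 * Real.exp (b * |Y z|) ≤ b ^ 3 * (|Y z| ^ 3 * Real.exp |Y z|) := by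
      rw [mul_pow, mul_assoc]
      refine mul_le_mul_of_nonneg_left (mul_le_mul_of_nonneg_left (Real.exp_le_exp.2 ?_)
        (by positivity)) (by positivity)
      exact mul_le_of_le_one_left (abs_nonneg _) hb1
    nlinarith [h3, h4]
  set t := b ^ 2 * V / 2 - C * b ^ 3 with ht
  have hb2 : b ^ 3 ≤ b ^ 2 := by nlinarith [sq_nonneg b]
  have ht1 : |t| ≤ b ^ 2 * (V / 2 + C) := by
    rw [ht, abs_le]
    have : 0 ≤ C := by rw [hC]; positivity
    constructor <;> nlinarith [mul_nonneg (sq_nonneg b) hV0, mul_nonneg this (pow_pos hb 3).le,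
      mul_le_mul_of_nonneg_left hb2 this]
  have ht2 : |t| ≤ 1 := by
    refine ht1.trans ?_
    have : b ^ 2 * (V / 2 + C) ≤ b * (V / 2 + C) := by
      refine mul_le_mul_of_nonneg_right ?_ hk1.le
      nlinarith
    refine this.trans (le_trans ?_ hbk)
    refine mul_le_mul_of_nonneg_left ?_ hb.le
    rw [hk]; nlinarith [sq_nonneg (V / 2 + C)]
  have h5 := (le_abs_self _).trans (Real.abs_exp_sub_one_sub_id_le ht2)
  have h6 : t ^ 2 ≤ b ^ 3 := by
    calc t ^ 2 = |t| ^ 2 := (sq_abs t).symm
      _ ≤ (b ^ 2 * (V / 2 + C)) ^ 2 := pow_le_pow_left₀ (abs_nonneg _) ht1 2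
      _ = b ^ 3 * (b * (V / 2 + C) ^ 2) := by ring
      _ ≤ b ^ 3 * 1 := by
          refine mul_le_mul_of_nonneg_left (le_trans ?_ hbk) (by positivity)
          refine mul_le_mul_of_nonneg_left ?_ hb.le
          rw [hk]; linarith
      _ = b ^ 3 := mul_one _
  refine le_trans ?_ h1
  rw [hC] at ht
  nlinarith [h5, h6]

/-- small exponents: upper bound for a centred function -/
lemma small_upper (h : Lip Y) (h0 : ∫ z, Y z ∂(gI κ) = 0) : ∃ C : ℝ, 0 ≤ C ∧
    ∀ b, 0 < b → b ≤ 1 → ∫ z, Real.exp (b * Y z) ∂(gI κ) ≤ Real.exp (C * b ^ 2) := by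
  have e3 : EG fun z => Y z ^ 2 * Real.exp |Y z| := (h.eg.pow 2).mul (Lip.egabs h)
  set M := ∫ z, Y z ^ 2 * Real.exp |Y z| ∂(gI κ) with hM
  refine ⟨M, integral_nonneg fun z => by positivity, fun b hb hb1 => ?_⟩
  have i1 : Integrable (fun z => 1 + b * Y z) (gI κ) :=
    (integrable_const _).add (h.eg.integrable.const_mul _)
  have i2 : Integrable (fun z => b ^ 2 * (Y z ^ 2 * Real.exp |Y z|)) (gI κ) :=
    e3.integrable.const_mul _
  have h1 : ∫ z, Real.exp (b * Y z) ∂(gI κ) ≤ ∫ z, (1 + b * Y z) +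
      b ^ 2 * (Y z ^ 2 * Real.exp |Y z|) ∂(gI κ) := by
    refine integral_mono (h.exp_eg b).integrable (i1.add i2) fun z => ?_
    simp only
    have h2 := exp_le_quad (b * Y z)
    have h3 : (b * Y z) ^ 2 * Real.exp |b * Y z| ≤ b ^ 2 * (Y z ^ 2 * Real.exp |Y z|) := by
      rw [mul_pow, mul_assoc, abs_mul, abs_of_pos hb]
      refine mul_le_mul_of_nonneg_left (mul_le_mul_of_nonneg_left (Real.exp_le_exp.2 ?_)
        (by positivity)) (by positivity)
      exact mul_le_of_le_one_left (abs_nonneg _) hb1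
    linarith
  rw [integral_add i1 i2, integral_add (integrable_const _) (h.eg.integrable.const_mul _),
    integral_const_mul, integral_const_mul, h0, ← hM] at h1
  simp only [integral_const, probReal_univ, smul_eq_mul, one_mul, mul_zero, add_zero] at h1
  refine h1.trans ?_
  have := Real.add_one_le_exp (M * b ^ 2)
  linarith

end small

/-- **The variance is at most twice the entropy production**: `x^2 Var F / 2 ≤ KL`. -/
theorem var_le_KL (h : C11 F D B L) (hc : Cv F) (hx : 0 < x) :
    x ^ 2 / 2 * ∫ z, (F z - ∫ z', F z' ∂(gI κ)) ^ 2 ∂(gI κ) ≤ KL F x := by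
  set E := ∫ z', F z' ∂(gI κ) with hE
  set V := ∫ z, (F z - E) ^ 2 ∂(gI κ) with hV
  have hl := h.lip.lip h.B0
  have hY : Lip (fun z => F z - E) := by
    simpa [sub_eq_add_neg] using hl.add (Lip.const (-E))
  have hY0 : ∫ z, (F z - E) ∂(gI κ) = 0 := by
    rw [integral_sub hl.eg.integrable (integrable_const _), ← hE]
    simp
  obtain ⟨C, b0, hb0, hlow⟩ := small_lower hY hY0
  obtain ⟨C2, hC2, hupp⟩ := small_upper hY hY0
  have hexp : ∀ b, ∫ z, Real.exp (b * F z) ∂(gI κ) =
      Real.exp (b * E) * ∫ z, Real.exp (b * (F z - E)) ∂(gI κ) := by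
    intro b
    rw [← integral_const_mul]
    refine integral_congr_ae (Eventually.of_forall fun z => ?_)
    simp only
    rw [← Real.exp_add]
    congr 1
    ring
  have hpos : ∀ b, 0 < ∫ z, Real.exp (b * (F z - E)) ∂(gI κ) := fun b =>
    integral_exp_pos (hY.exp_eg b).integrable
  have hWe : ∀ b, 0 < b → W b 1 F 0 = E + 1 / b *
      Real.log (∫ z, Real.exp (b * (F z - E)) ∂(gI κ)) := by
    intro b hb
    rw [W_one_zero, hexp, Real.log_mul (Real.exp_pos _).ne' (hpos b).ne', Real.log_exp]
    field_simp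
  have hWl : ∀ b, 0 < b → b ≤ b0 → E + b * V / 2 - C * b ^ 2 ≤ W b 1 F 0 := by
    intro b hb hbb
    rw [hWe b hb]
    have h1 := (Real.le_log_iff_exp_le (hpos b)).2 (hlow b hb hbb)
    have h2 := mul_le_mul_of_nonneg_left h1 (show 0 ≤ 1 / b by positivity)
    have e : 1 / b * (b ^ 2 * V / 2 - C * b ^ 3) = b * V / 2 - C * b ^ 2 := by
      field_simp
    rw [← hV] at h2
    linarith
  have hWu : ∀ b, 0 < b → b ≤ 1 → W b 1 F 0 ≤ E + C2 * b := by
    intro b hb hbb
    rw [hWe b hb]
    have h1 := (Real.log_le_iff_le_exp (hpos b)).2 (hupp b hb hbb)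
    have h2 := mul_le_mul_of_nonneg_left h1 (show 0 ≤ 1 / b by positivity)
    have e : 1 / b * (C2 * b ^ 2) = C2 * b := by
      field_simp
    linarith
  have hconv := convexOn_W h hc
  -- main inequality for small `b`
  have main : ∀ b, 0 < b → b ≤ b0 → b < 1 → b < x / 2 →
      (V / 2 - (C + C2) * b) * (x * (x - b)) ≤ KL F x := by
    intro b hb hbb hb1 hbx
    have hbb2 : b ^ 2 < b := by nlinarith
    have hxb : b < x - b := by linarith
    have hxb0 : 0 < x - b := by linarith
    have s1 := hconv.slope_mono_adjacent (x := b ^ 2) (y := b) (z := x - b)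
      (by simpa using (by positivity : 0 < b ^ 2)) (by simpa using hxb0) hbb2 hxb
    have s2 := hconv.slope_mono_adjacent (x := b) (y := x - b) (z := x)
      (by simpa using hb) (by simpa using hx) hxb (by linarith)
    have s3 := tangent_W h.lip h.B0 hx hb (by linarith : b < x)
    have e1 : x - (x - b) = b := by ring
    rw [e1] at s2
    have s4 := (s1.trans s2).trans s3
    have pden : 0 < x * (x - b) := mul_pos hx hxb0
    rw [div_le_div_iff₀ (by linarith) pden] at s4
    have l1 := hWl b hb hbb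
    have l2 := hWu (b ^ 2) (by positivity) (by nlinarith)
    have h5 : b * V / 2 - C * b ^ 2 - C2 * b ^ 2 ≤ W b 1 F 0 - W (b ^ 2) 1 F 0 := by linarith
    have h6 := mul_le_mul_of_nonneg_right h5 pden.le
    have hKL : 0 ≤ KL F x := by
      by_contra hneg
      push Not at hneg
      have h7 := s3.trans_lt (div_neg_of_neg_of_pos hneg pden)
      -- slope at `0`: `W` is nondecreasing
      have h8 : W (x - b) 1 F 0 ≤ W x 1 F 0 := by
        have p1 := (hpos (x - b))
        have hWge : ∀ c, 0 < c → E ≤ W c 1 F 0 := by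
          intro c hc'
          rw [hWe c hc']
          have : 0 ≤ Real.log (∫ z, Real.exp (c * (F z - E)) ∂(gI κ)) := by
            refine Real.log_nonneg ?_
            have i1 : Integrable (fun z => 1 + c * (F z - E)) (gI κ) :=
              (integrable_const _).add (hY.eg.integrable.const_mul _)
            have h9 : ∫ z, (1 + c * (F z - E)) ∂(gI κ) ≤
                ∫ z, Real.exp (c * (F z - E)) ∂(gI κ) := by
              refine integral_mono i1 (hY.exp_eg c).integrable fun z => ?_
              simp only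
              linarith [Real.add_one_le_exp (c * (F z - E))]
            rw [integral_add (integrable_const _) (hY.eg.integrable.const_mul _),
              integral_const_mul, hY0] at h9
            simpa using h9
          have : 0 ≤ 1 / c * Real.log (∫ z, Real.exp (c * (F z - E)) ∂(gI κ)) := by positivity
          linarith
        by_contra hlt
        push Not at hlt
        -- convexity and decrease at the end force a decrease everywhere before, with a rate
        have h10 : ∀ c, 0 < c → c < x - b → W (x - b) 1 F 0 +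
            (x - b - c) * ((W (x - b) 1 F 0 - W x 1 F 0) / b) ≤ W c 1 F 0 := by
          intro c hc0 hcx
          have s5 := hconv.slope_mono_adjacent (x := c) (y := x - b) (z := x)
            (by simpa using hc0) (by simpa using hx) hcx (by linarith)
          rw [e1, div_le_div_iff₀ (by linarith) hb] at s5
          have : (x - b - c) * ((W (x - b) 1 F 0 - W x 1 F 0) / b) =
              ((W (x - b) 1 F 0 - W x 1 F 0) * (x - b - c)) / b := by ring
          rw [this, ← le_sub_iff_add_le', div_le_iff₀ hb]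
          linarith
        set gap := (W (x - b) 1 F 0 - W x 1 F 0) / b with hgap
        have gpos : 0 < gap := div_pos (by linarith) hb
        -- at small `c` contradiction with `W c ≤ E + C2 c` and `E ≤ W (x-b)`
        set c := min (b / 2) (gap * (x - b) / (2 * (gap + C2 + 1))) with hcdef
        have hden : 0 < 2 * (gap + C2 + 1) := by positivity
        have hc0 : 0 < c := lt_min (by linarith) (by positivity)
        have hcb : c ≤ b / 2 := min_le_left _ _
        have hc2 : c * (2 * (gap + C2 + 1)) ≤ gap * (x - b) := by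
          have := min_le_right (b / 2) (gap * (x - b) / (2 * (gap + C2 + 1)))
          rw [← hcdef, le_div_iff₀ hden] at this
          exact this
        have t1 := h10 c hc0 (by linarith)
        have t2 := hWu c hc0 (by linarith)
        have t3 := hWge (x - b) hxb0
        nlinarith
      have h9 : 0 ≤ (W x 1 F 0 - W (x - b) 1 F 0) / b := div_nonneg (by linarith) hb.le
      linarith
    have h7 : (b * V / 2 - C * b ^ 2 - C2 * b ^ 2) * (x * (x - b)) ≤ KL F x * b := by
      refine (h6.trans s4).trans (mul_le_mul_of_nonneg_left ?_ hKL)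
      nlinarith [sq_nonneg b]
    have e2 : (b * V / 2 - C * b ^ 2 - C2 * b ^ 2) * (x * (x - b)) =
        ((V / 2 - (C + C2) * b) * (x * (x - b))) * b := by ring
    rw [e2] at h7
    exact le_of_mul_le_mul_right h7 hb
  have hlim : Tendsto (fun b : ℝ => (V / 2 - (C + C2) * b) * (x * (x - b))) (𝓝[>] 0)
      (𝓝 ((V / 2 - (C + C2) * 0) * (x * (x - 0)))) := by
    refine Tendsto.mono_left (Continuous.tendsto (by fun_prop) _) nhdsWithin_le_nhds
  have hev : ∀ᶠ b in 𝓝[>] (0 : ℝ), (V / 2 - (C + C2) * b) * (x * (x - b)) ≤ KL F x := by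
    have h1 : Set.Ioo (0 : ℝ) (min b0 (min 1 (x / 2))) ∈ 𝓝[>] (0 : ℝ) :=
      Ioo_mem_nhdsGT (by positivity)
    filter_upwards [h1] with b hb
    refine main b hb.1 (hb.2.le.trans (min_le_left _ _))
      (hb.2.trans_le ((min_le_right _ _).trans (min_le_left _ _)))
      (hb.2.trans_le ((min_le_right _ _).trans (min_le_right _ _)))
  have := le_of_tendsto hlim hev
  calc x ^ 2 / 2 * V = (V / 2 - (C + C2) * 0) * (x * (x - 0)) := by ring
    _ ≤ KL F x := this

end Vale.Agent.P146.H425
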