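import Vale.Agent.P146.Bdl.B2

/-!
Gaussian tools for the layer functionals: translation and rotation of a product of standard
Gaussian measures.
-/

open MeasureTheory ProbabilityTheory

namespace Vale.Agent.P146.H425

open Vale.Agent.P157.Lv

lemma gauss_tilt (a : ℝ) : gaussianReal (-a) 1
    = (gaussianReal 0 1).withDensity (fun x => ENNReal.ofReal (Real.exp (-(a * x) - a ^ 2 / 2))) := by
  rw [gaussianReal_of_var_ne_zero _ one_ne_zero, gaussianReal_of_var_ne_zero _ one_ne_zero,
    ← withDensity_mul _ (measurable_gaussianPDF 0 1) (by fun_prop)]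
  congr 1
  funext x
  simp only [Pi.mul_apply, gaussianPDF_def]
  rw [← ENNReal.ofReal_mul (gaussianPDFReal_nonneg _ _ _)]
  congr 1
  simp only [gaussianPDFReal_def]
  have e : Real.exp (-(x - -a) ^ 2 / (2 * ((1 : NNReal) : ℝ)))
      = Real.exp (-(x - 0) ^ 2 / (2 * ((1 : NNReal) : ℝ))) * Real.exp (-(a * x) - a ^ 2 / 2) := by
    rw [← Real.exp_add]
    congr 1
    push_cast
    ring
  rw [e]
  ring

lemma integrable_exp_affine (a b : ℝ) :
    Integrable (fun x => Real.exp (a * x + b)) (gaussianReal 0 1) := by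
  have h : Integrable (fun x => Real.exp (a * x)) (gaussianReal 0 1) :=
    integrable_exp_mul_gaussianReal a
  have := h.mul_const (Real.exp b)
  refine this.congr (Filter.Eventually.of_forall fun x => ?_)
  simp only [← Real.exp_add]

lemma integral_exp_affine (a : ℝ) :
    ∫ x, Real.exp (a * x) ∂(gaussianReal 0 1) = Real.exp (a ^ 2 / 2) := by
  have h := mgf_gaussianReal (p := gaussianReal 0 1) (X := id) (μ := 0) (v := 1) (by simp) a
  simp only [mgf, id] at h
  rw [h]
  congr 1
  push_cast
  ring

variable {ι : Type*} [Fintype ι]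

lemma pi_tilt (a : ι → ℝ) :
    (Measure.pi fun _ : ι => gaussianReal 0 1).map (fun J => J - a)
      = (Measure.pi fun _ : ι => gaussianReal 0 1).withDensity
        (fun J => ENNReal.ofReal (Real.exp (-(∑ i, a i * J i) - (∑ i, a i ^ 2) / 2))) := by
  have h1 : (Measure.pi fun _ : ι => gaussianReal 0 1).map (fun J => J - a)
      = Measure.pi fun i => gaussianReal (-(a i)) 1 := by
    have e : (fun J : ι → ℝ => J - a) = fun J i => (fun x => x - a i) (J i) := by
      funext J i; rfl
    have hm : ∀ i, (gaussianReal 0 1).map (fun x => x - a i) = gaussianReal (-(a i)) 1 := by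
      intro i
      rw [gaussianReal_map_sub_const]
      simp
    have : ∀ i, SigmaFinite ((gaussianReal 0 1).map (fun x => x - a i)) := by
      intro i
      rw [hm i]
      infer_instance
    rw [e, Measure.pi_map_pi (μ := fun _ : ι => gaussianReal 0 1) (f := fun i x => x - a i)
      (fun i => by fun_prop)]
    congr 1
    funext i
    exact hm i
  rw [h1]
  apply Measure.pi_eq
  intro s hs
  have hbox : MeasurableSet (Set.univ.pi s) := MeasurableSet.univ_pi hs
  rw [withDensity_apply _ hbox]
  have hexp : ∀ J : ι → ℝ, Real.exp (-(∑ i, a i * J i) - (∑ i, a i ^ 2) / 2)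
      = ∏ i, Real.exp (-(a i * J i) - a i ^ 2 / 2) := by
    intro J
    rw [← Real.exp_sum]
    congr 1
    rw [Finset.sum_sub_distrib, Finset.sum_neg_distrib, Finset.sum_div]
  have hint : Integrable (fun J : ι → ℝ => Real.exp (-(∑ i, a i * J i) - (∑ i, a i ^ 2) / 2))
      (Measure.pi fun _ : ι => gaussianReal 0 1) := by
    simp only [hexp]
    apply Integrable.fintype_prod (f := fun i x => Real.exp (-(a i * x) - a i ^ 2 / 2))
    intro i
    have := integrable_exp_affine (-(a i)) (-(a i ^ 2 / 2))
    refine this.congr (Filter.Eventually.of_forall fun x => ?_)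
    ring_nf
  rw [← ofReal_integral_eq_lintegral_ofReal hint.integrableOn
    (Filter.Eventually.of_forall fun x => (Real.exp_pos _).le)]
  rw [← integral_indicator hbox]
  have hind : (Set.univ.pi s).indicator
        (fun J : ι → ℝ => Real.exp (-(∑ i, a i * J i) - (∑ i, a i ^ 2) / 2))
      = fun J => ∏ i, (s i).indicator (fun x => Real.exp (-(a i * x) - a i ^ 2 / 2)) (J i) := by
    funext J
    by_cases hJ : J ∈ Set.univ.pi s
    · rw [Set.indicator_of_mem hJ, hexp]
      apply Finset.prod_congr rfl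
      intro i _
      rw [Set.indicator_of_mem (hJ i (Set.mem_univ i))]
    · rw [Set.indicator_of_notMem hJ]
      simp only [Set.mem_univ_pi, not_forall] at hJ
      obtain ⟨i, hi⟩ := hJ
      symm
      apply Finset.prod_eq_zero (Finset.mem_univ i)
      rw [Set.indicator_of_notMem hi]
  rw [hind, integral_fintype_prod_eq_prod (𝕜 := ℝ)
    (fun (i : ι) (x : ℝ) => (s i).indicator (fun x => Real.exp (-(a i * x) - a i ^ 2 / 2)) x)
    (μ := fun _ => gaussianReal 0 1)]
  rw [ENNReal.ofReal_prod_of_nonneg]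
  · apply Finset.prod_congr rfl
    intro i _
    rw [gauss_tilt, withDensity_apply _ (hs i), integral_indicator (hs i)]
    rw [ofReal_integral_eq_lintegral_ofReal]
    · have := integrable_exp_affine (-(a i)) (-(a i ^ 2 / 2))
      have h2 : Integrable (fun x => Real.exp (-(a i * x) - a i ^ 2 / 2)) (gaussianReal 0 1) := by
        refine this.congr (Filter.Eventually.of_forall fun x => ?_)
        ring_nf
      exact h2.integrableOn
    · exact Filter.Eventually.of_forall fun x => (Real.exp_pos _).le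
  · intro i _
    apply integral_nonneg
    intro x
    apply Set.indicator_nonneg
    intro x _
    exact (Real.exp_pos _).le

/-- Cameron-Martin: translation of a finite product of standard Gaussians. -/
lemma integral_shift (a : ι → ℝ) (f : (ι → ℝ) → ℝ) :
    ∫ J, f (J - a) ∂(Measure.pi fun _ : ι => gaussianReal 0 1)
      = ∫ J, Real.exp (-(∑ i, a i * J i) - (∑ i, a i ^ 2) / 2) * f J
          ∂(Measure.pi fun _ : ι => gaussianReal 0 1) := by
  have hemb : MeasurableEmbedding (fun J : ι → ℝ => J - a) :=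
    (MeasurableEquiv.subRight a).measurableEmbedding
  rw [← hemb.integral_map (μ := Measure.pi fun _ : ι => gaussianReal 0 1) f, pi_tilt,
    integral_withDensity_eq_integral_toReal_smul (by fun_prop)
      (Filter.Eventually.of_forall fun x => ENNReal.ofReal_lt_top)]
  apply integral_congr_ae
  refine Filter.Eventually.of_forall fun J => ?_
  simp only [smul_eq_mul]
  rw [ENNReal.toReal_ofReal (Real.exp_pos _).le]


/-! ### the same facts for `gI` -/

variable {κ : Type} [Fintype κ]

/-- Cameron-Martin. -/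
lemma gI_shift (u : κ → ℝ) (f : (κ → ℝ) → ℝ) :
    ∫ z, f z ∂(gI κ) =
      ∫ z, Real.exp (-(∑ i, u i * z i) - (∑ i, u i ^ 2) / 2) * f (z + u) ∂(gI κ) := by
  have h := integral_shift (ι := κ) (-u)
    (fun J => Real.exp (-(∑ i, u i * J i) + (∑ i, u i ^ 2) / 2) * f J)
  have e1 : ∀ J : κ → ℝ, Real.exp (-(∑ i, (-u) i * J i) - (∑ i, (-u) i ^ 2) / 2) *
      (Real.exp (-(∑ i, u i * J i) + (∑ i, u i ^ 2) / 2) * f J) = f J := by
    intro J
    rw [← mul_assoc, ← Real.exp_add]
    have e2 : -(∑ i, (-u) i * J i) - (∑ i, (-u) i ^ 2) / 2 +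
        (-(∑ i, u i * J i) + (∑ i, u i ^ 2) / 2) = 0 := by
      have e3 : ∑ i, (-u) i * J i = -∑ i, u i * J i := by
        rw [← Finset.sum_neg_distrib]
        exact Finset.sum_congr rfl fun i _ => by simp
      have e4 : ∑ i, (-u) i ^ 2 = ∑ i, u i ^ 2 :=
        Finset.sum_congr rfl fun i _ => by simp
      rw [e3, e4]
      ring
    rw [e2, Real.exp_zero, one_mul]
  simp_rw [e1] at h
  rw [← h]
  refine integral_congr_ae (Filter.Eventually.of_forall fun J => ?_)
  simp only
  have e5 : (J - -u) = J + u := by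
    rw [sub_neg_eq_add]
  rw [e5]
  congr 2
  have e6 : ∑ i, u i * (J + u) i = ∑ i, u i * J i + ∑ i, u i ^ 2 := by
    rw [← Finset.sum_add_distrib]
    exact Finset.sum_congr rfl fun i _ => by simp only [Pi.add_apply]; ring
  rw [e6]
  ring

lemma map_mix_one {c s : ℝ} (h : c ^ 2 + s ^ 2 = 1) :
    ((gaussianReal 0 1).prod (gaussianReal 0 1)).map (fun p : ℝ × ℝ => c * p.1 + s * p.2) =
      gaussianReal 0 1 := by
  have h1 : ((gaussianReal 0 1).prod (gaussianReal 0 1)).map
      (fun p : ℝ × ℝ => c * p.1 + s * p.2) =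
      ((gaussianReal 0 1).map (fun x => c * x)).conv ((gaussianReal 0 1).map (fun x => s * x)) := by
    rw [Measure.conv, Measure.map_prod_map _ _ (by fun_prop) (by fun_prop),
      Measure.map_map (by fun_prop) (by fun_prop)]
    rfl
  rw [h1, gaussianReal_map_const_mul, gaussianReal_map_const_mul, gaussianReal_conv_gaussianReal]
  congr 1
  · simp
  · ext
    simp [h]

/-- rotation invariance -/
lemma mp_mix {c s : ℝ} (h : c ^ 2 + s ^ 2 = 1) :
    MeasurePreserving (fun p : (κ → ℝ) × (κ → ℝ) => c • p.1 + s • p.2)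
      ((gI κ).prod (gI κ)) (gI κ) := by
  have h1 := MeasureTheory.measurePreserving_arrowProdEquivProdArrow ℝ ℝ κ
    (fun _ => gaussianReal 0 1) (fun _ => gaussianReal 0 1)
  have h2 : MeasurePreserving (fun q : κ → ℝ × ℝ => fun i => c * (q i).1 + s * (q i).2)
      (Measure.pi fun _ => (gaussianReal 0 1).prod (gaussianReal 0 1)) (gI κ) := by
    refine ⟨by fun_prop, ?_⟩
    have h3 := Measure.pi_map_pi (μ := fun _ : κ => (gaussianReal 0 1).prod (gaussianReal 0 1))
      (f := fun _ (p : ℝ × ℝ) => c * p.1 + s * p.2)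
      (by
        intro i
        exact (by fun_prop : Measurable fun p : ℝ × ℝ => c * p.1 + s * p.2).aemeasurable)
    rw [map_mix_one h] at h3
    exact h3
  have h4 := h2.comp (h1.symm)
  exact h4

/-- Two independent Gaussian steps are one. -/
lemma gI_rot {f : (κ → ℝ) → ℝ} (hf : EG f) {a b c : ℝ} (h : a ^ 2 + b ^ 2 = c ^ 2)
    (y : κ → ℝ) :
    ∫ z, (∫ z', f (y + a • z + b • z') ∂(gI κ)) ∂(gI κ) = ∫ z, f (y + c • z) ∂(gI κ) := by
  by_cases hc : c = 0
  · have ha : a = 0 := by
      rw [hc] at h
      nlinarith [sq_nonneg a, sq_nonneg b]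
    have hb : b = 0 := by
      rw [hc] at h
      nlinarith [sq_nonneg a, sq_nonneg b]
    subst hc ha hb
    simp
  have h1 : (a / c) ^ 2 + (b / c) ^ 2 = 1 := by
    rw [div_pow, div_pow, ← add_div, h, div_self (pow_ne_zero 2 hc)]
  have h2 := mp_mix (κ := κ) h1
  have eg : EG (fun z : κ → ℝ => f (y + c • z)) := by
    obtain ⟨C, k, hC, hk, hb⟩ := hf.bdd
    refine ⟨hf.meas.comp (by fun_prop), C * Real.exp (k * ‖y‖), k * |c|,
      by positivity, by positivity, fun z => (hb _).trans ?_⟩
    rw [mul_assoc, ← Real.exp_add]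
    gcongr
    have h3 : ‖y + c • z‖ ≤ ‖y‖ + |c| * ‖z‖ := by
      refine (norm_add_le _ _).trans ?_
      rw [norm_smul, Real.norm_eq_abs]
    nlinarith [mul_le_mul_of_nonneg_left h3 hk]
  have h3 : Integrable (fun q : (κ → ℝ) × (κ → ℝ) => f (y + c • ((a / c) • q.1 + (b / c) • q.2)))
      ((gI κ).prod (gI κ)) := h2.integrable_comp_of_integrable (g := fun z => f (y + c • z))
        eg.integrable
  have h4 : ∫ z, f (y + c • z) ∂(gI κ) =
      ∫ q : (κ → ℝ) × (κ → ℝ), f (y + c • ((a / c) • q.1 + (b / c) • q.2))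
        ∂((gI κ).prod (gI κ)) := by
    conv_lhs => rw [← h2.map_eq]
    rw [integral_map h2.measurable.aemeasurable]
    rw [h2.map_eq]
    exact eg.meas.aestronglyMeasurable
  rw [h4, integral_prod _ h3]
  refine integral_congr_ae (Filter.Eventually.of_forall fun z => ?_)
  refine integral_congr_ae (Filter.Eventually.of_forall fun z' => ?_)
  simp only
  congr 1
  rw [smul_add, smul_smul, smul_smul, mul_div_cancel₀ _ hc, mul_div_cancel₀ _ hc, ← add_assoc]

end Vale.Agent.P146.H425
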