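import Vale.Agent.P146.H737.R1f

/-!
The scale and the window of the plan R1 on dyadic grids: `x = 2^j n^(-1/6)`, `T = 2^(-i)`.
-/

open MeasureTheory Set Filter

namespace Vale.Agent.P146.R1

/-- the dyadic part -/
noncomputable def rd (x₀ x : ℝ) : ℝ := (2 : ℝ) ^ ⌊Real.logb 2 (x / x₀)⌋ * x₀

lemma rd_pos {x₀ : ℝ} (h0 : 0 < x₀) (x : ℝ) : 0 < rd x₀ x := by unfold rd; positivity

lemma rd_le {x₀ x : ℝ} (h0 : 0 < x₀) (hx : 0 < x) : rd x₀ x ≤ x := by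
  unfold rd
  have h1 : (2 : ℝ) ^ ⌊Real.logb 2 (x / x₀)⌋ ≤ x / x₀ := by
    rw [← Real.rpow_intCast]
    calc (2 : ℝ) ^ ((⌊Real.logb 2 (x / x₀)⌋ : ℤ) : ℝ) ≤ 2 ^ Real.logb 2 (x / x₀) :=
          Real.rpow_le_rpow_of_exponent_le (by norm_num) (Int.floor_le _)
      _ = x / x₀ := Real.rpow_logb (by norm_num) (by norm_num) (by positivity)
  have := mul_le_mul_of_nonneg_right h1 h0.le
  rwa [div_mul_cancel₀ _ h0.ne'] at this

lemma le_rd {x₀ x : ℝ} (h0 : 0 < x₀) (hx : 0 < x) : x ≤ 2 * rd x₀ x := by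
  unfold rd
  have h1 : x / x₀ ≤ 2 * (2 : ℝ) ^ ⌊Real.logb 2 (x / x₀)⌋ := by
    have e : 2 * (2 : ℝ) ^ ⌊Real.logb 2 (x / x₀)⌋ =
        (2 : ℝ) ^ ((⌊Real.logb 2 (x / x₀)⌋ : ℤ) + 1 : ℝ) := by
      rw [Real.rpow_add (by norm_num), Real.rpow_one, Real.rpow_intCast]
      ring
    rw [e]
    calc x / x₀ = 2 ^ Real.logb 2 (x / x₀) :=
          (Real.rpow_logb (by norm_num) (by norm_num) (by positivity)).symm
      _ ≤ _ := Real.rpow_le_rpow_of_exponent_le (by norm_num) (Int.lt_floor_add_one _).le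
  have := mul_le_mul_of_nonneg_right h1 h0.le
  rw [div_mul_cancel₀ _ h0.ne'] at this
  linarith

lemma rd_two {x₀ x : ℝ} (h0 : 0 < x₀) (hx : 0 < x) : rd x₀ (2 * x) = 2 * rd x₀ x := by
  unfold rd
  have e : Real.logb 2 (2 * x / x₀) = Real.logb 2 (x / x₀) + 1 := by
    rw [mul_div_assoc, Real.logb_mul (by norm_num) (by positivity), Real.logb_self_eq_one
      (by norm_num)]
    ring
  rw [e, Int.floor_add_one, zpow_add₀ (by norm_num), zpow_one]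
  ring

lemma rd_grid {x₀ x : ℝ} (h0 : 0 < x₀) (hx : x₀ ≤ x) : ∃ j : ℕ, rd x₀ x = 2 ^ j * x₀ := by
  have h1 : 0 ≤ ⌊Real.logb 2 (x / x₀)⌋ := by
    rw [Int.floor_nonneg]
    exact Real.logb_nonneg (by norm_num) ((one_le_div h0).2 hx)
  obtain ⟨j, hj⟩ := Int.eq_ofNat_of_zero_le h1
  refine ⟨j, ?_⟩
  unfold rd
  rw [hj, zpow_natCast]

/-- **The scale and the window on dyadic grids.** -/
theorem frame2 {C al ε : ℝ} (hC : 0 < C) (hal : 0 < al) (hε : 0 < ε) :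
    ∃ A : ℝ, 1 ≤ A ∧ ∃ n₀ : ℝ, 2 ≤ n₀ ∧ ∀ n : ℝ, n₀ ≤ n → ∀ (P : ℝ → ℝ → ℝ) (V : ℝ),
      n ^ (1 / 3 + ε : ℝ) ≤ V → (∀ x, 0 < x → V ≤ ∫ t in (0 : ℝ)..1, P x t) →
      (∀ x, 0 < x → ∀ t ∈ Icc (0 : ℝ) 1, 0 ≤ P x t ∧ P x t ≤ C * n) →
      (∀ x, 0 < x → IntervalIntegrable (P x) volume 0 1) →
      (∀ x, 0 < x → MonotoneOn (P x) (Icc 0 1)) →
      ∃ (x T : ℝ) (j i : ℕ), x = 2 ^ j * n ^ (-(1 / 6) : ℝ) ∧ T = (1 / 2) ^ i ∧
        n ^ (-(1 / 6) : ℝ) ≤ x ∧ x ≤ n ^ (-(1 / 6) + al : ℝ) ∧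
        ∫ t in (0 : ℝ)..1, P (2 * x) t ≤ A * ∫ t in (0 : ℝ)..1, P x t ∧
        1 / n ^ 2 ≤ T ∧ T ≤ 1 ∧
        (∫ t in (0 : ℝ)..1, P x t) / (6 * Real.log n) ≤ P x (1 - T) * T ∧
        n ^ (ε - al : ℝ) ≤ x ^ 2 * P x (1 - T) * T := by
  obtain ⟨A, hA, n₁, hn₁, hfr⟩ := H737.R1.frame hC (by positivity : 0 < al / 2) hε
  obtain ⟨n₂, hn₂, hlog⟩ := H737.R1.log_le_pow (A := 6 * C + 8)
    (show (0 : ℝ) < min 1 (al / 2) from lt_min one_pos (by positivity))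
  refine ⟨A, hA, max (max n₁ n₂) 3, hn₁.trans ((le_max_left _ _).trans (le_max_left _ _)),
    fun n hn P V hV hVG hP hPi hPm => ?_⟩
  have hn1 : n₁ ≤ n := ((le_max_left _ _).trans (le_max_left _ _)).trans hn
  have hn2 : n₂ ≤ n := ((le_max_right _ _).trans (le_max_left _ _)).trans hn
  have hn3 : 3 ≤ n := (le_max_right _ _).trans hn
  have hn0 : 0 < n := by linarith
  have hn1' : 1 ≤ n := by linarith
  have hlog1 : 1 ≤ Real.log n := by
    rw [Real.le_log_iff_exp_le hn0]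
    exact (Real.exp_one_lt_d9.le.trans (by norm_num)).trans hn3
  have hl := hlog n hn2
  have hl1 : (6 * C + 8) * Real.log n ≤ n := by
    refine hl.trans ?_
    calc n ^ min 1 (al / 2) ≤ n ^ (1 : ℝ) :=
          Real.rpow_le_rpow_of_exponent_le hn1' (min_le_left _ _)
      _ = n := Real.rpow_one n
  have hl2 : 8 ≤ n ^ (al / 2) := by
    have h1 : (6 * C + 8) * Real.log n ≤ n ^ (al / 2) := hl.trans
      (Real.rpow_le_rpow_of_exponent_le hn1' (min_le_right _ _))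
    nlinarith
  set x₀ := n ^ (-(1 / 6) : ℝ) with hx₀
  have hx₀0 : 0 < x₀ := Real.rpow_pos_of_pos hn0 _
  obtain ⟨x, T, hx1, hx2, hreg, hT1, hT2, hw, hy⟩ := hfr n hn1 (fun x t => P (rd x₀ x) t) V hV
    (fun x _ => hVG _ (rd_pos hx₀0 x)) (fun x _ => hP _ (rd_pos hx₀0 x))
    (fun x _ => hPi _ (rd_pos hx₀0 x))
  have hxp : 0 < x := hx₀0.trans_le hx1
  simp only [rd_two hx₀0 hxp] at hreg
  set x' := rd x₀ x with hx'
  have hx'0 : 0 < x' := rd_pos hx₀0 x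
  have hTp : 0 < T := (by positivity : 0 < 1 / n ^ 2).trans_le hT1
  obtain ⟨j, hj⟩ := rd_grid hx₀0 hx1
  obtain ⟨i, hi1, hi2⟩ := exists_nat_pow_near_of_lt_one hTp hT2
    (show (0 : ℝ) < 1 / 2 by norm_num) (by norm_num)
  set T' : ℝ := (1 / 2) ^ (i + 1) with hT'
  have hT'2 : T ≤ 2 * T' := by
    rw [hT', pow_succ]
    linarith
  have hT'0 : 0 < T' := by positivity
  have hT'T : T' ≤ T := hi1.le
  have hmon : P x' (1 - T) ≤ P x' (1 - T') := hPm x' hx'0 ⟨by linarith, by linarith⟩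
    ⟨by linarith, by linarith⟩ (by linarith)
  have hP0 : 0 ≤ P x' (1 - T) := (hP x' hx'0 (1 - T) ⟨by linarith, by linarith⟩).1
  have hPC : P x' (1 - T) ≤ C * n := (hP x' hx'0 (1 - T) ⟨by linarith, by linarith⟩).2
  have hPT : P x' (1 - T) * T ≤ 2 * (P x' (1 - T') * T') := by
    calc P x' (1 - T) * T ≤ P x' (1 - T') * (2 * T') :=
          mul_le_mul hmon hT'2 hTp.le (hP0.trans hmon)
      _ = _ := by ring
  have hV1 : 1 ≤ V := (Real.one_le_rpow hn1' (by positivity)).trans hV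
  have hG1 : 1 ≤ ∫ t in (0 : ℝ)..1, P x' t := hV1.trans (hVG x' hx'0)
  have hw' : (∫ t in (0 : ℝ)..1, P x' t) ≤ 3 * Real.log n * (P x' (1 - T) * T) := by
    have := (div_le_iff₀ (by positivity : (0 : ℝ) < 3 * Real.log n)).1 hw
    linarith
  refine ⟨x', T', j, i + 1, hj, rfl, ?_, (rd_le hx₀0 hxp).trans (hx2.trans ?_), hreg, ?_,
    by linarith, ?_, ?_⟩
  · rw [hx', hj]
    exact le_mul_of_one_le_left hx₀0.le (one_le_pow₀ (by norm_num))
  · exact Real.rpow_le_rpow_of_exponent_le hn1' (by linarith)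
  · -- `T` is not too small
    have h1 : 1 ≤ 3 * Real.log n * (C * n * T) := by
      have h2 : P x' (1 - T) * T ≤ C * n * T := mul_le_mul_of_nonneg_right hPC hTp.le
      have h3 := mul_le_mul_of_nonneg_left h2 (by positivity : (0 : ℝ) ≤ 3 * Real.log n)
      linarith
    have h4 : 6 * C * Real.log n ≤ n := by
      have : 0 ≤ 8 * Real.log n := by positivity
      linarith
    have h5 : 1 ≤ n ^ 2 * T' := by
      have h6 : 6 * C * Real.log n * (n * T') ≤ n * (n * T') :=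
        mul_le_mul_of_nonneg_right h4 (by positivity)
      have h7 : 3 * Real.log n * (C * n * T) ≤ 3 * Real.log n * (C * n * (2 * T')) :=
        mul_le_mul_of_nonneg_left (mul_le_mul_of_nonneg_left hT'2 (by positivity))
          (by positivity)
      nlinarith
    rw [div_le_iff₀ (by positivity)]
    linarith
  · rw [div_le_iff₀ (by positivity)]
    have h1 := mul_le_mul_of_nonneg_left hPT (by positivity : (0 : ℝ) ≤ 3 * Real.log n)
    linarith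
  · have h1 : x ≤ 2 * x' := le_rd hx₀0 hxp
    have h2 : x ^ 2 ≤ 4 * x' ^ 2 := by nlinarith
    have h3 : x ^ 2 * P x' (1 - T) * T ≤ 8 * (x' ^ 2 * P x' (1 - T') * T') := by
      have h4 : 0 ≤ P x' (1 - T) * T := mul_nonneg hP0 hTp.le
      calc x ^ 2 * P x' (1 - T) * T = x ^ 2 * (P x' (1 - T) * T) := by ring
        _ ≤ 4 * x' ^ 2 * (2 * (P x' (1 - T') * T')) := mul_le_mul h2 hPT h4 (by positivity)
        _ = _ := by ring
    have h5 : 8 * n ^ (ε - al : ℝ) ≤ n ^ (ε - al / 2 : ℝ) := by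
      have e : n ^ (ε - al / 2 : ℝ) = n ^ (al / 2) * n ^ (ε - al : ℝ) := by
        rw [← Real.rpow_add hn0]; ring_nf
      rw [e]
      exact mul_le_mul_of_nonneg_right hl2 (by positivity)
    have h6 : n ^ (ε - al / 2 : ℝ) ≤ x ^ 2 * P x' (1 - T) * T := hy
    linarith

end Vale.Agent.P146.R1
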