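import Vale.Agent.P146.H425.FFin
import Vale.Agent.P146.H425.FFr

/-!
Plan R1, the output of the block F on dyadic grids: `x = 2^j n^(-1/6)`, `T = 2^(-i)`, and
`θ = 1/(a log n)` with `a` a constant.
-/

open MeasureTheory ProbabilityTheory

namespace Vale.Agent.P146.R1

open Vale.Agent.P157.Lv Vale.Agent.P146.H425 Vale.Agent.P146.H327

set_option linter.unusedSectionVars false

/-- The scale, the tilt and the window are on grids. -/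
structure FGrid (n a x θ T : ℝ) : Prop where
  x_grid : ∃ j : ℕ, x = 2 ^ j * n ^ (-(1 / 6) : ℝ)
  θ_grid : θ = 1 / (a * Real.log n)
  T_grid : ∃ i : ℕ, T = (1 / 2) ^ i

/-- **The output of the block F, on grids.** -/
theorem f_out2 {ε α C : ℝ} (hα : 0 < α) (hαε : 4 * α ≤ ε) (hC : 0 < C) (K₀ : ℝ) :
    ∃ a : ℝ, 0 < a ∧ ∃ n₀ : ℝ, 2 ≤ n₀ ∧ ∀ n : ℝ, n₀ ≤ n →
      ∀ (κ : Type) [Fintype κ] (F : (κ → ℝ) → ℝ)
      (D : κ → (κ → ℝ) → ℝ) (B L : ℝ) (R : ℝ → ℝ → ℝ → ℝ → ℝ), C11 F D B L → Cv F →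
      (∀ z, ∑ e, D e z ^ 2 ≤ C * n) →
      (∀ x θ T, 0 < x → 0 < θ → θ ≤ 1 / 64 → 0 < T → T ≤ 1 →
        (∀ s, 1 - T / 2 ≤ s → s ≤ 1 - T / 4 → K₀ ≤ Qt x θ (1 - T) (1 - T / 2) s F D) →
          Rate F D x θ T (R x θ T)) →
      n ^ (1 / 3 + ε : ℝ) ≤ ∫ z, (F z - ∫ z', F z' ∂(gI κ)) ^ 2 ∂(gI κ) →
      ∃ x θ T ρ s1 s2 : ℝ, FGrid n a x θ T ∧ ρ = Phi x F D (1 - T) ∧
        FData n α ε C F D R x θ T ρ s1 s2 := by
  have hε : 0 < ε := by linarith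
  obtain ⟨A, hA, n₁, hn₁, hframe⟩ := frame2 hC hα hε
  have hA2 : 1 ≤ 2 * A := by linarith
  obtain ⟨n₂, hn₂, htyp⟩ := H737.R1.typical_n (A := 2 * A) hA2 hα
  obtain ⟨n₃, hn₃, hfnum⟩ := fnum hα hαε hC hA2
  obtain ⟨n₄, hn₄⟩ := Filter.eventually_atTop.1
    ((tendsto_rpow_atTop (show (0 : ℝ) < 1 / 3 by norm_num)).eventually_ge_atTop K₀)
  refine ⟨64 * (3 * (2 * A)), by positivity, max (max n₁ n₂) (max n₃ n₄),
    hn₁.trans ((le_max_left _ _).trans (le_max_left _ _)), fun n hn κ _ F D B L R h hc hCn hR hV =>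
    ?_⟩
  have hn1 : n₁ ≤ n := ((le_max_left _ _).trans (le_max_left _ _)).trans hn
  have hn2 : n₂ ≤ n := ((le_max_right _ _).trans (le_max_left _ _)).trans hn
  have hn3 : n₃ ≤ n := ((le_max_left _ _).trans (le_max_right _ _)).trans hn
  have hn4 := hn₄ n (((le_max_right _ _).trans (le_max_right _ _)).trans hn)
  have hN := hfnum n hn3
  have hn0 : 0 < n := by linarith [hN.n1]
  obtain ⟨x, T, j, i, hj, hi, hx0, hx1, hreg, hT0, hT1, hwin, hy⟩ := hframe n hn1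
    (fun x t => Phi x F D t)
    (∫ z, (F z - ∫ z', F z' ∂(gI κ)) ^ 2 ∂(gI κ)) hV (fun x hx => var_le_Phi h hc hx)
    (fun x hx t ht => ⟨(Phi_bd h hx ht).1, Phi_le h hx hCn ht⟩)
    (fun x hx => Phi_int h hx) (fun x hx => Phi_mono h hx)
  have hxp : 0 < x := (Real.rpow_pos_of_pos hn0 _).trans_le hx0
  have hTp : 0 < T := (by positivity : 0 < 1 / n ^ 2).trans_le hT0
  have hlog : 0 < Real.log n := by
    have := hN.Λ1
    by_contra hh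
    push Not at hh
    have h1 : A * Real.log n ≤ 0 := mul_nonpos_of_nonneg_of_nonpos (by linarith) hh
    linarith
  have hG : GG (2 * x) F D ≤ 3 * (2 * A) * Real.log n * (Phi x F D (1 - T) * T) := by
    have h1 : GG x F D ≤ 6 * Real.log n * (Phi x F D (1 - T) * T) := by
      have := (div_le_iff₀ (by positivity : (0 : ℝ) < 6 * Real.log n)).1 hwin
      unfold GG
      linarith
    have h2 : GG (2 * x) F D ≤ A * GG x F D := hreg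
    have h3 := mul_le_mul_of_nonneg_left h1 (by linarith : (0 : ℝ) ≤ A)
    linarith
  have hGp : 0 < GG (2 * x) F D := by
    have h1 := var_le_Phi h hc (x := 2 * x) (by positivity)
    have h2 : 0 < n ^ (1 / 3 + ε : ℝ) := Real.rpow_pos_of_pos hn0 _
    unfold GG
    linarith
  obtain ⟨hρp, hθ0, hθ1, hρC, hρl, hlo, hup, k1, k2, k3, k4, k5, k6, k7⟩ :=
    f_at hN h hc hCn hC hα hxp hx1 hTp hT1 rfl rfl hG hy
  have hRt := hR x _ T hxp hθ0 hθ1 hTp hT1 fun s h1 h2 =>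
    (hn4.trans (hN.ρ2 _ hρl).1).trans (hlo s h1 h2)
  obtain ⟨s1, s2, hs1, -, hs12, hs2, hr1, hr2, hgr⟩ := htyp n hn2 _ _ T _ _ hTp hT1 hρp hGp
    hG hRt.cont hRt.deriv hRt.nonneg (fun s hs => hlo s hs.1 hs.2) hup hRt.star
  exact ⟨x, _, T, _, s1, s2, ⟨⟨j, hj⟩, by rw [mul_assoc 64], ⟨i, hi⟩⟩, rfl, hx0, hx1, hθ0, hθ1,
    hTp, hT0, hT1, hρp, hρC, hρl, hy, hs1, hs12, hs2,
    k1, k2, k3, k4, k5, k6, k7, hr1, hr2, hgr⟩

/-- **The output of the block F on grids for a smooth convex function whose gradients at two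
points have an inner product at least `-K`.** -/
theorem f_fin2 {ε α C K : ℝ} (hα : 0 < α) (hαε : 4 * α ≤ ε) (hC : 0 < C) (hK0 : 0 ≤ K) :
    ∃ a : ℝ, 0 < a ∧ ∃ n₀ : ℝ, 2 ≤ n₀ ∧ ∀ n : ℝ, n₀ ≤ n →
      ∀ (κ : Type) [Fintype κ] [DecidableEq κ]
      (F : (κ → ℝ) → ℝ) (D : κ → (κ → ℝ) → ℝ) (B L M : ℝ) (H Tn : κ → κ → (κ → ℝ) → ℝ),
      Sm F D B L H Tn M → Cv F → (∀ z, ∑ e, D e z ^ 2 ≤ C * n) →
      (∀ y y', -K ≤ ∑ e, D e y * D e y') →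
      n ^ (1 / 3 + ε : ℝ) ≤ ∫ z, (F z - ∫ z', F z' ∂(gI κ)) ^ 2 ∂(gI κ) →
      ∃ x θ T ρ s1 s2 : ℝ, FGrid n a x θ T ∧ ρ = Phi x F D (1 - T) ∧ FData n α ε C F D
        (fun x θ T s => Ht x θ (1 - T) (1 - T / 2) s F D H) x θ T ρ s1 s2 := by
  obtain ⟨a, ha, n₀, h2, hf⟩ := f_out2 hα hαε hC K
  refine ⟨a, ha, n₀, h2, fun n hn κ _ _ F D B L M H Tn hS hc hCn hK hV => ?_⟩
  exact hf n hn κ F D B L _ hS.c11 hc hCn (fun x θ T hx hθ hθ1 hT hT1 hQ =>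
    rate_of hS hc hK0 hK hx hθ hθ1 hT hT1 hQ) hV

end Vale.Agent.P146.R1
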