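import Vale.Agent.P146.H327.Sa

/-!
Plan R1, block F: the bounds on the law `P_θ` at one regular scale `x` and one window
`[1 - T, 1]`, with `ρ = E_x |D_{1-T}|²` and `y = x² ρ T`.
-/

open MeasureTheory ProbabilityTheory

namespace Vale.Agent.P146.R1

open Vale.Agent.P157.Lv Vale.Agent.P146.H425 Vale.Agent.P146.H327

set_option linter.unusedSectionVars false

variable {κ : Type} [Fintype κ] {F : (κ → ℝ) → ℝ} {D : κ → (κ → ℝ) → ℝ}
  {B L x θ T ρ Λ s : ℝ}

lemma Phi_int (h : C11 F D B L) (hx : 0 < x) : IntervalIntegrable (Phi x F D) volume 0 1 := by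
  refine MonotoneOn.intervalIntegrable ?_
  rw [Set.uIcc_of_le zero_le_one]
  exact Phi_mono h hx

lemma Phi_mul_le (h : C11 F D B L) (hx : 0 < x) (hT : 0 ≤ T) (hT1 : T ≤ 1) :
    Phi x F D (1 - T) * T ≤ GG x F D := by
  have hi := Phi_int h hx
  have h1 : ∫ t in (1 - T)..1, Phi x F D (1 - T) ≤ ∫ t in (1 - T)..1, Phi x F D t := by
    refine intervalIntegral.integral_mono_on (by linarith) intervalIntegrable_const
      (hi.mono_set ?_) fun t ht => Phi_mono h hx ⟨by linarith, by linarith⟩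
        ⟨by linarith [ht.1], ht.2⟩ ht.1
    rw [Set.uIcc_of_le (by linarith), Set.uIcc_of_le zero_le_one]
    exact Set.Icc_subset_Icc (by linarith) le_rfl
  have h2 : ∫ t in (0 : ℝ)..(1 - T), Phi x F D t + 0 = ∫ t in (0 : ℝ)..(1 - T), Phi x F D t := by
    simp
  have h3 : 0 ≤ ∫ t in (0 : ℝ)..(1 - T), Phi x F D t :=
    intervalIntegral.integral_nonneg (by linarith) fun t ht =>
      (Phi_bd h hx ⟨ht.1, by linarith [ht.2]⟩).1
  have h4 : (∫ t in (0 : ℝ)..(1 - T), Phi x F D t) + ∫ t in (1 - T)..1, Phi x F D t =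
      ∫ t in (0 : ℝ)..1, Phi x F D t := by
    refine intervalIntegral.integral_add_adjacent_intervals (hi.mono_set ?_) (hi.mono_set ?_)
    · rw [Set.uIcc_of_le (by linarith), Set.uIcc_of_le zero_le_one]
      exact Set.Icc_subset_Icc le_rfl (by linarith)
    · rw [Set.uIcc_of_le (by linarith), Set.uIcc_of_le zero_le_one]
      exact Set.Icc_subset_Icc (by linarith) le_rfl
  rw [intervalIntegral.integral_const, smul_eq_mul] at h1
  unfold GG
  have e : (1 - (1 - T)) * Phi x F D (1 - T) = Phi x F D (1 - T) * T := by ring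
  linarith

lemma GG_nonneg (h : C11 F D B L) (hx : 0 < x) : 0 ≤ GG x F D :=
  intervalIntegral.integral_nonneg zero_le_one fun _ ht => (Phi_bd h hx ht).1

lemma GG_le (h : C11 F D B L) (hx : 0 < x) : GG x F D ≤ Fintype.card κ * B ^ 2 := by
  have h1 : ∫ t in (0 : ℝ)..1, Phi x F D t ≤
      ∫ t in (0 : ℝ)..1, (Fintype.card κ * B ^ 2 : ℝ) :=
    intervalIntegral.integral_mono_on zero_le_one (Phi_int h hx) intervalIntegrable_const
      fun t ht => (Phi_bd h hx ht).2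
  rw [intervalIntegral.integral_const, sub_zero, one_smul] at h1
  exact h1

/-- The two rows of the tilt (`T1`, `T2`). -/
structure Tilt (x θ t0 t1 m : ℝ) (F : (κ → ℝ) → ℝ) (D : κ → (κ → ℝ) → ℝ) : Prop where
  L0 : 0 ≤ Lth x θ t0 t1 F
  L2 : Lth x (2 * θ) t0 t1 F ≤ 2 * θ * (x ^ 2 * GG (2 * x) F D)
  low : ∀ s, t1 ≤ s → s ≤ 1 → Et x θ t0 t1 s F
    (fun z0 z1 _ => if xi x t0 t1 F z0 z1 < m / 2 then (1 : ℝ) else 0) ≤ Real.exp (-(θ * m / 4))

section

variable (h : C11 F D B L) (hc : Cv F) (hx : 0 < x) (hT : 0 < T) (hT1 : T ≤ 1)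
  (hρ : 0 < ρ) (hΛ : 1 ≤ Λ) (hG : GG (2 * x) F D ≤ Λ * (ρ * T)) (hθ : 0 < θ)
  (hθΛ : θ * Λ ≤ 1 / 64) (ht : Tilt x θ (1 - T) (1 - T / 2) (x ^ 2 * ρ * T / 4) F D)

include h hc hx hT hT1 hρ hΛ hG hθ hθΛ ht

lemma L2_le : Lth x (2 * θ) (1 - T) (1 - T / 2) F / 2 ≤ x ^ 2 * ρ * T / 64 := by
  have h1 := ht.L2
  have h2 : θ * (x ^ 2 * GG (2 * x) F D) ≤ θ * (x ^ 2 * (Λ * (ρ * T))) :=
    mul_le_mul_of_nonneg_left (mul_le_mul_of_nonneg_left hG (by positivity)) hθ.le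
  have h3 : θ * (x ^ 2 * (Λ * (ρ * T))) = θ * Λ * (x ^ 2 * ρ * T) := by ring
  have h4 : θ * Λ * (x ^ 2 * ρ * T) ≤ 1 / 64 * (x ^ 2 * ρ * T) :=
    mul_le_mul_of_nonneg_right hθΛ (by positivity)
  linarith

/-- (i) -/
theorem low_tail (h1 : 1 - T / 2 ≤ s) (hs : s ≤ 1) :
    Et x θ (1 - T) (1 - T / 2) s F
      (fun _ _ z2 => if sq x s F D z2 ≤ ρ / 256 then (1 : ℝ) else 0) ≤
      3 * Real.exp (-(θ * (x ^ 2 * ρ * T) / 16)) := by
  have hθ1 : θ ≤ 1 / 64 := by nlinarith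
  have hy : 0 < x ^ 2 * ρ * T := by positivity
  have h2 := sa (s := s) h hc hx (t0 := 1 - T) (t1 := 1 - T / 2) (θ := θ) (by linarith)
    (by linarith) h1 hs ht.L0 (x ^ 2 * ρ * T / 4 / 2) (√(ρ / 256))
  rw [Real.sq_sqrt (by positivity)] at h2
  refine h2.trans ?_
  have k1 := ht.low s h1 hs
  have k2 : Real.exp (-(x ^ 2 * ρ * T / 4 / 2) / 2) ≤
      Real.exp (-(θ * (x ^ 2 * ρ * T) / 16)) := by
    refine Real.exp_le_exp.2 ?_
    nlinarith
  have k3 : Real.exp (Lth x (2 * θ) (1 - T) (1 - T / 2) F / 2 - x ^ 2 * ρ * T / 4 / 2 / 4 +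
      2 * x ^ 2 * (ρ / 256) * (s - (1 - T))) ≤ Real.exp (-(θ * (x ^ 2 * ρ * T) / 16)) := by
    refine Real.exp_le_exp.2 ?_
    have h3 := L2_le h hc hx hT hT1 hρ hΛ hG hθ hθΛ ht
    have h4 : 2 * x ^ 2 * (ρ / 256) * (s - (1 - T)) ≤ 2 * x ^ 2 * (ρ / 256) * T :=
      mul_le_mul_of_nonneg_left (by linarith) (by positivity)
    have h5 : 2 * x ^ 2 * (ρ / 256) * T = x ^ 2 * ρ * T / 128 := by ring
    nlinarith
  have k0 : -(θ * (x ^ 2 * ρ * T / 4) / 4) = -(θ * (x ^ 2 * ρ * T) / 16) := by ring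
  rw [k0] at k1
  linarith

lemma tail_exp_le {M : ℝ} : Real.exp (-(M * (x ^ 2 * ρ * T) / 8) / 2 +
    x ^ 2 / 4 * GG (2 * x) F D + Lth x (2 * θ) (1 - T) (1 - T / 2) F / 2) ≤
      Real.exp ((Λ / 2 - M / 16) * (x ^ 2 * ρ * T)) := by
  refine Real.exp_le_exp.2 ?_
  have h3 := L2_le h hc hx hT hT1 hρ hΛ hG hθ hθΛ ht
  have hy : 0 < x ^ 2 * ρ * T := by positivity
  have h4 : x ^ 2 / 4 * GG (2 * x) F D ≤ x ^ 2 / 4 * (Λ * (ρ * T)) :=
    mul_le_mul_of_nonneg_left hG (by positivity)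
  nlinarith

/-- (ii), the time `s` -/
theorem up_tail2 {M : ℝ} (hM : 0 ≤ M) (h1 : 1 - T / 2 ≤ s) (hs : s ≤ 1 - T / 4) :
    Et x θ (1 - T) (1 - T / 2) s F
      (fun _ _ z2 => if M * ρ ≤ sq x s F D z2 then (1 : ℝ) else 0) ≤
      Real.exp ((Λ / 2 - M / 16) * (x ^ 2 * ρ * T)) := by
  refine (tail2 (K := M * (x ^ 2 * ρ * T) / 8) h hc hx (E3.of2 (EG.of_bdd (C := 1)
    (Measurable.ite (measurableSet_le measurable_const (eg_sq h hx s).meas) measurable_const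
      measurable_const) fun z => ?_)) (fun _ _ _ => ?_) (fun _ _ _ => ?_)
    (fun z0 z1 z2 hne => ?_) (by linarith) (by linarith) h1 (by linarith) ht.L0).trans
    (le_trans (le_of_eq ?_) (tail_exp_le (M := M) h hc hx hT hT1 hρ hΛ hG hθ hθΛ ht))
  · split_ifs <;> simp
  · split_ifs <;> norm_num
  · split_ifs <;> norm_num
  · by_contra hn
    refine hne (if_neg fun hle => hn ?_)
    have h5 : x ^ 2 / 2 * (T / 4) * (M * ρ) ≤ x ^ 2 / 2 * (1 - s) * sq x s F D z2 :=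
      mul_le_mul (mul_le_mul_of_nonneg_left (by linarith) (by positivity)) hle (by positivity)
        (mul_nonneg (by positivity) (by linarith))
    linarith
  · ring_nf

/-- (ii), the time `t1` -/
theorem up_tail1 {M : ℝ} (hM : 0 ≤ M) (h1 : 1 - T / 2 ≤ s) (hs : s ≤ 1 - T / 4) :
    Et x θ (1 - T) (1 - T / 2) s F
      (fun _ z1 _ => if M * ρ ≤ sq x (1 - T / 2) F D z1 then (1 : ℝ) else 0) ≤
      Real.exp ((Λ / 2 - M / 16) * (x ^ 2 * ρ * T)) := by
  refine (tail1 (K := M * (x ^ 2 * ρ * T) / 8) h hc hx (E3.of1 (EG.of_bdd (C := 1)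
    (Measurable.ite (measurableSet_le measurable_const (eg_sq h hx _).meas) measurable_const
      measurable_const) fun z => ?_)) (fun _ _ _ => ?_) (fun _ _ _ => ?_)
    (fun z0 z1 z2 hne => ?_) (by linarith) (by linarith) h1 (by linarith) ht.L0).trans
    (le_trans (le_of_eq ?_) (tail_exp_le (M := M) h hc hx hT hT1 hρ hΛ hG hθ hθΛ ht))
  · split_ifs <;> simp
  · split_ifs <;> norm_num
  · split_ifs <;> norm_num
  · by_contra hn
    refine hne (if_neg fun hle => hn ?_)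
    have h5 : x ^ 2 / 2 * (T / 4) * (M * ρ) ≤
        x ^ 2 / 2 * (1 - (1 - T / 2)) * sq x (1 - T / 2) F D z1 :=
      mul_le_mul (mul_le_mul_of_nonneg_left (by linarith) (by positivity)) hle (by positivity)
        (mul_nonneg (by positivity) (by linarith))
    linarith
  · ring_nf

/-- (ii), the time `t0` -/
theorem up_tail0 {M : ℝ} (hM : 0 ≤ M) (h1 : 1 - T / 2 ≤ s) (hs : s ≤ 1 - T / 4) :
    Et x θ (1 - T) (1 - T / 2) s F
      (fun z0 _ _ => if M * ρ ≤ sq x (1 - T) F D z0 then (1 : ℝ) else 0) ≤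
      Real.exp ((Λ / 2 - M / 16) * (x ^ 2 * ρ * T)) := by
  refine (tail0 (K := M * (x ^ 2 * ρ * T) / 8) h hc hx (E3.of0 (EG.of_bdd (C := 1)
    (Measurable.ite (measurableSet_le measurable_const (eg_sq h hx _).meas) measurable_const
      measurable_const) fun z => ?_)) (fun _ _ _ => ?_) (fun _ _ _ => ?_)
    (fun z0 z1 z2 hne => ?_) (by linarith) (by linarith) h1 (by linarith) ht.L0).trans
    (le_trans (le_of_eq ?_) (tail_exp_le (M := M) h hc hx hT hT1 hρ hΛ hG hθ hθΛ ht))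
  · split_ifs <;> simp
  · split_ifs <;> norm_num
  · split_ifs <;> norm_num
  · by_contra hn
    refine hne (if_neg fun hle => hn ?_)
    have h5 : x ^ 2 / 2 * (T / 4) * (M * ρ) ≤
        x ^ 2 / 2 * (1 - (1 - T)) * sq x (1 - T) F D z0 :=
      mul_le_mul (mul_le_mul_of_nonneg_left (by linarith) (by positivity)) hle (by positivity)
        (mul_nonneg (by positivity) (by linarith))
    linarith
  · ring_nf

/-- the mean at the end of the window -/
theorem Qt_up : Qt x θ (1 - T) (1 - T / 2) (1 - T / 4) F D ≤ 5 * Λ * ρ := by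
  have h1 := sq2_le (s := 1 - T / 4) h hc hx (t0 := 1 - T) (t1 := 1 - T / 2) (θ := θ)
    (by linarith) (by linarith) (by linarith) (by linarith) ht.L0
  have h3 := L2_le h hc hx hT hT1 hρ hΛ hG hθ hθΛ ht
  have h4 : 2 / x ^ 2 * Lth x (2 * θ) (1 - T) (1 - T / 2) F ≤ ρ * T / 16 := by
    rw [div_mul_eq_mul_div, div_le_iff₀ (by positivity)]
    nlinarith
  have h5 : T / 4 * Qt x θ (1 - T) (1 - T / 2) (1 - T / 4) F D ≤ T / 4 * (5 * Λ * ρ) := by
    unfold Qt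
    have e : 1 - (1 - T / 4) = T / 4 := by ring
    rw [e] at h1
    have : ρ * T / 16 ≤ Λ * (ρ * T) / 16 := by
      have : ρ * T * 1 ≤ ρ * T * Λ := mul_le_mul_of_nonneg_left hΛ (by positivity)
      linarith
    have h6 : 0 < Λ * (ρ * T) := by positivity
    nlinarith
  exact le_of_mul_le_mul_left h5 (by positivity)

/-- the mean from below -/
theorem Qt_low (h1 : 1 - T / 2 ≤ s) (hs : s ≤ 1)
    (hy : 3 * Real.exp (-(θ * (x ^ 2 * ρ * T) / 16)) ≤ 1 / 2) :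
    ρ / 512 ≤ Qt x θ (1 - T) (1 - T / 2) s F D := by
  have h2 := low_tail (s := s) h hc hx hT hT1 hρ hΛ hG hθ hθΛ ht h1 hs
  have h3 : Et x θ (1 - T) (1 - T / 2) s F (fun _ _ z2 => ρ / 256 *
      (1 - if sq x s F D z2 ≤ ρ / 256 then (1 : ℝ) else 0)) ≤
        Et x θ (1 - T) (1 - T / 2) s F (fun _ _ z2 => sq x s F D z2) := by
    refine Et_mono h hx (((E3.const 1).sub (e3_ind_sq2 h hx s (ρ / 256))).const_mul _)
      (E3.of2 (eg_sq h hx s)) fun z0 z1 z2 => ?_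
    split_ifs with hh
    · have := sq_nonneg' x s F D z2
      linarith
    · rw [not_le] at hh
      linarith
  rw [Et_const_mul, Et_sub h hx (E3.const 1) (e3_ind_sq2 h hx s (ρ / 256)),
    Et_const h hx] at h3
  unfold Qt
  have h4 : ρ / 256 * (1 / 2) ≤ ρ / 256 * (1 - Et x θ (1 - T) (1 - T / 2) s F
      (fun _ _ z2 => if sq x s F D z2 ≤ ρ / 256 then (1 : ℝ) else 0)) :=
    mul_le_mul_of_nonneg_left (by linarith) (by positivity)
  linarith

end

end Vale.Agent.P146.R1
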