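import Vale.Agent.P146.H425.Exs
import Vale.Agent.P146.H327.Avg2
import Vale.Agent.P146.Bd3.B2

/-!
The exponent step for the SK systems with tree fields (the disorder at the level `1`, the level
zero inert), with weakly increasing exponents.
-/

open MeasureTheory ProbabilityTheory

namespace Vale.Agent.P146.H425

open Vale.Agent.P157 Vale.Agent.P157.Lv Vale.Agent.P157.Lv.Sy
open Vale.Agent.P146.H784 (vr)
open Vale.Agent.P146.Ub (RI lc st dsk fd ph)
open Vale.Agent.P146.Ub.Ld (SN AN rlv rlv_le)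
open Vale.Agent.P146 (Pair)

set_option linter.unusedSectionVars false
set_option linter.unusedVariables false

/-- Weakly increasing exponents. -/
structure WE (K : ℕ) (m : ℕ → ℝ) : Prop where
  zero : m 0 = 0
  top : m (K + 1) = 1
  mono : ∀ l ≤ K, m l ≤ m (l + 1)
  pos : 0 < m 1

variable {n K d N : ℕ} {m m' s : ℕ → ℝ} {β : ℝ}

lemma WE.of_exp (hm : Vale.Agent.P157.Par.Exponents K m) : WE K m :=
  ⟨hm.1, hm.2.1, fun l hl => (hm.2.2 l hl).le, by
    have h := hm.2.2 0 (Nat.zero_le _)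
    rw [hm.1] at h
    exact h⟩

lemma SN_wm (m' : ℕ → ℝ) : wm (SN n K d m β N s) m' = SN n K d m' β N s := rfl

lemma SN_lin (hd : d ≤ K) (hm : WE K m) :
    LinS (SN n K d m β N s) (st β N s) (fun _ => lc n) where
  reg :=
    { m0 := hm.zero
      mK := hm.top
      mono := hm.mono
      pos := hm.pos
      lev := rlv_le hd
      lip := fun x => by
        refine ⟨∑ e, |st (K := K) β N s x e|, Finset.sum_nonneg fun e _ => abs_nonneg _,
          fun y y' => ?_⟩
        show |lin (st β N s x) y + lc n - (lin (st β N s x) y' + lc n)| ≤ _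
        rw [add_sub_add_right_eq_sub, li2_lin_sub]
        exact li2_lin (st β N s x) (y - y') }
  H := fun z x => by
    show lin (st β N s x) z + lc n = _
    rw [add_comm]
    rfl

lemma SN_zero (hs0 : s 0 = 0) (x : Fin n → Bool) (e : RI n K)
    (he : (SN n K 1 m β N s).lev e = 0) : st β N s x e = 0 := by
  have he' : rlv 1 e = 0 := he
  unfold st
  rcases e with p | p | l
  · exact absurd he' (by simp [rlv])
  · have hp : (p.1 : ℕ) = 0 := he'
    show dsk N (β / √N) x (Sum.inr (Sum.inl p)) + fd N s x (Sum.inr (Sum.inl p)) = 0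
    rw [Ub.dsk_b, Ub.fd_b, hp, hs0]
    simp
  · show dsk N (β / √N) x (Sum.inr (Sum.inr l)) + fd N s x (Sum.inr (Sum.inr l)) = 0
    rw [Ub.dsk_b, Ub.fd_c, add_zero]

/-- the fields of the level `l + 1` -/
lemma SN_FL (hN : N ≤ n) {l : ℕ} (hl1 : 1 ≤ l) (hl : l < K) :
    FL (SN n K 1 m β N s) (st β N s) (ph hN) l (s (l + 1)) := by
  intro g hg
  have e0 : ∀ e : RI n K, (SN n K 1 m β N s).lev e = rlv 1 e := fun _ => rfl
  simp only [e0]
  rw [Fintype.sum_sum_type, Fintype.sum_sum_type]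
  have h1 : ∑ p : Pair n, (if rlv 1 (Sum.inl p : RI n K) = l + 1 then
      g (fun x => st (K := K) β N s x (Sum.inl p)) else 0) = 0 := by
    refine Finset.sum_eq_zero fun p _ => ?_
    have : rlv 1 (Sum.inl p : RI n K) = 1 := rfl
    rw [this, if_neg (by omega)]
  have h3 : ∑ j : Fin (K + 1), (if rlv 1 (Sum.inr (Sum.inr j) : RI n K) = l + 1 then
      g (fun x => st β N s x (Sum.inr (Sum.inr j))) else 0) = 0 := by
    refine Finset.sum_eq_zero fun j _ => ?_
    have e1 : (fun x => st β N s x (Sum.inr (Sum.inr j) : RI n K)) = fun _ => 0 := by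
      funext x
      show dsk N (β / √N) x (Sum.inr (Sum.inr j)) + fd N s x (Sum.inr (Sum.inr j)) = 0
      rw [Ub.dsk_b, Ub.fd_c, add_zero]
    rw [e1, hg]
    simp
  rw [h1, h3, zero_add, add_zero, Fintype.sum_prod_type]
  have h2 : ∀ a : Fin (K + 1), ∑ j : Fin n, (if rlv 1 (Sum.inr (Sum.inl (a, j)) : RI n K) = l + 1
      then g (fun x => st β N s x (Sum.inr (Sum.inl (a, j)))) else 0) =
      if a = (⟨l + 1, by omega⟩ : Fin (K + 1)) then
        ∑ i : Fin N, g (fun x => s (l + 1) * ph hN x i) else 0 := by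
    intro a
    have e1 : ∀ j : Fin n, rlv 1 (Sum.inr (Sum.inl (a, j)) : RI n K) = (a : ℕ) := fun _ => rfl
    simp only [e1]
    by_cases ha : (a : ℕ) = l + 1
    · have ha' : a = (⟨l + 1, by omega⟩ : Fin (K + 1)) := Fin.ext ha
      simp only [if_pos ha]
      rw [if_pos ha']
      have e2 : ∀ j : Fin n, g (fun x => st β N s x (Sum.inr (Sum.inl (a, j)))) =
          if (j : ℕ) < N then g (fun x => s (l + 1) * spin x j) else 0 := by
        intro j
        have e3 : (fun x => st β N s x (Sum.inr (Sum.inl (a, j)))) =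
            fun x => if (j : ℕ) < N then s (l + 1) * spin x j else 0 := by
          funext x
          show dsk N (β / √N) x (Sum.inr (Sum.inl (a, j))) +
            fd N s x (Sum.inr (Sum.inl (a, j))) = _
          rw [Ub.dsk_b, Ub.fd_b, zero_add]
          simp only [ha]
        rw [e3]
        by_cases hj : (j : ℕ) < N
        · simp only [if_pos hj]
        · simp only [if_neg hj]
          exact hg
      simp only [e2]
      rw [Ub.rc_sum_lt hN fun j => g (fun x => s (l + 1) * spin x j)]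
      rfl
    · simp only [if_neg ha, Finset.sum_const_zero]
      rw [if_neg]
      intro h
      exact ha (by rw [h])
  simp only [h2]
  rw [Finset.sum_ite_eq']
  simp

lemma ph_sq_le (hN : N ≤ n) (x : Fin n → Bool) (i : Fin N) : ph hN x i ^ 2 ≤ 1 := by
  unfold ph
  rw [sq, Ub.rc_spin_sq]

/-- the mean slope of the free energy in the exponent `m_{l+1}` -/
noncomputable def DN (n K : ℕ) (m : ℕ → ℝ) (β : ℝ) (N : ℕ) (s : ℕ → ℝ) (l : ℕ) : ℝ :=
  mk (SN n K 1 m β N s) l

section main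

variable (hK : 1 ≤ K) (hm : WE K m) (hs0 : s 0 = 0) (hN : N ≤ n) (hN0 : 0 < N) {l : ℕ}
  (hl1 : 1 ≤ l) (hl : l < K)

include hK hm hN hN0 hl1 hl

theorem DN_ge : N * s (l + 1) ^ 2 / 2 * (SN n K 1 m β N s).Rl (ph hN) l ≤ DN n K m β N s l :=
  mk_ge (SN_lin hK hm) (SN_FL hN hl1 hl) hN0 hl

theorem DN_le : DN n K m β N s l ≤
    N * s (l + 1) ^ 2 / 2 * (SN n K 1 m β N s).Rl (ph hN) (l + 1) :=
  mk_le (SN_lin hK hm) (SN_FL hN hl1 hl) hN0 hl

theorem DN_nonneg : 0 ≤ DN n K m β N s l := by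
  unfold DN mk
  have hS := (SN_lin (n := n) (β := β) (N := N) (s := s) hK hm).reg
  rw [← hS.Ex_const 0]
  exact hS.Ex_mono (fun _ => EG.const 0) (Nh.fst (eg_kf hS hl))
    fun z _ => kf_nonneg (SN_lin hK hm) (SN_FL hN hl1 hl) hN0 hl z

theorem DN_le_const : DN n K m β N s l ≤ N * s (l + 1) ^ 2 / 2 := by
  unfold DN mk
  have hS := (SN_lin (n := n) (β := β) (N := N) (s := s) hK hm).reg
  rw [← hS.Ex_const (N * s (l + 1) ^ 2 / 2)]
  exact hS.Ex_mono (Nh.fst (eg_kf hS hl)) (fun _ => EG.const _)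
    fun z _ => kf_le_const (SN_lin hK hm) (SN_FL hN hl1 hl) hN0 hl (ph_sq_le hN) z

/-- **(X)** -/
theorem SN_vr_rho_le (hs : s (l + 1) ≠ 0) :
    vr (SN n K 1 m β N s) (fun z _ => H784.rho (SN n K 1 m β N s) (ph hN) l z) ≤
    8 / (N * s (l + 1) ^ 2) ^ 2 *
      vr (SN n K 1 m β N s) (fun z _ => kf (SN n K 1 m β N s) l z) +
      2 * ((SN n K 1 m β N s).Rl (ph hN) (l + 1) - (SN n K 1 m β N s).Rl (ph hN) l) :=
  vr_rho_le (SN_lin hK hm) (SN_FL hN hl1 hl) hN0 hl (ph_sq_le hN) hs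

omit hN hN0

include hs0

/-- **(T)** -/
theorem SN_slope (hm' : WE K m') (heq : ∀ j, j ≠ l + 1 → m' j = m j) :
    (m' (l + 1) - m (l + 1)) * DN n K m β N s l ≤
      AN n K 1 m' β N s - AN n K 1 m β N s :=
  slope_le (SN_lin hK hm) (SN_lin (n := n) (β := β) (N := N) (s := s) hK hm').reg
    (fun x e he => SN_zero hs0 x e he) hl1 hl heq

include hN hN0

/-- the forward form -/
theorem SN_gain (hm' : WE K m') (heq : ∀ j, j ≠ l + 1 → m' j = m j)
    (hb : m 1 * |m' (l + 1) - m (l + 1)| * (N * s (l + 1) ^ 2) ≤ 1) :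
    (m' (l + 1) - m (l + 1)) * DN n K m β N s l +
      1 / 4 * m 1 * (m' (l + 1) - m (l + 1)) ^ 2 *
        vr (SN n K 1 m β N s) (fun z _ => kf (SN n K 1 m β N s) l z) ≤
      AN n K 1 m' β N s - AN n K 1 m β N s :=
  gain_ge (SN_lin hK hm) (SN_lin (n := n) (β := β) (N := N) (s := s) hK hm').reg
    (fun x e he => SN_zero hs0 x e he) hl1 hl heq (SN_FL hN hl1 hl) hN0 (ph_sq_le hN) hb

/-- the slopes increase, quantitatively -/
theorem SN_dD (hm' : WE K m') (heq : ∀ j, j ≠ l + 1 → m' j = m j)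
    (hlt : m (l + 1) < m' (l + 1))
    (hb : m 1 * (m' (l + 1) - m (l + 1)) * (N * s (l + 1) ^ 2) ≤ 1) :
    1 / 4 * m 1 * (m' (l + 1) - m (l + 1)) *
        vr (SN n K 1 m β N s) (fun z _ => kf (SN n K 1 m β N s) l z) ≤
      DN n K m' β N s l - DN n K m β N s l := by
  have hh : 0 < m' (l + 1) - m (l + 1) := by linarith
  have h1 := SN_gain (β := β) hK hm hs0 hN hN0 hl1 hl hm' heq (by rwa [abs_of_pos hh])
  have h2 := SN_slope (n := n) (β := β) (N := N) hK hm' hs0 hl1 hl hm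
    (fun j hj => (heq j hj).symm)
  have h3 : (m' (l + 1) - m (l + 1)) * (1 / 4 * m 1 * (m' (l + 1) - m (l + 1)) *
      vr (SN n K 1 m β N s) (fun z _ => kf (SN n K 1 m β N s) l z)) ≤
      (m' (l + 1) - m (l + 1)) * (DN n K m' β N s l - DN n K m β N s l) := by
    nlinarith [h1, h2]
  exact le_of_mul_le_mul_left h3 hh

/-- **(X) with the increment of the slope.** -/
theorem SN_rho_dD (hm' : WE K m') (heq : ∀ j, j ≠ l + 1 → m' j = m j)
    (hlt : m (l + 1) < m' (l + 1)) (hs : s (l + 1) ≠ 0)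
    (hb : m 1 * (m' (l + 1) - m (l + 1)) * (N * s (l + 1) ^ 2) ≤ 1) :
    vr (SN n K 1 m β N s) (fun z _ => H784.rho (SN n K 1 m β N s) (ph hN) l z) ≤
    32 / (m 1 * (m' (l + 1) - m (l + 1)) * (N * s (l + 1) ^ 2) ^ 2) *
        (DN n K m' β N s l - DN n K m β N s l) +
      2 * ((SN n K 1 m β N s).Rl (ph hN) (l + 1) - (SN n K 1 m β N s).Rl (ph hN) l) := by
  have hh : 0 < m' (l + 1) - m (l + 1) := by linarith
  have hm1 := hm.pos
  have hN0' : (0 : ℝ) < N := by exact_mod_cast hN0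
  have hs2 : 0 < s (l + 1) ^ 2 := by positivity
  have h1 := SN_dD (β := β) hK hm hs0 hN hN0 hl1 hl hm' heq hlt hb
  have h2 := SN_vr_rho_le (m := m) (β := β) hK hm hN hN0 hl1 hl hs
  refine h2.trans (add_le_add_left ?_ _)
  have h3 : 8 / (N * s (l + 1) ^ 2) ^ 2 *
      vr (SN n K 1 m β N s) (fun z _ => kf (SN n K 1 m β N s) l z) =
      32 / (m 1 * (m' (l + 1) - m (l + 1)) * (N * s (l + 1) ^ 2) ^ 2) *
        (1 / 4 * m 1 * (m' (l + 1) - m (l + 1)) *
          vr (SN n K 1 m β N s) (fun z _ => kf (SN n K 1 m β N s) l z)) := by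
    field_simp
    ring
  rw [h3]
  exact mul_le_mul_of_nonneg_left h1 (by positivity)

/-- **(X) with the second difference.** -/
theorem SN_rho_D2 {mp mn : ℕ → ℝ} {h : ℝ} (hh : 0 < h) (hp : WE K mp) (hn : WE K mn)
    (heqp : ∀ j, j ≠ l + 1 → mp j = m j) (heqn : ∀ j, j ≠ l + 1 → mn j = m j)
    (hp1 : mp (l + 1) = m (l + 1) + h) (hn1 : mn (l + 1) = m (l + 1) - h)
    (hs : s (l + 1) ≠ 0) (hb : m 1 * h * (N * s (l + 1) ^ 2) ≤ 1) :
    vr (SN n K 1 m β N s) (fun z _ => H784.rho (SN n K 1 m β N s) (ph hN) l z) ≤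
    16 / (m 1 * h ^ 2 * (N * s (l + 1) ^ 2) ^ 2) *
        (AN n K 1 mp β N s + AN n K 1 mn β N s - 2 * AN n K 1 m β N s) +
      2 * ((SN n K 1 m β N s).Rl (ph hN) (l + 1) - (SN n K 1 m β N s).Rl (ph hN) l) := by
  have hm1 := hm.pos
  have hN0' : (0 : ℝ) < N := by exact_mod_cast hN0
  have hs2 : 0 < s (l + 1) ^ 2 := by positivity
  have h1 := SN_gain (β := β) hK hm hs0 hN hN0 hl1 hl hp heqp
    (by rw [hp1, add_sub_cancel_left, abs_of_pos hh]; exact hb)
  have h1' := SN_gain (β := β) hK hm hs0 hN hN0 hl1 hl hn heqn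
    (by rw [hn1, show m (l + 1) - h - m (l + 1) = -h by ring, abs_neg, abs_of_pos hh]; exact hb)
  rw [hp1] at h1
  rw [hn1] at h1'
  have h2 := SN_vr_rho_le (m := m) (β := β) hK hm hN hN0 hl1 hl hs
  refine h2.trans (add_le_add_left ?_ _)
  obtain ⟨V, hV⟩ : ∃ V, V = vr (SN n K 1 m β N s) (fun z _ => kf (SN n K 1 m β N s) l z) :=
    ⟨_, rfl⟩
  rw [← hV] at h1 h1' ⊢
  have h3 : 8 / (N * s (l + 1) ^ 2) ^ 2 * V =
      16 / (m 1 * h ^ 2 * (N * s (l + 1) ^ 2) ^ 2) * (1 / 2 * m 1 * h ^ 2 * V) := by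
    field_simp
    ring
  rw [h3]
  refine mul_le_mul_of_nonneg_left ?_ (by positivity)
  nlinarith [h1, h1']

end main

/-! ### the instance of the averaging lemma -/

section avg

open Vale.Agent.P146.Gp.Avg

variable {k L : ℕ} {r : ℝ}

lemma mw_WE (hr : 0 < r) (hr1 : r ≤ 1) {v : Fin k → ℕ} (hv : Monotone v)
    (hL : ∀ i, v i ≤ L + 1) : WE (k + 1) (mw r k L v) :=
  ⟨mw_zero, mw_top (by omega), fun l _ => mw_mono hr.le hr1 hv hL, by rw [mw_one]; exact hr⟩

/-- The slopes of the free energy as a function of the positions of the exponents. -/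
noncomputable def Dv (n : ℕ) (r : ℝ) (k L : ℕ) (β : ℝ) (N : ℕ) (s : ℕ → ℝ) :
    Fin k → (Fin k → ℕ) → ℝ := fun i v => DN n (k + 1) (mw r k L v) β N s ((i : ℕ) + 1)

/-- **The hypotheses of the averaging lemma.** -/
theorem Dv_slp (hr : 0 < r) (hr1 : r < 1) (hs0 : s 0 = 0) {lam : ℝ}
    (hs : ∀ l, 1 ≤ l → l ≤ k + 1 → s l ^ 2 = lam) (hN : N ≤ n) (hN0 : 0 < N) :
    Slp k L (N * lam / 2) (Dv n r k L β N s) where
  mono := fun v hv hL b hb hup => by
    have hK : 1 ≤ k + 1 := by omega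
    have hb1 := b.2
    have hL' : ∀ i, Function.update v b (v b + 1) i ≤ L + 1 := by
      intro i
      by_cases hi : i = b
      · subst hi
        rw [Function.update_self]
        omega
      · rw [Function.update_of_ne hi]
        exact hL i
    have hw := mw_WE (r := r) hr hr1.le hv hL
    have hw' := mw_WE (r := r) hr hr1.le hup hL'
    have hh : 0 < (1 - r) / ((L : ℝ) + 1) := div_pos (by linarith) (by positivity)
    have heq : ∀ j, j ≠ (b : ℕ) + 1 + 1 → mw r k L (Function.update v b (v b + 1)) j =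
        mw r k L v j := by
      intro j hj
      rw [mw_update, Function.update_of_ne hj]
    have hlt : mw r k L v ((b : ℕ) + 1 + 1) <
        mw r k L (Function.update v b (v b + 1)) ((b : ℕ) + 1 + 1) := by
      rw [mw_mid, mw_mid, Function.update_self]
      push_cast
      nlinarith
    have h1 := SN_slope (n := n) (β := β) (N := N) (l := (b : ℕ) + 1) hK hw hs0 (by omega)
      (by omega) hw' heq
    have h2 := SN_slope (n := n) (β := β) (N := N) (l := (b : ℕ) + 1) hK hw' hs0 (by omega)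
      (by omega) hw (fun j hj => (heq j hj).symm)
    unfold Dv
    obtain ⟨δ, hδ⟩ : ∃ δ, δ = mw r k L (Function.update v b (v b + 1)) ((b : ℕ) + 1 + 1) -
      mw r k L v ((b : ℕ) + 1 + 1) := ⟨_, rfl⟩
    have hδ0 : 0 < δ := by rw [hδ]; linarith
    have e2 : mw r k L v ((b : ℕ) + 1 + 1) -
      mw r k L (Function.update v b (v b + 1)) ((b : ℕ) + 1 + 1) = -δ := by rw [hδ]; ring
    rw [← hδ] at h1
    rw [e2] at h2
    have h3 : δ * DN n (k + 1) (mw r k L v) β N s ((b : ℕ) + 1) ≤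
        δ * DN n (k + 1) (mw r k L (Function.update v b (v b + 1))) β N s ((b : ℕ) + 1) := by
      linarith
    exact le_of_mul_le_mul_left h3 hδ0
  face := fun v hv hL a b hab _ => by
    have hb1 := b.2
    have hw := mw_WE (r := r) hr hr1.le hv hL
    have h1 := DN_le (β := β) (s := s) (l := (a : ℕ) + 1) (by omega) hw hN hN0 (by omega)
      (by omega)
    have h2 := DN_ge (β := β) (s := s) (l := (b : ℕ) + 1) (by omega) hw hN hN0 (by omega)
      (by omega)
    rw [hs _ (by omega) (by omega)] at h1 h2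
    rw [show (a : ℕ) + 1 + 1 = (b : ℕ) + 1 by omega] at h1
    exact h1.trans h2
  bd := fun v hv hL b => by
    have hb1 := b.2
    have hw := mw_WE (r := r) hr hr1.le hv hL
    refine ⟨DN_nonneg (β := β) (s := s) (l := (b : ℕ) + 1) (by omega) hw hN hN0 (by omega)
      (by omega), ?_⟩
    have h1 := DN_le_const (β := β) (s := s) (l := (b : ℕ) + 1) (by omega) hw hN hN0 (by omega)
      (by omega)
    rw [hs _ (by omega) (by omega)] at h1
    exact h1

/-- **The variance of the overlap of a level by the increment of the slope.** -/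
theorem Dv_rho (hr : 0 < r) (hr1 : r < 1) (hs0 : s 0 = 0) {lam : ℝ} (hlam : 0 < lam)
    (hs : ∀ l, 1 ≤ l → l ≤ k + 1 → s l ^ 2 = lam) (hN : N ≤ n) (hN0 : 0 < N)
    {v : Fin k → ℕ} (hv : Monotone v) (hL : ∀ i, v i ≤ L + 1) {b : Fin k} (hb : v b ≤ L)
    (hup : Monotone (Function.update v b (v b + 1)))
    (hsm : r * ((1 - r) / ((L : ℝ) + 1)) * (N * lam) ≤ 1) :
    vr (SN n (k + 1) 1 (mw r k L v) β N s)
      (fun z _ => H784.rho (SN n (k + 1) 1 (mw r k L v) β N s) (ph hN) ((b : ℕ) + 1) z) ≤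
    32 / (r * ((1 - r) / ((L : ℝ) + 1)) * (N * lam) ^ 2) *
        dD (Dv n r k L β N s) v b +
      2 * ((SN n (k + 1) 1 (mw r k L v) β N s).Rl (ph hN) ((b : ℕ) + 1 + 1) -
        (SN n (k + 1) 1 (mw r k L v) β N s).Rl (ph hN) ((b : ℕ) + 1)) := by
  have hK : 1 ≤ k + 1 := by omega
  have hb1 := b.2
  have hL' : ∀ i, Function.update v b (v b + 1) i ≤ L + 1 := by
    intro i
    by_cases hi : i = b
    · subst hi
      rw [Function.update_self]
      omega
    · rw [Function.update_of_ne hi]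
      exact hL i
  have hw := mw_WE (r := r) hr hr1.le hv hL
  have hw' := mw_WE (r := r) hr hr1.le hup hL'
  have hh : 0 < (1 - r) / ((L : ℝ) + 1) := div_pos (by linarith) (by positivity)
  have heq : ∀ j, j ≠ (b : ℕ) + 1 + 1 → mw r k L (Function.update v b (v b + 1)) j =
      mw r k L v j := by
    intro j hj
    rw [mw_update, Function.update_of_ne hj]
  have hδ : mw r k L (Function.update v b (v b + 1)) ((b : ℕ) + 1 + 1) -
      mw r k L v ((b : ℕ) + 1 + 1) = (1 - r) / ((L : ℝ) + 1) := by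
    rw [mw_mid, mw_mid, Function.update_self]
    push_cast
    ring
  have hsq := hs ((b : ℕ) + 1 + 1) (by omega) (by omega)
  have h1 := SN_rho_dD (n := n) (β := β) (N := N) (l := (b : ℕ) + 1) hK hw hs0 hN hN0 (by omega)
    (by omega) hw' heq (by linarith) (by
      intro h
      rw [h] at hsq
      norm_num at hsq
      linarith) (by rw [hδ, mw_one, hsq]; exact hsm)
  rw [hδ, mw_one, hsq] at h1
  exact h1

end avg

end Vale.Agent.P146.H425
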