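import Vale.Agent.P146.H425.Entropy

/-!
`KL F x ≤ (x^2/2) ∫_0^1 Φ(t) dt` with `Φ(t) = E_x |∇u_t|^2` nondecreasing, hence
`Var F ≤ ∫_0^1 Φ(t) dt` for every `x > 0` and every convex `F`.
-/

open MeasureTheory ProbabilityTheory Filter Topology

namespace Vale.Agent.P146.H425

open Vale.Agent.P157.Lv

set_option linter.unusedSectionVars false

variable {κ : Type} [Fintype κ] {F X : (κ → ℝ) → ℝ} {D : κ → (κ → ℝ) → ℝ} {B L x s : ℝ}

/-- Mean value of `φ` at the intermediate time under the tilted law (not normalized). -/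
noncomputable def Nm (x a b : ℝ) (F φ : (κ → ℝ) → ℝ) : ℝ :=
  ∫ z, Real.exp (x * W x b F (a • z)) * φ (a • z) ∂(gI κ)

/-- The squared gradient of the layer functional. -/
noncomputable def G2 (x b : ℝ) (F : (κ → ℝ) → ℝ) (D : κ → (κ → ℝ) → ℝ) (y : κ → ℝ) : ℝ :=
  ∑ e, DW x b F D e y ^ 2

/-- `Φ` at the time `t` -/
noncomputable def Phi (x : ℝ) (F : (κ → ℝ) → ℝ) (D : κ → (κ → ℝ) → ℝ) (t : ℝ) : ℝ :=
  Nm x (Real.sqrt t) (Real.sqrt (1 - t)) F (G2 x (Real.sqrt (1 - t)) F D) /
    ∫ z, Real.exp (x * F z) ∂(gI κ)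

lemma EG.add_smul {f : (κ → ℝ) → ℝ} (hf : EG f) (y : κ → ℝ) (c : ℝ) :
    EG fun z => f (y + c • z) := by
  obtain ⟨C, k, hC, hk, hb⟩ := hf.bdd
  refine ⟨hf.meas.comp (by fun_prop), C * Real.exp (k * ‖y‖), k * |c|,
    by positivity, by positivity, fun z => (hb _).trans ?_⟩
  rw [mul_assoc, ← Real.exp_add]
  gcongr
  have h3 : ‖y + c • z‖ ≤ ‖y‖ + |c| * ‖z‖ := by
    refine (norm_add_le _ _).trans ?_
    rw [norm_smul, Real.norm_eq_abs]
  nlinarith [mul_le_mul_of_nonneg_left h3 hk]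

lemma EG.smul' {f : (κ → ℝ) → ℝ} (hf : EG f) (c : ℝ) : EG fun z => f (c • z) := by
  have := EG.add_smul hf 0 c
  simpa using this

lemma EG.conv {f : (κ → ℝ) → ℝ} (hf : EG f) (s : ℝ) :
    EG fun y : κ → ℝ => ∫ z', f (y + s • z') ∂(gI κ) := by
  have m1 : StronglyMeasurable fun y : κ → ℝ => ∫ z', f (y + s • z') ∂(gI κ) := by
    refine StronglyMeasurable.integral_prod_right' (ν := gI κ)
      (f := fun p : (κ → ℝ) × (κ → ℝ) => f (p.1 + s • p.2)) ?_
    refine Measurable.stronglyMeasurable ?_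
    exact hf.meas.comp
      (by fun_prop : Measurable fun p : (κ → ℝ) × (κ → ℝ) => p.1 + s • p.2)
  obtain ⟨K, k, hK, hk, hbd⟩ := id hf.bdd
  refine ⟨m1.measurable, K * ∫ z' : κ → ℝ, Real.exp (k * |s| * ‖z'‖) ∂(gI κ), k,
    ?_, hk, fun y => ?_⟩
  · exact mul_nonneg hK (integral_nonneg fun z => (Real.exp_pos _).le)
  · refine (abs_integral_le_integral_abs).trans ?_
    rw [mul_assoc, ← integral_mul_const, ← integral_const_mul]
    refine integral_mono (EG.add_smul hf y s).integrable.abs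
      (((eg_exp_norm (k * |s|)).integrable.mul_const _).const_mul K) fun z' => ?_
    simp only
    refine (hbd _).trans ?_
    rw [← Real.exp_add]
    refine mul_le_mul_of_nonneg_left (Real.exp_le_exp.2 ?_) hK
    have h3 : ‖y + s • z'‖ ≤ ‖y‖ + |s| * ‖z'‖ := by
      refine (norm_add_le _ _).trans ?_
      rw [norm_smul, Real.norm_eq_abs]
    have := mul_le_mul_of_nonneg_left h3 hk
    linarith

lemma C11.eg (h : C11 X D B L) : EG X := (h.lip.lip h.B0).eg

lemma C11.eg_exp (h : C11 X D B L) (x : ℝ) : EG fun z => Real.exp (x * X z) :=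
  (h.lip.lip h.B0).exp_eg x

lemma C11.eg_D (h : C11 X D B L) (e : κ) : EG (D e) := EG.of_bdd (h.meas e) (h.bd e)

lemma C11.eg_G2 (h : C11 X D B L) : EG fun y => ∑ e, D e y ^ 2 :=
  EG.sum _ fun e _ => (h.eg_D e).pow 2

lemma G2_bd (h : C11 X D B L) (y : κ → ℝ) : 0 ≤ ∑ e, D e y ^ 2 ∧
    ∑ e, D e y ^ 2 ≤ Fintype.card κ * B ^ 2 := by
  refine ⟨Finset.sum_nonneg fun e _ => sq_nonneg _, ?_⟩
  refine (Finset.sum_le_card_nsmul _ _ (B ^ 2) fun e _ => ?_).trans (le_of_eq ?_)
  · rw [← sq_abs]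
    exact pow_le_pow_left₀ (abs_nonneg _) (h.bd e y) 2
  · rw [nsmul_eq_mul, Finset.card_univ]

/-- one more step of the remaining time -/
lemma exp_W_step (h : C11 F D B L) (hx : 0 < x) {s b' b : ℝ} (hb : s ^ 2 + b' ^ 2 = b ^ 2)
    (y : κ → ℝ) : Real.exp (x * W x b F y) =
      ∫ z, Real.exp (x * W x b' F (y + s • z)) ∂(gI κ) := by
  rw [← W_W h.lip h.B0 hx hb, (h.W' hx b').lip.exp_W h.B0 hx]

/-- rotation of the first step -/
lemma Nm_rot {x a s a' b : ℝ} {F φ : (κ → ℝ) → ℝ}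
    (he : EG fun y => Real.exp (x * W x b F y) * φ y) (ha : a ^ 2 + s ^ 2 = a' ^ 2) :
    Nm x a' b F φ = ∫ z, (∫ z', Real.exp (x * W x b F (a • z + s • z')) *
      φ (a • z + s • z') ∂(gI κ)) ∂(gI κ) := by
  have := gI_rot he ha 0
  simp only [zero_add] at this
  exact this.symm

lemma Nm_one (h : C11 F D B L) (hx : 0 < x) {a b : ℝ} (hab : a ^ 2 + b ^ 2 = 1) :
    ∫ z, Real.exp (x * W x b F (a • z)) ∂(gI κ) = ∫ z, Real.exp (x * F z) ∂(gI κ) := by
  have h1 : ∀ z, Real.exp (x * W x b F (a • z)) =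
      ∫ z', Real.exp (x * F (a • z + b • z')) ∂(gI κ) := fun z => h.lip.exp_W h.B0 hx _
  simp_rw [h1]
  have h2 := gI_rot (h.eg_exp x) (a := a) (b := b) (c := 1) (by rw [hab]; norm_num) 0
  simpa using h2

/-- gradients are Lipschitz along one step -/
theorem grad_low (hx : 0 < x) (hB : 0 ≤ B) (hL : 0 ≤ L) : ∃ C : ℝ, 0 ≤ C ∧
    ∀ (X : (κ → ℝ) → ℝ) (D : κ → (κ → ℝ) → ℝ), C11 X D B L → ∀ s, 0 ≤ s → s ≤ 1 → ∀ y,
      Real.exp (x * W x s X y) * (∑ e, D e y ^ 2 - C * s) ≤
        ∫ z, Real.exp (x * X (y + s • z)) * (∑ e, D e (y + s • z) ^ 2) ∂(gI κ) := by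
  set N : ℝ := (Fintype.card κ : ℝ) with hN
  have hN0 : 0 ≤ N := Nat.cast_nonneg _
  set p := ∫ z : κ → ℝ, Real.exp (x * B * ‖z‖) * ‖z‖ ∂(gI κ) with hp
  set q := ∫ z : κ → ℝ, Real.exp (-(x * B) * ‖z‖) ∂(gI κ) with hq
  have ep : EG fun z : κ → ℝ => Real.exp (x * B * ‖z‖) * ‖z‖ := (eg_exp_norm _).mul eg_norm
  have eq' : EG fun z : κ → ℝ => Real.exp (-(x * B) * ‖z‖) := eg_exp_norm _
  have hp0 : 0 ≤ p := integral_nonneg fun z => by positivity
  have hq0 : 0 < q := integral_exp_pos eq'.integrable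
  refine ⟨12 * N * B * L * (p / q), by positivity, fun X D h s hs hs1 y => ?_⟩
  have eX : EG fun z => Real.exp (x * X (y + s • z)) := h.lip.eg_exp hB y s x
  have eS : EG fun z => ∑ e, D e (y + s • z) ^ 2 := EG.add_smul h.eg_G2 y s
  rw [h.lip.exp_W hB hx]
  have h1 : ∀ z, ∑ e, D e y ^ 2 - 12 * N * B * L * s * ‖z‖ ≤ ∑ e, D e (y + s • z) ^ 2 := by
    intro z
    have h2 : ∀ e ∈ (Finset.univ : Finset κ), D e y ^ 2 - D e (y + s • z) ^ 2 ≤
        12 * B * L * s * ‖z‖ := by
      intro e _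
      have h3 := h.grad_lip e y (s • z)
      rw [norm_smul, Real.norm_eq_abs, abs_of_nonneg hs] at h3
      have h4 : |D e y + D e (y + s • z)| ≤ 2 * B :=
        (abs_add_le _ _).trans (by linarith [h.bd e y, h.bd e (y + s • z)])
      have h5 : D e y ^ 2 - D e (y + s • z) ^ 2 =
          -(D e (y + s • z) - D e y) * (D e y + D e (y + s • z)) := by ring
      rw [h5]
      refine (le_abs_self _).trans ?_
      rw [abs_mul, abs_neg]
      refine (mul_le_mul h3 h4 (abs_nonneg _) ?_).trans (le_of_eq (by ring))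
      positivity
    have h6 := Finset.sum_le_card_nsmul _ _ _ h2
    rw [nsmul_eq_mul, Finset.card_univ, Finset.sum_sub_distrib, ← hN] at h6
    linarith
  have h2 : ∫ z, Real.exp (x * X (y + s • z)) * ‖z‖ ∂(gI κ) ≤
      (p / q) * ∫ z, Real.exp (x * X (y + s • z)) ∂(gI κ) := by
    have hb : ∀ z, |X (y + s • z) - X y| ≤ B * ‖z‖ := by
      intro z
      refine (h.lip y (s • z)).trans ?_
      rw [norm_smul, Real.norm_eq_abs, abs_of_nonneg hs]
      refine mul_le_mul_of_nonneg_left ?_ hB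
      exact mul_le_of_le_one_left (norm_nonneg _) hs1
    have h3 : ∫ z, Real.exp (x * X (y + s • z)) * ‖z‖ ∂(gI κ) ≤ Real.exp (x * X y) * p := by
      rw [hp, ← integral_const_mul]
      refine integral_mono (eX.mul eg_norm).integrable (ep.integrable.const_mul _) fun z => ?_
      simp only
      rw [← mul_assoc, ← Real.exp_add]
      refine mul_le_mul_of_nonneg_right (Real.exp_le_exp.2 ?_) (norm_nonneg _)
      have := mul_le_mul_of_nonneg_left (abs_le.1 (hb z)).2 hx.le
      linarith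
    have h4 : Real.exp (x * X y) * q ≤ ∫ z, Real.exp (x * X (y + s • z)) ∂(gI κ) := by
      rw [hq, ← integral_const_mul]
      refine integral_mono (eq'.integrable.const_mul _) eX.integrable fun z => ?_
      simp only
      rw [← Real.exp_add]
      refine Real.exp_le_exp.2 ?_
      have := mul_le_mul_of_nonneg_left (abs_le.1 (hb z)).1 hx.le
      linarith
    refine h3.trans ?_
    rw [div_mul_eq_mul_div, le_div_iff₀ hq0]
    calc Real.exp (x * X y) * p * q = p * (Real.exp (x * X y) * q) := by ring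
      _ ≤ _ := mul_le_mul_of_nonneg_left h4 hp0
  have h3 : ∫ z, (∑ e, D e y ^ 2) * Real.exp (x * X (y + s • z)) -
      12 * N * B * L * s * (Real.exp (x * X (y + s • z)) * ‖z‖) ∂(gI κ) ≤
      ∫ z, Real.exp (x * X (y + s • z)) * (∑ e, D e (y + s • z) ^ 2) ∂(gI κ) := by
    refine integral_mono ((eX.integrable.const_mul _).sub
      ((eX.mul eg_norm).integrable.const_mul _)) (eX.mul eS).integrable fun z => ?_
    simp only
    have h4 := mul_le_mul_of_nonneg_left (h1 z) (Real.exp_pos (x * X (y + s • z))).le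
    linarith
  refine le_trans ?_ h3
  rw [integral_sub (eX.integrable.const_mul _) ((eX.mul eg_norm).integrable.const_mul _),
    integral_const_mul, integral_const_mul]
  have h4 := mul_le_mul_of_nonneg_left h2 (show 0 ≤ 12 * N * B * L * s by positivity)
  have e1 : 12 * N * B * L * s * (p / q * ∫ z, Real.exp (x * X (y + s • z)) ∂(gI κ)) =
      (∫ z, Real.exp (x * X (y + s • z)) ∂(gI κ)) * (12 * N * B * L * (p / q) * s) := by ring
  rw [e1] at h4
  rw [mul_sub]
  linarith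

lemma cs_int {q φ : (κ → ℝ) → ℝ} (hq : EG q) (hq0 : ∀ z, 0 ≤ q z)
    (hA : 0 < ∫ z, q z ∂(gI κ)) (hφ : EG φ) :
    (∫ z, q z ∂(gI κ)) * ((∫ z, q z * φ z ∂(gI κ)) / ∫ z, q z ∂(gI κ)) ^ 2 ≤
      ∫ z, q z * φ z ^ 2 ∂(gI κ) := by
  set A := ∫ z, q z ∂(gI κ) with hAd
  set T := ∫ z, q z * φ z ∂(gI κ) with hT
  have i0 := hq.integrable
  have i1 := (hq.mul hφ).integrable
  have i2 := (hq.mul (hφ.pow 2)).integrable
  have h1 : 0 ≤ ∫ z, q z * (φ z - T / A) ^ 2 ∂(gI κ) := integral_nonneg fun z =>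
    mul_nonneg (hq0 z) (sq_nonneg _)
  have h2 : ∫ z, q z * (φ z - T / A) ^ 2 ∂(gI κ) =
      ∫ z, (q z * φ z ^ 2 - 2 * (T / A) * (q z * φ z)) + (T / A) ^ 2 * q z ∂(gI κ) :=
    integral_congr_ae (Eventually.of_forall fun z => by simp only; ring)
  rw [h2] at h1
  have i3 : Integrable (fun z => q z * φ z ^ 2 - 2 * (T / A) * (q z * φ z)) (gI κ) :=
    i2.sub (i1.const_mul _)
  rw [integral_add i3 (i0.const_mul _), integral_sub i2 (i1.const_mul _), integral_const_mul,
    integral_const_mul, ← hT, ← hAd] at h1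
  have e : A * (T / A) ^ 2 = 2 * (T / A) * T - (T / A) ^ 2 * A := by
    field_simp
    ring
  rw [e]
  linarith

/-- the gradient is a martingale -/
lemma DW_step (h : C11 F D B L) (hx : 0 < x) {s b' b : ℝ} (hb : s ^ 2 + b' ^ 2 = b ^ 2)
    (e : κ) (y : κ → ℝ) : DW x b F D e y =
      (∫ z, Real.exp (x * W x b' F (y + s • z)) * DW x b' F D e (y + s • z) ∂(gI κ)) /
        ∫ z, Real.exp (x * W x b' F (y + s • z)) ∂(gI κ) := by
  rw [← exp_W_step h hx hb]
  unfold DW
  rw [← h.lip.exp_W h.B0 hx]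
  congr 1
  have h1 : ∀ z, Real.exp (x * W x b' F (y + s • z)) *
      ((∫ z', Real.exp (x * F (y + s • z + b' • z')) * D e (y + s • z + b' • z') ∂(gI κ)) /
        ∫ z', Real.exp (x * F (y + s • z + b' • z')) ∂(gI κ)) =
      ∫ z', Real.exp (x * F (y + s • z + b' • z')) * D e (y + s • z + b' • z') ∂(gI κ) := by
    intro z
    rw [← h.lip.exp_W h.B0 hx]
    field_simp
  simp_rw [h1]
  exact (gI_rot ((h.eg_exp x).mul (h.eg_D e)) hb y).symm

/-- `Φ` is nondecreasing, general form -/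
lemma Nm_mono (h : C11 F D B L) (hx : 0 < x) {a s a' b' b : ℝ} (ha : a ^ 2 + s ^ 2 = a' ^ 2)
    (hb : s ^ 2 + b' ^ 2 = b ^ 2) :
    Nm x a b F (G2 x b F D) ≤ Nm x a' b' F (G2 x b' F D) := by
  have hW' := h.W' hx b'
  have hW := h.W' hx b
  have eg1 : EG fun y => Real.exp (x * W x b' F y) * G2 x b' F D y :=
    (hW'.eg_exp x).mul hW'.eg_G2
  have eg0 : EG fun y => Real.exp (x * W x b F y) * G2 x b F D y :=
    (hW.eg_exp x).mul hW.eg_G2
  rw [Nm_rot eg1 ha]
  unfold Nm
  have hinner : ∀ y, Real.exp (x * W x b F y) * G2 x b F D y ≤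
      ∫ z', Real.exp (x * W x b' F (y + s • z')) * G2 x b' F D (y + s • z') ∂(gI κ) := by
    intro y
    have e1 := EG.add_smul (hW'.eg_exp x) y s
    have e2 := fun e => EG.add_smul (hW'.eg_D e) y s
    have e3 : ∫ z', Real.exp (x * W x b' F (y + s • z')) * G2 x b' F D (y + s • z') ∂(gI κ) =
        ∑ e, ∫ z', Real.exp (x * W x b' F (y + s • z')) *
          DW x b' F D e (y + s • z') ^ 2 ∂(gI κ) := by
      rw [← integral_finsetSum _ fun e _ => (e1.mul ((e2 e).pow 2)).integrable]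
      refine integral_congr_ae (Eventually.of_forall fun z => ?_)
      simp only [G2]
      rw [Finset.mul_sum]
    rw [e3]
    unfold G2
    rw [Finset.mul_sum]
    refine Finset.sum_le_sum fun e _ => ?_
    have h1 := cs_int e1 (fun z => (Real.exp_pos _).le)
      (integral_exp_pos e1.integrable) (e2 e)
    rw [← DW_step h hx hb, ← exp_W_step h hx hb] at h1
    exact h1
  have i1 : Integrable (fun z => ∫ z', Real.exp (x * W x b' F (a • z + s • z')) *
      G2 x b' F D (a • z + s • z') ∂(gI κ)) (gI κ) := (EG.smul' (EG.conv eg1 s) a).integrable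
  exact integral_mono (EG.smul' eg0 a).integrable i1 fun z => hinner (a • z)

/-- one step of the entropy chain -/
theorem chain_step (h : C11 F D B L) (hx : 0 < x) : ∃ C : ℝ, 0 ≤ C ∧
    ∀ a s a' b' b : ℝ, 0 ≤ s → s ≤ 1 → a ^ 2 + s ^ 2 = a' ^ 2 → s ^ 2 + b' ^ 2 = b ^ 2 →
      a ^ 2 + b ^ 2 = 1 →
      Nm x a' b' F (W x b' F) ≤ Nm x a b F (W x b F) +
        x / 2 * s ^ 2 * Nm x a' b' F (G2 x b' F D) +
        C * s ^ 3 * ∫ z, Real.exp (x * F z) ∂(gI κ) := by
  set L' := L + 2 * x * (Fintype.card κ * B) ^ 2 with hL'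
  have hL0 : 0 ≤ L' := by
    have := h.L0
    rw [hL']; positivity
  obtain ⟨C1, hC1, hent⟩ := ent_step (κ := κ) hx h.B0 hL0
  obtain ⟨C2, hC2, hgr⟩ := grad_low (κ := κ) hx h.B0 hL0
  refine ⟨C1 + x / 2 * C2, by positivity, fun a s a' b' b hs hs1 ha hb hab => ?_⟩
  have hW' := h.W' hx b'
  have hW := h.W' hx b
  set A0 := ∫ z, Real.exp (x * F z) ∂(gI κ) with hA0
  have egU : EG fun y => Real.exp (x * W x b' F y) * W x b' F y := (hW'.eg_exp x).mul hW'.eg
  have egG : EG fun y => Real.exp (x * W x b' F y) * G2 x b' F D y :=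
    (hW'.eg_exp x).mul hW'.eg_G2
  have hWW : ∀ y, W x s (W x b' F) y = W x b F y := fun y => W_W h.lip h.B0 hx hb y
  -- the first inequality
  have h1 : Nm x a' b' F (W x b' F) ≤ ∫ z, Real.exp (x * W x b F (a • z)) *
      (W x b F (a • z) + x / 2 * s ^ 2 * G2 x b' F D (a • z) + C1 * s ^ 3) ∂(gI κ) := by
    rw [Nm_rot egU ha]
    have eR : EG fun y => Real.exp (x * W x b F y) *
      (W x b F y + x / 2 * s ^ 2 * G2 x b' F D y + C1 * s ^ 3) :=
      (hW.eg_exp x).mul ((hW.eg.add (hW'.eg_G2.const_mul _)).add (EG.const _))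
    refine integral_mono (EG.smul' (EG.conv egU s) a).integrable
      (EG.smul' eR a).integrable fun z => ?_
    have := hent _ _ hW' s hs hs1 (a • z)
    rw [hWW] at this
    exact this
  have h2 : Nm x a b F (G2 x b' F D) - C2 * s * A0 ≤ Nm x a' b' F (G2 x b' F D) := by
    rw [Nm_rot egG ha]
    have e1 : Nm x a b F (G2 x b' F D) - C2 * s * A0 =
        ∫ z, Real.exp (x * W x b F (a • z)) * (G2 x b' F D (a • z) - C2 * s) ∂(gI κ) := by
      have i1 : Integrable (fun z => Real.exp (x * W x b F (a • z)) * G2 x b' F D (a • z))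
        (gI κ) := (EG.smul' ((hW.eg_exp x).mul hW'.eg_G2) a).integrable
      have i2 : Integrable (fun z => Real.exp (x * W x b F (a • z))) (gI κ) :=
        (EG.smul' (hW.eg_exp x) a).integrable
      have e2 : ∀ z, Real.exp (x * W x b F (a • z)) * (G2 x b' F D (a • z) - C2 * s) =
          Real.exp (x * W x b F (a • z)) * G2 x b' F D (a • z) -
            C2 * s * Real.exp (x * W x b F (a • z)) := fun z => by ring
      simp_rw [e2]
      rw [integral_sub i1 (i2.const_mul _), integral_const_mul, Nm_one h hx hab]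
      rfl
    rw [e1]
    have eL : EG fun y => Real.exp (x * W x b F y) * (G2 x b' F D y - C2 * s) :=
      (hW.eg_exp x).mul (hW'.eg_G2.sub (EG.const _))
    refine integral_mono (EG.smul' eL a).integrable
      (EG.smul' (EG.conv egG s) a).integrable fun z => ?_
    have := hgr _ _ hW' s hs hs1 (a • z)
    rw [hWW] at this
    exact this
  have h3 : ∫ z, Real.exp (x * W x b F (a • z)) *
      (W x b F (a • z) + x / 2 * s ^ 2 * G2 x b' F D (a • z) + C1 * s ^ 3) ∂(gI κ) =
      Nm x a b F (W x b F) + x / 2 * s ^ 2 * Nm x a b F (G2 x b' F D) + C1 * s ^ 3 * A0 := by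
    have i0 : Integrable (fun z => Real.exp (x * W x b F (a • z)) * W x b F (a • z)) (gI κ) :=
      (EG.smul' ((hW.eg_exp x).mul hW.eg) a).integrable
    have i1 : Integrable (fun z => Real.exp (x * W x b F (a • z)) * G2 x b' F D (a • z))
      (gI κ) := (EG.smul' ((hW.eg_exp x).mul hW'.eg_G2) a).integrable
    have i2 : Integrable (fun z => Real.exp (x * W x b F (a • z))) (gI κ) :=
      (EG.smul' (hW.eg_exp x) a).integrable
    have e2 : ∀ z, Real.exp (x * W x b F (a • z)) *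
        (W x b F (a • z) + x / 2 * s ^ 2 * G2 x b' F D (a • z) + C1 * s ^ 3) =
        (Real.exp (x * W x b F (a • z)) * W x b F (a • z) +
        x / 2 * s ^ 2 * (Real.exp (x * W x b F (a • z)) * G2 x b' F D (a • z))) +
          C1 * s ^ 3 * Real.exp (x * W x b F (a • z)) := fun z => by ring
    simp_rw [e2]
    have i3 : Integrable (fun z => Real.exp (x * W x b F (a • z)) * W x b F (a • z) +
        x / 2 * s ^ 2 * (Real.exp (x * W x b F (a • z)) * G2 x b' F D (a • z))) (gI κ) :=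
      i0.add (i1.const_mul _)
    rw [integral_add i3 (i2.const_mul _), integral_add i0 (i1.const_mul _),
      integral_const_mul, integral_const_mul, Nm_one h hx hab]
    rfl
  rw [h3] at h1
  have h4 := mul_le_mul_of_nonneg_left h2 (show 0 ≤ x / 2 * s ^ 2 by positivity)
  have e5 : x / 2 * s ^ 2 * (Nm x a b F (G2 x b' F D) - C2 * s * A0) =
      x / 2 * s ^ 2 * Nm x a b F (G2 x b' F D) - (x / 2 * C2) * s ^ 3 * A0 := by ring
  rw [e5] at h4
  have e6 : (C1 + x / 2 * C2) * s ^ 3 * A0 = C1 * s ^ 3 * A0 + (x / 2 * C2) * s ^ 3 * A0 := by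
    ring
  rw [e6]
  linarith

lemma Phi_mono (h : C11 F D B L) (hx : 0 < x) : MonotoneOn (Phi x F D) (Set.Icc 0 1) := by
  intro t ht t' ht' htt
  unfold Phi
  have hA : 0 < ∫ z, Real.exp (x * F z) ∂(gI κ) := integral_exp_pos (h.eg_exp x).integrable
  refine div_le_div_of_nonneg_right ?_ hA.le
  have e1 : Real.sqrt (t' - t) ^ 2 = t' - t := Real.sq_sqrt (by linarith)
  refine Nm_mono h hx (s := Real.sqrt (t' - t)) ?_ ?_
  · rw [e1, Real.sq_sqrt ht.1, Real.sq_sqrt ht'.1]; ring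
  · rw [e1, Real.sq_sqrt (show 0 ≤ 1 - t' by linarith [ht'.2]),
      Real.sq_sqrt (show 0 ≤ 1 - t by linarith [ht.2])]; ring

lemma Phi_bd (h : C11 F D B L) (hx : 0 < x) {t : ℝ} (ht : t ∈ Set.Icc (0 : ℝ) 1) :
    0 ≤ Phi x F D t ∧ Phi x F D t ≤ Fintype.card κ * B ^ 2 := by
  have hA : 0 < ∫ z, Real.exp (x * F z) ∂(gI κ) := integral_exp_pos (h.eg_exp x).integrable
  have hW := h.W' hx (Real.sqrt (1 - t))
  unfold Phi Nm
  constructor
  · refine div_nonneg (integral_nonneg fun z => mul_nonneg (Real.exp_pos _).le ?_) hA.le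
    exact (G2_bd hW _).1
  · rw [div_le_iff₀ hA, ← Nm_one h hx (a := Real.sqrt t) (b := Real.sqrt (1 - t))
      (by rw [Real.sq_sqrt ht.1, Real.sq_sqrt (by linarith [ht.2])]; ring), ← integral_const_mul]
    refine integral_mono (EG.smul' ((hW.eg_exp x).mul hW.eg_G2) _).integrable
      ((EG.smul' (hW.eg_exp x) _).integrable.const_mul _) fun z => ?_
    simp only
    rw [mul_comm]
    exact mul_le_mul_of_nonneg_right (G2_bd hW _).2 (Real.exp_pos _).le

/-- **The entropy production is at most the time integral of `Φ`.** -/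
theorem KL_le (h : C11 F D B L) (hx : 0 < x) :
    KL F x ≤ x ^ 2 / 2 * ∫ t in (0 : ℝ)..1, Phi x F D t := by
  obtain ⟨C, hC, hst⟩ := chain_step h hx
  set A0 := ∫ z, Real.exp (x * F z) ∂(gI κ) with hA0
  have hA : 0 < A0 := integral_exp_pos (h.eg_exp x).integrable
  set N : ℝ := (Fintype.card κ : ℝ) with hN
  have hN0 : 0 ≤ N := Nat.cast_nonneg _
  -- the bound with `K` steps
  have key : ∀ K : ℕ, 0 < K → KL F x ≤ x ^ 2 / 2 * (∫ t in (0 : ℝ)..1, Phi x F D t) +
      (x ^ 2 / 2 * (N * B ^ 2) * (1 / K) + x * C * Real.sqrt (1 / K)) := by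
    intro K hK
    have hK' : (0 : ℝ) < K := Nat.cast_pos.2 hK
    set s : ℝ := Real.sqrt (1 / K) with hs
    have hs0 : 0 ≤ s := Real.sqrt_nonneg _
    have hs2 : s ^ 2 = 1 / K := Real.sq_sqrt (by positivity)
    have hs1 : s ≤ 1 := by
      rw [hs, Real.sqrt_le_one]
      rw [div_le_one hK']
      exact_mod_cast hK
    set a : ℕ → ℝ := fun k => Real.sqrt (k / K) with ha
    set b : ℕ → ℝ := fun k => Real.sqrt (1 - k / K) with hb
    have ha2 : ∀ k : ℕ, a k ^ 2 = k / K := fun k => Real.sq_sqrt (by positivity)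
    have hkK : ∀ k : ℕ, k ≤ K → (k : ℝ) / K ≤ 1 := fun k hk => by
      rw [div_le_one hK']; exact_mod_cast hk
    have hb2 : ∀ k : ℕ, k ≤ K → b k ^ 2 = 1 - k / K := fun k hk =>
      Real.sq_sqrt (by linarith [hkK k hk])
    set P : ℕ → ℝ := fun k => Phi x F D (k / K) with hP
    have ind : ∀ k : ℕ, k ≤ K → Nm x (a k) (b k) F (W x (b k) F) ≤ Nm x (a 0) (b 0) F
        (W x (b 0) F) + (x / 2 * (1 / K) * ∑ i ∈ Finset.range k, P (i + 1) +
          C * s ^ 3 * k) * A0 := by
      intro k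
      induction k with
      | zero => intro _; simp
      | succ k ih =>
        intro hk
        have h1 := ih (by omega)
        have h2 := hst (a k) s (a (k + 1)) (b (k + 1)) (b k) hs0 hs1
          (by rw [ha2, ha2, hs2]; push_cast; ring)
          (by rw [hb2 _ hk, hb2 _ (by omega), hs2]; push_cast; ring)
          (by rw [ha2, hb2 _ (by omega)]; ring)
        have h3 : Nm x (a (k + 1)) (b (k + 1)) F (G2 x (b (k + 1)) F D) = P (k + 1) * A0 := by
          rw [hP]
          simp only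
          unfold Phi
          rw [div_mul_cancel₀ _ hA.ne']
        rw [h3, hs2] at h2
        rw [Finset.sum_range_succ]
        push_cast
        nlinarith [h1, h2]
    have hfin := ind K le_rfl
    have eaK : a K = 1 := by rw [ha]; simp only; rw [div_self hK'.ne', Real.sqrt_one]
    have ebK : b K = 0 := by rw [hb]; simp only; rw [div_self hK'.ne', sub_self, Real.sqrt_zero]
    have ea0 : a 0 = 0 := by rw [ha]; simp
    have eb0 : b 0 = 1 := by rw [hb]; simp
    rw [eaK, ebK, ea0, eb0] at hfin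
    have e1 : Nm x 1 0 F (W x 0 F) = ∫ z, Real.exp (x * F z) * F z ∂(gI κ) := by
      unfold Nm
      refine integral_congr_ae (Eventually.of_forall fun z => ?_)
      simp only
      rw [W_zero hx, one_smul]
    have e2 : Nm x 0 1 F (W x 1 F) = A0 * W x 1 F 0 := by
      unfold Nm
      simp only [zero_smul, integral_const, probReal_univ, smul_eq_mul, one_mul]
      congr 1
      rw [h.lip.exp_W h.B0 hx]
      simp
      rfl
    rw [e1, e2] at hfin
    -- the Riemann sum
    have hmono : MonotoneOn (fun u : ℝ => Phi x F D (u / K)) (Set.Icc 0 (0 + (K : ℝ))) := by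
      intro u hu v hv huv
      have hu' : u / K ∈ Set.Icc (0 : ℝ) 1 := ⟨div_nonneg hu.1 hK'.le, by
        rw [div_le_one hK']; linarith [hu.2]⟩
      have hv' : v / K ∈ Set.Icc (0 : ℝ) 1 := ⟨div_nonneg hv.1 hK'.le, by
        rw [div_le_one hK']; linarith [hv.2]⟩
      exact Phi_mono h hx hu' hv' (div_le_div_of_nonneg_right huv hK'.le)
    have hsum := hmono.sum_le_integral
    have hint : ∫ u in (0 : ℝ)..(0 + (K : ℝ)), Phi x F D (u / K) =
        K * ∫ t in (0 : ℝ)..1, Phi x F D t := by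
      rw [intervalIntegral.integral_comp_div _ hK'.ne', zero_add, zero_div, div_self hK'.ne',
        smul_eq_mul]
    rw [hint] at hsum
    have hshift : ∑ i ∈ Finset.range K, P (i + 1) ≤
        K * (∫ t in (0 : ℝ)..1, Phi x F D t) + N * B ^ 2 := by
      have h1 : ∑ i ∈ Finset.range K, P (i + 1) + P 0 = ∑ i ∈ Finset.range K, P i + P K := by
        rw [← Finset.sum_range_succ', Finset.sum_range_succ]
      have h2 : ∑ i ∈ Finset.range K, P i ≤ K * (∫ t in (0 : ℝ)..1, Phi x F D t) := by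
        refine le_trans (le_of_eq ?_) hsum
        refine Finset.sum_congr rfl fun i _ => ?_
        rw [hP]; simp
      have h3 : P K ≤ N * B ^ 2 := by
        rw [hP]; simp only
        rw [div_self hK'.ne']
        exact (Phi_bd h hx ⟨zero_le_one, le_rfl⟩).2
      have h4 : 0 ≤ P 0 := by
        rw [hP]; simp only
        rw [Nat.cast_zero, zero_div]
        exact (Phi_bd h hx ⟨le_rfl, zero_le_one⟩).1
      linarith
    -- conclusion
    have hKL : KL F x = x / A0 * ((∫ z, Real.exp (x * F z) * F z ∂(gI κ)) -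
        A0 * W x 1 F 0) := by
      unfold KL
      rw [W_one_zero, ← hA0]
      field_simp
    rw [hKL]
    have h5 : (∫ z, Real.exp (x * F z) * F z ∂(gI κ)) - A0 * W x 1 F 0 ≤
        (x / 2 * (1 / K) * (K * (∫ t in (0 : ℝ)..1, Phi x F D t) + N * B ^ 2) +
          C * s ^ 3 * K) * A0 := by
      have h6 := mul_le_mul_of_nonneg_left hshift (show 0 ≤ x / 2 * (1 / K) by positivity)
      have h7 := mul_le_mul_of_nonneg_right h6 hA.le
      nlinarith [hfin, h7]
    have h6 := mul_le_mul_of_nonneg_left h5 (show 0 ≤ x / A0 by positivity)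
    refine h6.trans (le_of_eq ?_)
    have e3 : C * s ^ 3 * K = C * s := by
      have : s ^ 3 = s * (1 / K) := by rw [← hs2]; ring
      rw [this]
      field_simp
    rw [e3]
    field_simp
    ring
  have hlim : Tendsto (fun K : ℕ => x ^ 2 / 2 * (∫ t in (0 : ℝ)..1, Phi x F D t) +
      (x ^ 2 / 2 * (N * B ^ 2) * (1 / (K : ℝ)) + x * C * Real.sqrt (1 / K))) atTop
      (𝓝 (x ^ 2 / 2 * (∫ t in (0 : ℝ)..1, Phi x F D t) +
      (x ^ 2 / 2 * (N * B ^ 2) * 0 + x * C * Real.sqrt 0))) := by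
    have h1 : Tendsto (fun K : ℕ => 1 / (K : ℝ)) atTop (𝓝 0) := tendsto_one_div_atTop_nhds_zero_nat
    refine tendsto_const_nhds.add ((h1.const_mul _).add ?_)
    exact ((Real.continuous_sqrt.tendsto 0).comp h1).const_mul _
  have := ge_of_tendsto hlim (by
    filter_upwards [eventually_gt_atTop 0] with K hK using key K hK)
  simpa using this

/-- **Variance bound**: for a convex function of a standard Gaussian vector and every `x > 0`,
`Var F ≤ ∫_0^1 E_x |∇u_t|^2 dt`. -/
theorem var_le_Phi (h : C11 F D B L) (hc : Cv F) (hx : 0 < x) :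
    ∫ z, (F z - ∫ z', F z' ∂(gI κ)) ^ 2 ∂(gI κ) ≤ ∫ t in (0 : ℝ)..1, Phi x F D t := by
  have h1 := (var_le_KL h hc hx).trans (KL_le h hx)
  exact le_of_mul_le_mul_left h1 (by positivity)

end Vale.Agent.P146.H425
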