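import Vale.Agent.P146.H425.Gauss

/-!
One Gaussian layer of the exponent functional, `W x s F y = (1/x) log E exp (x F(y + s z))`, is
jointly convex in the exponent `x`, the position and any further parameter (theorem `layer`).
-/

open MeasureTheory ProbabilityTheory

namespace Vale.Agent.P146.H425

open Vale.Agent.P157.Lv

set_option linter.unusedSectionVars false

variable {κ : Type} [Fintype κ]

/-- The layer functional. -/
noncomputable def W (x s : ℝ) (F : (κ → ℝ) → ℝ) (y : κ → ℝ) : ℝ :=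
  1 / x * Real.log (∫ z, Real.exp (x * F (y + s • z)) ∂(gI κ))

/-- Lipschitz with constant `B`. -/
def LipB (F : (κ → ℝ) → ℝ) (B : ℝ) : Prop := ∀ y w, |F (y + w) - F y| ≤ B * ‖w‖

/-- Bounded gradient with a quadratic remainder. -/
structure C11 (F : (κ → ℝ) → ℝ) (D : κ → (κ → ℝ) → ℝ) (B L : ℝ) : Prop where
  B0 : 0 ≤ B
  L0 : 0 ≤ L
  lip : LipB F B
  meas : ∀ e, Measurable (D e)
  bd : ∀ e y, |D e y| ≤ B
  quad : ∀ y w, |F (y + w) - F y - ∑ e, D e y * w e| ≤ L * ‖w‖ ^ 2

variable {F G X : (κ → ℝ) → ℝ} {D : κ → (κ → ℝ) → ℝ} {B L x s : ℝ}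

lemma LipB.lip (h : LipB F B) (hB : 0 ≤ B) : Lip F := by
  refine ⟨B, hB, fun y y' => ?_⟩
  have := h y' (y - y')
  rwa [add_sub_cancel] at this

lemma LipB.comp_add (h : LipB F B) (v : κ → ℝ) : LipB (fun z => F (v + z)) B := by
  intro y w
  have := h (v + y) w
  rwa [add_assoc] at this

lemma LipB.lip_smul (h : LipB F B) (hB : 0 ≤ B) (y : κ → ℝ) (s : ℝ) :
    Lip (fun z => F (y + s • z)) := by
  refine ⟨B * |s|, by positivity, fun z z' => ?_⟩
  have h1 := h (y + s • z') (s • (z - z'))
  rw [add_assoc, ← smul_add, add_sub_cancel, norm_smul, Real.norm_eq_abs, ← mul_assoc] at h1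
  exact h1

lemma LipB.eg_exp (h : LipB F B) (hB : 0 ≤ B) (y : κ → ℝ) (s x : ℝ) :
    EG (fun z => Real.exp (x * F (y + s • z))) := (h.lip_smul hB y s).exp_eg x

lemma LipB.int_exp (h : LipB F B) (hB : 0 ≤ B) (y : κ → ℝ) (s x : ℝ) :
    Integrable (fun z => Real.exp (x * F (y + s • z))) (gI κ) := (h.eg_exp hB y s x).integrable

lemma LipB.pos (h : LipB F B) (hB : 0 ≤ B) (y : κ → ℝ) (s x : ℝ) :
    0 < ∫ z, Real.exp (x * F (y + s • z)) ∂(gI κ) :=
  integral_exp_pos (h.int_exp hB y s x)

lemma LipB.exp_W (h : LipB F B) (hB : 0 ≤ B) (hx : 0 < x) (y : κ → ℝ) :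
    Real.exp (x * W x s F y) = ∫ z, Real.exp (x * F (y + s • z)) ∂(gI κ) := by
  unfold W
  rw [← mul_assoc, mul_one_div_cancel hx.ne', one_mul, Real.exp_log (h.pos hB y s x)]

lemma W_zero (hx : 0 < x) (y : κ → ℝ) : W x 0 F y = F y := by
  unfold W
  simp only [zero_smul, add_zero, integral_const, probReal_univ, smul_eq_mul, one_mul,
    Real.log_exp]
  field_simp

/-- The layer functional is Lipschitz with the same constant. -/
lemma LipB.W (h : LipB F B) (hB : 0 ≤ B) (hx : 0 < x) : LipB (W x s F) B := by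
  have key : ∀ y w, H425.W x s F (y + w) ≤ H425.W x s F y + B * ‖w‖ := by
    intro y w
    have h1 : Real.exp (x * H425.W x s F (y + w)) ≤
        Real.exp (x * (H425.W x s F y + B * ‖w‖)) := by
      rw [mul_add, Real.exp_add, h.exp_W hB hx, h.exp_W hB hx, ← integral_mul_const]
      refine integral_mono (h.int_exp hB _ _ _) ((h.int_exp hB _ _ _).mul_const _) fun z => ?_
      simp only
      rw [← Real.exp_add]
      refine Real.exp_le_exp.2 ?_
      have h2 := (le_abs_self _).trans (h (y + s • z) w)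
      have e : y + w + s • z = y + s • z + w := by abel
      rw [e, ← mul_add]
      exact mul_le_mul_of_nonneg_left (by linarith) hx.le
    exact le_of_mul_le_mul_left (Real.exp_le_exp.1 h1) hx
  intro y w
  rw [abs_le]
  have h1 := key y w
  have h2 := key (y + w) (-w)
  rw [add_neg_cancel_right, norm_neg] at h2
  constructor <;> linarith

/-- semigroup property -/
lemma W_W (h : LipB F B) (hB : 0 ≤ B) (hx : 0 < x) {a b c : ℝ} (habc : a ^ 2 + b ^ 2 = c ^ 2)
    (y : κ → ℝ) : W x a (W x b F) y = W x c F y := by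
  have h1 : ∀ z, Real.exp (x * W x b F (y + a • z)) =
      ∫ z', Real.exp (x * F (y + a • z + b • z')) ∂(gI κ) := fun z => h.exp_W hB hx _
  have eg : EG (fun z => Real.exp (x * F z)) := (h.lip hB).exp_eg x
  have h2 := gI_rot eg habc y
  unfold W at h1 ⊢
  simp_rw [h1]
  rw [h2]

lemma int_coord (i : κ) : ∫ z : κ → ℝ, z i ∂(gI κ) = 0 := by
  classical
  have h := PD.stein (e := i) (H := fun _ : κ → ℝ => (1 : ℝ)) (H' := fun _ => 0)
    (PD.const 1) (EG.const 1) (EG.const 0)
  simpa using h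

/-- the lower bound by a translation -/
lemma lower_step (h : LipB X B) (hB : 0 ≤ B) (hx : 0 < x) (y g : κ → ℝ) :
    ∫ z, X (y + s • z + (x * s ^ 2) • g) ∂(gI κ) - x / 2 * s ^ 2 * ∑ e, g e ^ 2 ≤ W x s X y := by
  have h1 := gI_shift ((x * s) • g) (fun z => Real.exp (x * X (y + s • z)))
  set f : (κ → ℝ) → ℝ := fun z => -(∑ i, ((x * s) • g) i * z i) -
    (∑ i, ((x * s) • g) i ^ 2) / 2 + x * X (y + s • z + (x * s ^ 2) • g) with hf
  have h2 : ∫ z, Real.exp (x * X (y + s • z)) ∂(gI κ) = ∫ z, Real.exp (f z) ∂(gI κ) := by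
    rw [h1]
    refine integral_congr_ae (Filter.Eventually.of_forall fun z => ?_)
    simp only [hf]
    rw [← Real.exp_add]
    congr 3
    rw [smul_add, smul_smul, ← add_assoc]
    congr 2
    ring_nf
  have hX : Lip (fun z : κ → ℝ => X (y + s • z + (x * s ^ 2) • g)) := by
    have := h.lip_smul hB (y + (x * s ^ 2) • g) s
    refine cast ?_ this
    congr 1
    funext z
    congr 1
    abel
  have hl : Lip (fun z : κ → ℝ => ∑ i, ((x * s) • g) i * z i) :=
    Lip.sum _ fun i _ => (Lip.coord i).const_mul _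
  have hfl : Lip f := by
    have := ((hl.const_mul (-1)).add (Lip.const (-((∑ i, ((x * s) • g) i ^ 2) / 2)))).add
      (hX.const_mul x)
    refine cast ?_ this
    congr 1
    funext z
    simp only [hf]
    ring
  have h3 : Real.exp (∫ z, f z ∂(gI κ)) ≤ ∫ z, Real.exp (f z) ∂(gI κ) := by
    have he : Integrable (fun z => Real.exp (f z)) (gI κ) := by
      simpa using (hfl.exp_eg 1).integrable
    exact (convexOn_exp.map_integral_le Real.continuous_exp.continuousOn isClosed_univ
      (Filter.Eventually.of_forall fun _ => Set.mem_univ _) hfl.eg.integrable he)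
  have h4 : ∫ z, f z ∂(gI κ) = x * ∫ z, X (y + s • z + (x * s ^ 2) • g) ∂(gI κ) -
      x ^ 2 * s ^ 2 * (∑ e, g e ^ 2) / 2 := by
    have e1 : ∫ z, (∑ i, ((x * s) • g) i * z i) ∂(gI κ) = 0 := by
      rw [integral_finsetSum _ fun i _ => ((EG.coord i).const_mul _).integrable]
      refine Finset.sum_eq_zero fun i _ => ?_
      rw [integral_const_mul, int_coord, mul_zero]
    have e2 : ∫ z, f z ∂(gI κ) = -(∫ z, (∑ i, ((x * s) • g) i * z i) ∂(gI κ)) -
        (∑ i, ((x * s) • g) i ^ 2) / 2 +
        x * ∫ z, X (y + s • z + (x * s ^ 2) • g) ∂(gI κ) := by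
      have i3 : Integrable (fun z : κ → ℝ => -(∑ i, ((x * s) • g) i * z i)) (gI κ) :=
        hl.eg.integrable.neg
      have i4 : Integrable (fun _ : κ → ℝ => (∑ i, ((x * s) • g) i ^ 2) / 2) (gI κ) :=
        integrable_const _
      have i1 : Integrable (fun z : κ → ℝ => -(∑ i, ((x * s) • g) i * z i) -
        (∑ i, ((x * s) • g) i ^ 2) / 2) (gI κ) := i3.sub i4
      have i2 : Integrable (fun z : κ → ℝ => x * X (y + s • z + (x * s ^ 2) • g)) (gI κ) :=
        hX.eg.integrable.const_mul x
      simp only [hf]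
      rw [integral_add i1 i2, integral_sub i3 i4, integral_neg, integral_const_mul]
      simp
    rw [e2, e1]
    have e3 : ∑ i, ((x * s) • g) i ^ 2 = x ^ 2 * s ^ 2 * ∑ e, g e ^ 2 := by
      rw [Finset.mul_sum]
      exact Finset.sum_congr rfl fun i _ => by simp only [Pi.smul_apply, smul_eq_mul]; ring
    rw [e3]
    ring
  rw [h2.symm] at h3
  have h5 := (Real.le_log_iff_exp_le (h.pos hB y s x)).2 h3
  rw [h4] at h5
  unfold W
  rw [one_div, ← div_eq_inv_mul, le_div_iff₀ hx]
  nlinarith [h5]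

/-! ### elementary -/

lemma exp_le_quad (v : ℝ) : Real.exp v ≤ 1 + v + v ^ 2 * Real.exp |v| := by
  have h1 : Real.exp v - 1 ≤ v * Real.exp v := by
    have h2 := Real.add_one_le_exp (-v)
    have h3 : Real.exp v * (-v + 1) ≤ Real.exp v * Real.exp (-v) :=
      mul_le_mul_of_nonneg_left h2 (Real.exp_pos v).le
    rw [← Real.exp_add, add_neg_cancel, Real.exp_zero] at h3
    linarith
  have h2 : |Real.exp v - 1| ≤ |v| * Real.exp |v| := by
    rcases le_total 0 v with h | h
    · rw [abs_of_nonneg h, abs_of_nonneg (by linarith [Real.add_one_le_exp v])]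
      exact h1
    · have h3 : Real.exp v ≤ 1 := Real.exp_le_one_iff.2 h
      rw [abs_of_nonpos (by linarith), abs_of_nonpos h]
      have h4 := Real.add_one_le_exp v
      have h5 : 1 ≤ Real.exp (-v) := Real.one_le_exp (by linarith)
      nlinarith [mul_le_mul_of_nonneg_left h5 (show 0 ≤ -v by linarith)]
  have h3 : Real.exp v - 1 - v ≤ v * (Real.exp v - 1) := by linarith
  have h4 : v * (Real.exp v - 1) ≤ |v| * (|v| * Real.exp |v|) := by
    refine (le_abs_self _).trans ?_
    rw [abs_mul]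
    exact mul_le_mul_of_nonneg_left h2 (abs_nonneg v)
  have h5 : |v| * (|v| * Real.exp |v|) = v ^ 2 * Real.exp |v| := by
    rw [← mul_assoc, abs_mul_abs_self, sq]
  linarith

lemma eg_norm : EG (fun z : κ → ℝ => ‖z‖) :=
  ⟨measurable_norm, 1, 1, zero_le_one, zero_le_one, fun z => by
    rw [one_mul, one_mul, abs_of_nonneg (norm_nonneg z)]
    exact (Real.add_one_le_exp ‖z‖).trans' (by linarith)⟩

lemma eg_exp_norm (a : ℝ) : EG (fun z : κ → ℝ => Real.exp (a * ‖z‖)) :=
  ⟨(measurable_norm.const_mul a).exp, 1, |a|, zero_le_one, abs_nonneg a, fun z => by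
    rw [one_mul, abs_of_pos (Real.exp_pos _)]
    exact Real.exp_le_exp.2 (mul_le_mul_of_nonneg_right (le_abs_self a) (norm_nonneg z))⟩

lemma abs_sum_le {g w : κ → ℝ} {B : ℝ} (hB : 0 ≤ B) (hg : ∀ e, |g e| ≤ B) :
    |∑ e, g e * w e| ≤ Fintype.card κ * (B * ‖w‖) := by
  refine (Finset.abs_sum_le_sum_abs _ _).trans ?_
  have h1 : ∀ e ∈ (Finset.univ : Finset κ), |g e * w e| ≤ B * ‖w‖ := by
    intro e _
    rw [abs_mul]
    exact mul_le_mul (hg e) (by simpa using norm_le_pi_norm w e) (abs_nonneg _) hB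
  refine (Finset.sum_le_card_nsmul _ _ _ h1).trans ?_
  rw [nsmul_eq_mul, Finset.card_univ]

/-- Exponential moments of a bounded function under a tilted law. -/
lemma tilt_exp {q t : (κ → ℝ) → ℝ} (hq : EG q) (hq0 : ∀ z, 0 ≤ q z) (hA : 0 < ∫ z, q z ∂(gI κ))
    (ht : Measurable t) {τ : ℝ} (hb : ∀ z, |t z| ≤ τ) :
    (∫ z, q z ∂(gI κ)) * Real.exp ((∫ z, q z * t z ∂(gI κ)) / ∫ z, q z ∂(gI κ)) ≤
      ∫ z, q z * Real.exp (t z) ∂(gI κ) ∧
    ∫ z, q z * Real.exp (t z) ∂(gI κ) ≤
      (∫ z, q z ∂(gI κ)) *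
        Real.exp ((∫ z, q z * t z ∂(gI κ)) / (∫ z, q z ∂(gI κ)) + 2 * τ ^ 2) := by
  set A := ∫ z, q z ∂(gI κ) with hAd
  set T1 := ∫ z, q z * t z ∂(gI κ) with hT1
  have hτ : 0 ≤ τ := (abs_nonneg _).trans (hb 0)
  have et : EG t := EG.of_bdd ht hb
  have ee : EG fun z => Real.exp (t z) := EG.of_bdd ht.exp (C := Real.exp τ) fun z => by
    rw [abs_of_pos (Real.exp_pos _)]
    exact Real.exp_le_exp.2 ((le_abs_self _).trans (hb z))
  have i1 := (hq.mul et).integrable
  have i2 := (hq.mul ee).integrable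
  have i0 := hq.integrable
  have hT : |T1 / A| ≤ τ := by
    rw [abs_div, abs_of_pos hA, div_le_iff₀ hA, hT1, hAd]
    refine (abs_integral_le_integral_abs).trans ?_
    rw [← integral_const_mul]
    refine integral_mono i1.abs (i0.const_mul τ) fun z => ?_
    simp only
    rw [abs_mul, abs_of_nonneg (hq0 z), mul_comm]
    exact mul_le_mul_of_nonneg_right (hb z) (hq0 z)
  constructor
  · have h1 : ∫ z, (Real.exp (T1 / A) * (1 - T1 / A)) * q z +
        Real.exp (T1 / A) * (q z * t z) ∂(gI κ) = A * Real.exp (T1 / A) := by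
      rw [integral_add (i0.const_mul _) (i1.const_mul _), integral_const_mul,
        integral_const_mul, ← hAd, ← hT1]
      field_simp
      ring
    rw [← h1]
    refine integral_mono ((i0.const_mul _).add (i1.const_mul _)) i2 fun z => ?_
    simp only
    have h2 := Real.add_one_le_exp (t z - T1 / A)
    have h3 : Real.exp (t z) = Real.exp (T1 / A) * Real.exp (t z - T1 / A) := by
      rw [← Real.exp_add]; congr 1; ring
    rw [h3]
    have h4 := mul_le_mul_of_nonneg_left h2 (mul_nonneg (hq0 z) (Real.exp_pos (T1 / A)).le)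
    nlinarith [h4]
  · rcases le_total τ 1 with h1 | h1
    · have h2 : ∀ z, Real.exp (t z) ≤ 1 + t z + τ ^ 2 := by
        intro z
        have h3 : |t z| ≤ 1 := (hb z).trans h1
        have h4 := (le_abs_self _).trans (Real.abs_exp_sub_one_sub_id_le h3)
        have h5 : (t z) ^ 2 ≤ τ ^ 2 := sq_le_sq' (by linarith [(abs_le.1 (hb z)).1])
          (abs_le.1 (hb z)).2
        linarith
      have h3 : ∫ z, q z * Real.exp (t z) ∂(gI κ) ≤ ∫ z, (1 + τ ^ 2) * q z + q z * t z ∂(gI κ) := by
        refine integral_mono i2 ((i0.const_mul _).add i1) fun z => ?_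
        simp only
        nlinarith [mul_le_mul_of_nonneg_left (h2 z) (hq0 z)]
      rw [integral_add (i0.const_mul _) i1, integral_const_mul, ← hAd, ← hT1] at h3
      refine h3.trans ?_
      have h4 := Real.add_one_le_exp (T1 / A + 2 * τ ^ 2)
      have h5 := mul_le_mul_of_nonneg_left h4 hA.le
      have h6 : A * (T1 / A + 2 * τ ^ 2 + 1) = T1 + (2 * τ ^ 2 + 1) * A := by
        field_simp
        ring
      rw [h6] at h5
      nlinarith [h5, mul_nonneg (sq_nonneg τ) hA.le]
    · have h3 : ∫ z, q z * Real.exp (t z) ∂(gI κ) ≤ ∫ z, Real.exp τ * q z ∂(gI κ) := by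
        refine integral_mono i2 (i0.const_mul _) fun z => ?_
        simp only
        rw [mul_comm]
        exact mul_le_mul_of_nonneg_right (Real.exp_le_exp.2 ((le_abs_self _).trans (hb z)))
          (hq0 z)
      rw [integral_const_mul, ← hAd] at h3
      refine h3.trans ?_
      rw [mul_comm]
      refine mul_le_mul_of_nonneg_left (Real.exp_le_exp.2 ?_) hA.le
      nlinarith [(abs_le.1 hT).1]

/-- The layer functional has a bounded gradient and a quadratic remainder. -/
theorem C11.W (h : C11 F D B L) (hx : 0 < x) (s : ℝ) :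
    C11 (W x s F) (fun e y => (∫ z, Real.exp (x * F (y + s • z)) * D e (y + s • z) ∂(gI κ)) /
      ∫ z, Real.exp (x * F (y + s • z)) ∂(gI κ)) B
      (L + 2 * x * (Fintype.card κ * B) ^ 2) := by
  have hF : Measurable F := (h.lip.lip h.B0).measurable
  have eD : ∀ e y, EG fun z => D e (y + s • z) := fun e y =>
    EG.of_bdd ((h.meas e).comp (by fun_prop)) fun z => h.bd e _
  have hpos := fun y => h.lip.pos h.B0 y s x
  refine ⟨h.B0, ?_, h.lip.W h.B0 hx, fun e => ?_, fun e y => ?_, fun y w => ?_⟩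
  · have := h.L0
    positivity
  · refine Measurable.div ?_ ?_
    · refine (StronglyMeasurable.integral_prod_right' (ν := gI κ)
        (f := fun p : (κ → ℝ) × (κ → ℝ) => Real.exp (x * F (p.1 + s • p.2)) *
          D e (p.1 + s • p.2)) ?_).measurable
      refine Measurable.stronglyMeasurable ?_
      have m1 : Measurable fun p : (κ → ℝ) × (κ → ℝ) => p.1 + s • p.2 := by fun_prop
      exact ((hF.comp m1).const_mul x).exp.mul ((h.meas e).comp m1)
    · refine (StronglyMeasurable.integral_prod_right' (ν := gI κ)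
        (f := fun p : (κ → ℝ) × (κ → ℝ) => Real.exp (x * F (p.1 + s • p.2))) ?_).measurable
      refine Measurable.stronglyMeasurable ?_
      have m1 : Measurable fun p : (κ → ℝ) × (κ → ℝ) => p.1 + s • p.2 := by fun_prop
      exact ((hF.comp m1).const_mul x).exp
  · rw [abs_div, abs_of_pos (hpos y), div_le_iff₀ (hpos y)]
    refine (abs_integral_le_integral_abs).trans ?_
    rw [← integral_const_mul]
    refine integral_mono ((h.lip.eg_exp h.B0 y s x).mul (eD e y)).integrable.abs
      ((h.lip.int_exp h.B0 y s x).const_mul B) fun z => ?_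
    simp only
    rw [abs_mul, abs_of_pos (Real.exp_pos _), mul_comm]
    exact mul_le_mul_of_nonneg_right (h.bd e _) (Real.exp_pos _).le
  · have hN : (0 : ℝ) ≤ Fintype.card κ := Nat.cast_nonneg _
    have hB := h.B0
    set t : (κ → ℝ) → ℝ := fun z => x * ∑ e, D e (y + s • z) * w e with ht
    set τ : ℝ := x * (Fintype.card κ * (B * ‖w‖)) with hτ
    have hb : ∀ z, |t z| ≤ τ := by
      intro z
      rw [ht, hτ]
      simp only
      rw [abs_mul, abs_of_pos hx]
      exact mul_le_mul_of_nonneg_left (abs_sum_le hB fun e => h.bd e _) hx.le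
    have mt : Measurable t := by
      refine Measurable.const_mul ?_ x
      exact Finset.measurable_fun_sum _ fun e _ =>
        (((h.meas e).comp (by fun_prop : Measurable fun z : κ → ℝ => y + s • z)).mul_const _)
    obtain ⟨h1, h2⟩ := tilt_exp (h.lip.eg_exp hB y s x) (fun z => (Real.exp_pos _).le) (hpos y)
      mt hb
    have hT : (∫ z, Real.exp (x * F (y + s • z)) * t z ∂(gI κ)) /
        ∫ z, Real.exp (x * F (y + s • z)) ∂(gI κ) =
        x * ∑ e, (∫ z, Real.exp (x * F (y + s • z)) * D e (y + s • z) ∂(gI κ)) /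
          (∫ z, Real.exp (x * F (y + s • z)) ∂(gI κ)) * w e := by
      have e1 : ∀ z, Real.exp (x * F (y + s • z)) * t z =
          ∑ e, (x * w e) * (Real.exp (x * F (y + s • z)) * D e (y + s • z)) := by
        intro z
        rw [ht]
        simp only
        rw [Finset.mul_sum, Finset.mul_sum]
        exact Finset.sum_congr rfl fun e _ => by ring
      simp_rw [e1]
      rw [integral_finsetSum _ fun e _ =>
        (((h.lip.eg_exp hB y s x).mul (eD e y)).integrable.const_mul _), Finset.sum_div,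
        Finset.mul_sum]
      refine Finset.sum_congr rfl fun e _ => ?_
      rw [integral_const_mul]
      ring
    rw [hT] at h1 h2
    set A := ∫ z, Real.exp (x * F (y + s • z)) ∂(gI κ) with hA
    set S := ∑ e, (∫ z, Real.exp (x * F (y + s • z)) * D e (y + s • z) ∂(gI κ)) / A * w e
      with hS
    have ee : EG fun z => Real.exp (t z) := EG.of_bdd mt.exp (C := Real.exp τ) fun z => by
      rw [abs_of_pos (Real.exp_pos _)]
      exact Real.exp_le_exp.2 ((le_abs_self _).trans (hb z))
    have i2 := ((h.lip.eg_exp hB y s x).mul ee).integrable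
    have hq : ∀ z, |x * F (y + w + s • z) - x * F (y + s • z) - t z| ≤ x * (L * ‖w‖ ^ 2) := by
      intro z
      have h3 := h.quad (y + s • z) w
      have e : y + w + s • z = y + s • z + w := by abel
      rw [e, ht]
      simp only
      rw [← mul_sub, ← mul_sub, abs_mul, abs_of_pos hx]
      exact mul_le_mul_of_nonneg_left h3 hx.le
    have hWw := h.lip.exp_W (s := s) hB hx (y + w)
    have hWy := h.lip.exp_W (s := s) hB hx y
    have up : x * H425.W x s F (y + w) ≤ x * H425.W x s F y + x * S + 2 * τ ^ 2 +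
        x * (L * ‖w‖ ^ 2) := by
      rw [← Real.exp_le_exp, hWw]
      have h4 : ∫ z, Real.exp (x * F (y + w + s • z)) ∂(gI κ) ≤
          (∫ z, Real.exp (x * F (y + s • z)) * Real.exp (t z) ∂(gI κ)) *
            Real.exp (x * (L * ‖w‖ ^ 2)) := by
        rw [← integral_mul_const]
        refine integral_mono (h.lip.int_exp hB _ _ _) (i2.mul_const _) fun z => ?_
        simp only
        rw [← Real.exp_add, ← Real.exp_add]
        exact Real.exp_le_exp.2 (by linarith [(abs_le.1 (hq z)).2])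
      refine h4.trans ((mul_le_mul_of_nonneg_right h2 (Real.exp_pos _).le).trans (le_of_eq ?_))
      rw [hA, ← hWy, ← Real.exp_add, ← Real.exp_add]
      congr 1
      ring
    have lo : x * H425.W x s F y + x * S - x * (L * ‖w‖ ^ 2) ≤ x * H425.W x s F (y + w) := by
      rw [← Real.exp_le_exp, hWw]
      have h4 : (∫ z, Real.exp (x * F (y + s • z)) * Real.exp (t z) ∂(gI κ)) *
            Real.exp (-(x * (L * ‖w‖ ^ 2))) ≤ ∫ z, Real.exp (x * F (y + w + s • z)) ∂(gI κ) := by
        rw [← integral_mul_const]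
        refine integral_mono (i2.mul_const _) (h.lip.int_exp hB _ _ _) fun z => ?_
        simp only
        rw [← Real.exp_add, ← Real.exp_add]
        exact Real.exp_le_exp.2 (by linarith [(abs_le.1 (hq z)).1])
      refine le_trans (le_of_eq ?_)
        ((mul_le_mul_of_nonneg_right h1 (Real.exp_pos _).le).trans h4)
      rw [hA, ← hWy, ← Real.exp_add, ← Real.exp_add]
      congr 1
    have e5 : 2 * τ ^ 2 = x * (2 * x * (Fintype.card κ * B) ^ 2 * ‖w‖ ^ 2) := by
      rw [hτ]; ring
    have e6 : x * (H425.W x s F (y + w) - H425.W x s F y - S) ≤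
        x * ((L + 2 * x * (Fintype.card κ * B) ^ 2) * ‖w‖ ^ 2) := by
      rw [e5] at up
      nlinarith [up]
    have e7 : x * (-((L + 2 * x * (Fintype.card κ * B) ^ 2) * ‖w‖ ^ 2)) ≤
        x * (H425.W x s F (y + w) - H425.W x s F y - S) := by
      have : 0 ≤ x * (2 * x * (Fintype.card κ * B) ^ 2 * ‖w‖ ^ 2) := by positivity
      nlinarith [lo, this]
    rw [abs_le]
    exact ⟨le_of_mul_le_mul_left e7 hx, le_of_mul_le_mul_left e6 hx⟩

/-- one small layer, from above -/
theorem upper_step (hx : 0 < x) (hB : 0 ≤ B) (hL : 0 ≤ L) : ∃ C : ℝ, 0 ≤ C ∧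
    ∀ (X : (κ → ℝ) → ℝ) (D : κ → (κ → ℝ) → ℝ), C11 X D B L → ∀ s, 0 ≤ s → s ≤ 1 → ∀ y,
      W x s X y ≤ ∫ z, X (y + s • z + (x * s ^ 2) • (fun e => D e y)) ∂(gI κ) -
        x / 2 * s ^ 2 * ∑ e, D e y ^ 2 + C * s ^ 4 := by
  set ρ : (κ → ℝ) → ℝ := fun z => x * L * (‖z‖ + x * B) ^ 2 with hρ
  set lam : (κ → ℝ) → ℝ := fun z => x * B * (1 + Fintype.card κ) * (‖z‖ + x * B) with hlam
  set ρ0 := ∫ z, ρ z ∂(gI κ) with hρ0
  set l0 := ∫ z, lam z ∂(gI κ) with hl0
  have hN : (0 : ℝ) ≤ Fintype.card κ := Nat.cast_nonneg _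
  have eρ : EG ρ := ((eg_norm.add (EG.const (x * B))).pow 2).const_mul _
  have el : EG lam := (eg_norm.add (EG.const (x * B))).const_mul _
  have pρ : ∀ z, 0 ≤ ρ z := fun z => by rw [hρ]; positivity
  have pl : ∀ z, 0 ≤ lam z := fun z => by rw [hlam]; positivity
  have pρ0 : 0 ≤ ρ0 := integral_nonneg pρ
  have pl0 : 0 ≤ l0 := integral_nonneg pl
  set Q : (κ → ℝ) → ℝ := fun z => (ρ z + ρ0) ^ 2 * Real.exp (lam z + l0) with hQ
  have eQ : EG Q := by
    refine ((eρ.add (EG.const ρ0)).pow 2).mul ?_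
    have e1 : (fun z => Real.exp (lam z + l0)) = fun z : κ → ℝ =>
        Real.exp (x * B * (1 + Fintype.card κ) * (x * B) + l0) *
          Real.exp ((x * B * (1 + Fintype.card κ)) * ‖z‖) := by
      funext z
      rw [hlam]
      simp only
      rw [← Real.exp_add]
      congr 1
      ring
    rw [e1]
    exact (eg_exp_norm _).const_mul _
  have pQ : ∀ z, 0 ≤ Q z := fun z => by rw [hQ]; positivity
  refine ⟨1 / x * ∫ z, Q z ∂(gI κ), mul_nonneg (by positivity) (integral_nonneg pQ),
    fun X D h s hs hs1 y => ?_⟩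
  set g : κ → ℝ := fun e => D e y with hg
  have hgB : ∀ e, |g e| ≤ B := fun e => h.bd e y
  have hgn : ‖g‖ ≤ B := (pi_norm_le_iff_of_nonneg hB).2 fun e => by simpa using hgB e
  set w : (κ → ℝ) → κ → ℝ := fun z => s • z + (x * s ^ 2) • g with hw
  have hwn : ∀ z, ‖w z‖ ≤ s * (‖z‖ + x * B) := by
    intro z
    rw [hw]
    simp only
    refine (norm_add_le _ _).trans ?_
    rw [norm_smul, norm_smul, Real.norm_eq_abs, Real.norm_eq_abs, abs_of_nonneg hs,
      abs_of_nonneg (by positivity : 0 ≤ x * s ^ 2)]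
    have h1 : x * s ^ 2 * ‖g‖ ≤ x * s ^ 2 * B := mul_le_mul_of_nonneg_left hgn (by positivity)
    have h2 : s ^ 2 ≤ s := by nlinarith
    have h3 : x * s ^ 2 * B ≤ x * s * B := by
      refine mul_le_mul_of_nonneg_right (mul_le_mul_of_nonneg_left h2 hx.le) hB
    nlinarith
  set r : (κ → ℝ) → ℝ := fun z => X (y + w z) - X y - ∑ e, g e * w z e with hr
  have hr2 : ∀ z, |x * r z| ≤ s ^ 2 * ρ z := by
    intro z
    rw [abs_mul, abs_of_pos hx]
    have h1 := h.quad y (w z)
    have h2 : ‖w z‖ ^ 2 ≤ (s * (‖z‖ + x * B)) ^ 2 :=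
      pow_le_pow_left₀ (norm_nonneg _) (hwn z) 2
    have h3 : |r z| ≤ L * (s * (‖z‖ + x * B)) ^ 2 := h1.trans (mul_le_mul_of_nonneg_left h2 hL)
    calc x * |r z| ≤ x * (L * (s * (‖z‖ + x * B)) ^ 2) := mul_le_mul_of_nonneg_left h3 hx.le
      _ = s ^ 2 * ρ z := by rw [hρ]; ring
  have hr1 : ∀ z, |x * r z| ≤ lam z := by
    intro z
    rw [abs_mul, abs_of_pos hx]
    have h1 := h.lip y (w z)
    have h2 := abs_sum_le (w := w z) hB hgB
    have h3 : |r z| ≤ B * ‖w z‖ + Fintype.card κ * (B * ‖w z‖) :=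
      (abs_sub _ _).trans (add_le_add h1 h2)
    have h4 : ‖w z‖ ≤ ‖z‖ + x * B := (hwn z).trans (by
      have : 0 ≤ ‖z‖ + x * B := by positivity
      nlinarith)
    have h5 : |r z| ≤ B * (1 + Fintype.card κ) * (‖z‖ + x * B) := by
      refine h3.trans ?_
      have : B * ‖w z‖ + Fintype.card κ * (B * ‖w z‖) = B * (1 + Fintype.card κ) * ‖w z‖ := by
        ring
      rw [this]
      exact mul_le_mul_of_nonneg_left h4 (by positivity)
    calc x * |r z| ≤ x * (B * (1 + Fintype.card κ) * (‖z‖ + x * B)) :=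
        mul_le_mul_of_nonneg_left h5 hx.le
      _ = lam z := by rw [hlam]; ring
  have hXm : Measurable X := (h.lip.lip hB).measurable
  have mr : Measurable r := by
    have m1 : Measurable w := by rw [hw]; fun_prop
    refine (((hXm.comp (m1.const_add y))).sub_const _).sub ?_
    exact Finset.measurable_fun_sum _ fun e _ => ((measurable_pi_apply e).comp m1).const_mul _
  have er : EG fun z => x * r z := el.mono (mr.const_mul x) fun z => by
    rw [abs_of_nonneg (pl z)]
    exact hr1 z
  set m := ∫ z, x * r z ∂(gI κ) with hm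
  have hm2 : |m| ≤ s ^ 2 * ρ0 := by
    refine (abs_integral_le_integral_abs).trans ?_
    rw [hρ0, ← integral_const_mul]
    exact integral_mono er.integrable.abs (eρ.integrable.const_mul _) hr2
  have hm1 : |m| ≤ l0 := by
    refine (abs_integral_le_integral_abs).trans ?_
    exact integral_mono er.integrable.abs el.integrable hr1
  set v : (κ → ℝ) → ℝ := fun z => x * r z - m with hv
  have ev : EG v := er.sub (EG.const m)
  have hv0 : ∫ z, v z ∂(gI κ) = 0 := by
    rw [hv]
    simp only
    rw [integral_sub er.integrable (integrable_const _), ← hm]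
    simp
  have hvQ : ∀ z, v z ^ 2 * Real.exp |v z| ≤ s ^ 4 * Q z := by
    intro z
    have h1 : |v z| ≤ s ^ 2 * (ρ z + ρ0) := by
      refine (abs_sub _ _).trans ?_
      rw [mul_add]
      exact add_le_add (hr2 z) hm2
    have h2 : |v z| ≤ lam z + l0 := (abs_sub _ _).trans (add_le_add (hr1 z) hm1)
    have h3 : v z ^ 2 ≤ s ^ 4 * (ρ z + ρ0) ^ 2 := by
      rw [← sq_abs]
      calc |v z| ^ 2 ≤ (s ^ 2 * (ρ z + ρ0)) ^ 2 := pow_le_pow_left₀ (abs_nonneg _) h1 2
        _ = _ := by ring
    calc v z ^ 2 * Real.exp |v z| ≤ (s ^ 4 * (ρ z + ρ0) ^ 2) * Real.exp (lam z + l0) := by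
          refine mul_le_mul h3 (Real.exp_le_exp.2 h2) (Real.exp_pos _).le (by positivity)
      _ = s ^ 4 * Q z := by rw [hQ]; ring
  -- the exponential moment of `v`
  have hEv : ∫ z, Real.exp (v z) ∂(gI κ) ≤ Real.exp (s ^ 4 * ∫ z, Q z ∂(gI κ)) := by
    have i1 : Integrable (fun z => Real.exp (v z)) (gI κ) := by
      have h1 : EG fun z => 1 + v z + s ^ 4 * Q z :=
        ((EG.const 1).add ev).add (eQ.const_mul _)
      refine (h1.mono ev.meas.exp fun z => ?_).integrable
      rw [abs_of_pos (Real.exp_pos _)]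
      exact ((exp_le_quad (v z)).trans (by linarith [hvQ z])).trans (le_abs_self _)
    have h2 : ∫ z, Real.exp (v z) ∂(gI κ) ≤ ∫ z, (1 + v z) + s ^ 4 * Q z ∂(gI κ) := by
      refine integral_mono i1 (((integrable_const _).add ev.integrable).add
        (eQ.integrable.const_mul _)) fun z => ?_
      simp only
      linarith [exp_le_quad (v z), hvQ z]
    have i3 : Integrable (fun z => 1 + v z) (gI κ) := (integrable_const _).add ev.integrable
    rw [integral_add i3 (eQ.integrable.const_mul _),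
      integral_add (integrable_const _) ev.integrable, hv0, integral_const_mul] at h2
    simp only [integral_const, probReal_univ, smul_eq_mul, one_mul, add_zero] at h2
    refine h2.trans ?_
    have := Real.add_one_le_exp (s ^ 4 * ∫ z, Q z ∂(gI κ))
    linarith
  -- translation
  have h1 := gI_shift ((x * s) • g) (fun z => Real.exp (x * X (y + s • z)))
  set c0 := x * X y + x ^ 2 * s ^ 2 * (∑ e, g e ^ 2) / 2 + m with hc0
  have h2 : ∫ z, Real.exp (x * X (y + s • z)) ∂(gI κ) =
      Real.exp c0 * ∫ z, Real.exp (v z) ∂(gI κ) := by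
    rw [h1, ← integral_const_mul]
    refine integral_congr_ae (Filter.Eventually.of_forall fun z => ?_)
    simp only
    rw [← Real.exp_add, ← Real.exp_add]
    congr 1
    have e1 : y + s • (z + (x * s) • g) = y + w z := by
      rw [hw]
      simp only
      rw [smul_add, smul_smul]
      congr 3
      ring
    have e2 : ∑ e, g e * w z e = s * ∑ e, g e * z e + x * s ^ 2 * ∑ e, g e ^ 2 := by
      rw [Finset.mul_sum, Finset.mul_sum, ← Finset.sum_add_distrib]
      refine Finset.sum_congr rfl fun e _ => ?_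
      rw [hw]
      simp only [Pi.add_apply, Pi.smul_apply, smul_eq_mul]
      ring
    have e3 : ∑ i, ((x * s) • g) i * z i = x * s * ∑ e, g e * z e := by
      rw [Finset.mul_sum]
      exact Finset.sum_congr rfl fun e _ => by simp only [Pi.smul_apply, smul_eq_mul]; ring
    have e4 : ∑ i, ((x * s) • g) i ^ 2 = x ^ 2 * s ^ 2 * ∑ e, g e ^ 2 := by
      rw [Finset.mul_sum]
      exact Finset.sum_congr rfl fun e _ => by simp only [Pi.smul_apply, smul_eq_mul]; ring
    rw [e1, e3, e4, hc0, hv, hr]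
    simp only
    rw [e2]
    ring
  have h3 : x * W x s X y ≤ c0 + s ^ 4 * ∫ z, Q z ∂(gI κ) := by
    rw [← Real.exp_le_exp, h.lip.exp_W hB hx, h2, Real.exp_add c0]
    exact mul_le_mul_of_nonneg_left hEv (Real.exp_pos _).le
  have h4 : x * ∫ z, X (y + s • z + (x * s ^ 2) • g) ∂(gI κ) =
      x * X y + x ^ 2 * s ^ 2 * (∑ e, g e ^ 2) + m := by
    have iX : Integrable (fun z => X (y + w z)) (gI κ) := by
      have := (h.lip.lip_smul hB (y + (x * s ^ 2) • g) s).eg.integrable
      refine this.congr (Filter.Eventually.of_forall fun z => ?_)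
      simp only [hw]
      congr 1
      abel
    have e0 : ∀ z, x * X (y + s • z + (x * s ^ 2) • g) = (x * X y +
        x ^ 2 * s ^ 2 * (∑ e, g e ^ 2)) + (x * s) * (∑ e, g e * z e) + x * r z := by
      intro z
      have e1 : y + s • z + (x * s ^ 2) • g = y + w z := by rw [hw, add_assoc]
      have e2 : ∑ e, g e * w z e = s * ∑ e, g e * z e + x * s ^ 2 * ∑ e, g e ^ 2 := by
        rw [Finset.mul_sum, Finset.mul_sum, ← Finset.sum_add_distrib]
        refine Finset.sum_congr rfl fun e _ => ?_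
        rw [hw]
        simp only [Pi.add_apply, Pi.smul_apply, smul_eq_mul]
        ring
      rw [e1, hr]
      simp only
      rw [e2]
      ring
    have il : Integrable (fun z : κ → ℝ => ∑ e, g e * z e) (gI κ) :=
      (EG.sum _ fun e _ => (EG.coord e).const_mul _).integrable
    have z0 : ∫ z : κ → ℝ, ∑ e, g e * z e ∂(gI κ) = 0 := by
      rw [integral_finsetSum _ fun i _ => ((EG.coord i).const_mul _).integrable]
      refine Finset.sum_eq_zero fun i _ => ?_
      rw [integral_const_mul, int_coord, mul_zero]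
    rw [← integral_const_mul]
    simp_rw [e0]
    have i3 : Integrable (fun z : κ → ℝ => (x * X y + x ^ 2 * s ^ 2 * (∑ e, g e ^ 2)) +
        (x * s) * (∑ e, g e * z e)) (gI κ) := (integrable_const _).add (il.const_mul _)
    rw [integral_add i3 er.integrable, integral_add (integrable_const _) (il.const_mul _),
      integral_const_mul, z0, ← hm]
    simp
  have h5 : x * W x s X y ≤ x * (∫ z, X (y + s • z + (x * s ^ 2) • g) ∂(gI κ) -
      x / 2 * s ^ 2 * ∑ e, g e ^ 2 + 1 / x * (∫ z, Q z ∂(gI κ)) * s ^ 4) := by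
    have e1 : x * (∫ z, X (y + s • z + (x * s ^ 2) • g) ∂(gI κ) -
      x / 2 * s ^ 2 * ∑ e, g e ^ 2 + 1 / x * (∫ z, Q z ∂(gI κ)) * s ^ 4) =
      x * ∫ z, X (y + s • z + (x * s ^ 2) • g) ∂(gI κ) -
      x ^ 2 / 2 * s ^ 2 * ∑ e, g e ^ 2 + s ^ 4 * ∫ z, Q z ∂(gI κ) := by
      field_simp
    rw [e1, h4]
    rw [hc0] at h3
    linarith
  exact le_of_mul_le_mul_left h5 hx

/-- **Joint convexity of one layer.** -/
theorem layer {G0 G1 : (κ → ℝ) → ℝ} {B0 B1 x0 x1 a b : ℝ} (h : C11 G D B L)
    (h0 : LipB G0 B0) (hB0 : 0 ≤ B0) (h1 : LipB G1 B1) (hB1 : 0 ≤ B1)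
    (hx0 : 0 < x0) (hx1 : 0 < x1) (ha : 0 ≤ a) (hb : 0 ≤ b) (hab : a + b = 1)
    (hG : ∀ w0 w1, G (a • w0 + b • w1) ≤ a * G0 w0 + b * G1 w1) (y0 y1 : κ → ℝ) :
    W (a * x0 + b * x1) 1 G (a • y0 + b • y1) ≤ a * W x0 1 G0 y0 + b * W x1 1 G1 y1 := by
  set x := a * x0 + b * x1 with hxd
  have hx : 0 < x := by
    rcases ha.eq_or_lt with h2 | h2
    · have : b = 1 := by linarith
      rw [hxd, ← h2, this]; linarith
    · have := mul_pos h2 hx0
      have := mul_nonneg hb hx1.le
      rw [hxd]; linarith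
  set L' := L + 2 * x * (Fintype.card κ * B) ^ 2 with hL'
  have hL0 : 0 ≤ L' := by
    have := h.L0
    rw [hL']; positivity
  obtain ⟨C, hC, hup⟩ := upper_step (κ := κ) hx h.B0 hL0
  -- the bound with `K` steps
  have key : ∀ K : ℕ, 0 < K → ∀ y0 y1 : κ → ℝ, W x 1 G (a • y0 + b • y1) ≤
      a * W x0 1 G0 y0 + b * W x1 1 G1 y1 + C / K := by
    intro K hK
    have hK' : (0 : ℝ) < K := Nat.cast_pos.2 hK
    set s : ℝ := Real.sqrt (1 / K) with hs
    have hs0 : 0 ≤ s := Real.sqrt_nonneg _
    have hs2 : s ^ 2 = 1 / K := Real.sq_sqrt (by positivity)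
    have hs1 : s ≤ 1 := by
      rw [hs, Real.sqrt_le_one]
      rw [div_le_one hK']
      exact_mod_cast hK
    set r : ℕ → ℝ := fun k => Real.sqrt (k / K) with hr
    have hrs : ∀ k, s ^ 2 + r k ^ 2 = r (k + 1) ^ 2 := by
      intro k
      have e1 : ∀ k : ℕ, r k ^ 2 = k / K := fun k => Real.sq_sqrt (by positivity)
      rw [hs2, e1, e1]
      push_cast
      ring
    have ind : ∀ k : ℕ, ∀ y0 y1 : κ → ℝ, W x (r k) G (a • y0 + b • y1) ≤
        a * W x0 (r k) G0 y0 + b * W x1 (r k) G1 y1 + k * (C * s ^ 4) := by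
      intro k
      induction k with
      | zero =>
        intro y0 y1
        have e : r 0 = 0 := by rw [hr]; simp
        rw [e, W_zero hx, W_zero hx0, W_zero hx1]
        simpa using hG y0 y1
      | succ k ih =>
        intro y0 y1
        set y := a • y0 + b • y1 with hy
        have hX := h.W hx (r k)
        set Dk : κ → (κ → ℝ) → ℝ := fun e y =>
          (∫ z, Real.exp (x * G (y + r k • z)) * D e (y + r k • z) ∂(gI κ)) /
            ∫ z, Real.exp (x * G (y + r k • z)) ∂(gI κ) with hDk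
        set g : κ → ℝ := fun e => Dk e y with hg
        have h2 := hup _ _ hX s hs0 hs1 y
        rw [W_W h.lip h.B0 hx (hrs k)] at h2
        have h3 := lower_step (s := s) (h0.W (s := r k) hB0 hx0) hB0 hx0 y0 g
        rw [W_W h0 hB0 hx0 (hrs k)] at h3
        have h4 := lower_step (s := s) (h1.W (s := r k) hB1 hx1) hB1 hx1 y1 g
        rw [W_W h1 hB1 hx1 (hrs k)] at h4
        have i0 : ∀ (X : (κ → ℝ) → ℝ) (B c : ℝ) (y : κ → ℝ), LipB X B → 0 ≤ B →
            Integrable (fun z => X (y + s • z + c • g)) (gI κ) := by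
          intro X B c y hX hB
          have := (hX.lip_smul hB (y + c • g) s).eg.integrable
          refine this.congr (Filter.Eventually.of_forall fun z => ?_)
          simp only
          congr 1
          abel
        have h5 : ∫ z, W x (r k) G (y + s • z + (x * s ^ 2) • g) ∂(gI κ) ≤
            a * ∫ z, W x0 (r k) G0 (y0 + s • z + (x0 * s ^ 2) • g) ∂(gI κ) +
            b * ∫ z, W x1 (r k) G1 (y1 + s • z + (x1 * s ^ 2) • g) ∂(gI κ) +
              k * (C * s ^ 4) := by
          have j0 := i0 _ _ (x0 * s ^ 2) y0 (h0.W (s := r k) hB0 hx0) hB0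
          have j1 := i0 _ _ (x1 * s ^ 2) y1 (h1.W (s := r k) hB1 hx1) hB1
          have j2 := i0 _ _ (x * s ^ 2) y (h.lip.W (s := r k) h.B0 hx) h.B0
          have e : a * ∫ z, W x0 (r k) G0 (y0 + s • z + (x0 * s ^ 2) • g) ∂(gI κ) +
              b * ∫ z, W x1 (r k) G1 (y1 + s • z + (x1 * s ^ 2) • g) ∂(gI κ) +
              k * (C * s ^ 4) =
              ∫ z, (a * W x0 (r k) G0 (y0 + s • z + (x0 * s ^ 2) • g) +
                b * W x1 (r k) G1 (y1 + s • z + (x1 * s ^ 2) • g)) + k * (C * s ^ 4)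
                  ∂(gI κ) := by
            have j3 : Integrable (fun z => a * W x0 (r k) G0 (y0 + s • z + (x0 * s ^ 2) • g) +
                b * W x1 (r k) G1 (y1 + s • z + (x1 * s ^ 2) • g)) (gI κ) :=
              (j0.const_mul _).add (j1.const_mul _)
            rw [integral_add j3 (integrable_const _),
              integral_add (j0.const_mul _) (j1.const_mul _), integral_const_mul,
              integral_const_mul]
            simp
          rw [e]
          refine integral_mono j2 (((j0.const_mul _).add (j1.const_mul _)).add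
            (integrable_const _)) fun z => ?_
          simp only
          have h6 := ih (y0 + s • z + (x0 * s ^ 2) • g) (y1 + s • z + (x1 * s ^ 2) • g)
          have e2 : a • (y0 + s • z + (x0 * s ^ 2) • g) + b • (y1 + s • z + (x1 * s ^ 2) • g) =
              y + s • z + (x * s ^ 2) • g := by
            rw [hy, hxd]
            have hb' : b = 1 - a := by linarith
            subst hb'
            funext i
            simp only [Pi.add_apply, Pi.smul_apply, smul_eq_mul]
            ring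
          rwa [e2] at h6
        have h7 := mul_le_mul_of_nonneg_left h3 ha
        have h8 := mul_le_mul_of_nonneg_left h4 hb
        have e3 : x / 2 * s ^ 2 * ∑ e, g e ^ 2 = a * (x0 / 2 * s ^ 2 * ∑ e, g e ^ 2) +
            b * (x1 / 2 * s ^ 2 * ∑ e, g e ^ 2) := by
          rw [hxd]; ring
        have e4 : ((k + 1 : ℕ) : ℝ) * (C * s ^ 4) = k * (C * s ^ 4) + C * s ^ 4 := by
          push_cast; ring
        rw [e4]
        have h9 : W x (r (k + 1)) G y ≤ ∫ z, W x (r k) G (y + s • z + (x * s ^ 2) • g) ∂(gI κ) -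
            x / 2 * s ^ 2 * ∑ e, g e ^ 2 + C * s ^ 4 := h2
        rw [e3] at h9
        linarith
    intro y0 y1
    have h2 := ind K y0 y1
    have e : r K = 1 := by
      rw [hr]
      simp only
      rw [div_self hK'.ne', Real.sqrt_one]
    rw [e] at h2
    have e2 : (K : ℝ) * (C * s ^ 4) = C / K := by
      have : s ^ 4 = (1 / K) ^ 2 := by rw [← hs2]; ring
      rw [this]
      field_simp
    rwa [e2] at h2
  refine le_of_forall_pos_le_add fun ε hε => ?_
  obtain ⟨K, hK⟩ := exists_nat_gt (C / ε)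
  have hK0 : 0 < K := by
    have h2 : 0 ≤ C / ε := by positivity
    exact_mod_cast h2.trans_lt hK
  have hK' : (0 : ℝ) < K := Nat.cast_pos.2 hK0
  refine (key K hK0 y0 y1).trans ?_
  have : C / K ≤ ε := by
    rw [div_le_iff₀ hK']
    rw [div_lt_iff₀ hε] at hK
    nlinarith
  linarith

end Vale.Agent.P146.H425
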