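import Vale.Agent.P146.H425.VarKL

/-!
The entropy production of the tilted law is the time integral of `Φ(t) = E_x |∇u_t|^2`, where
`u_t` is the layer functional with remaining variance `1 - t`; `Φ` is nondecreasing.
-/

open MeasureTheory ProbabilityTheory Filter Topology

namespace Vale.Agent.P146.H425

open Vale.Agent.P157.Lv

set_option linter.unusedSectionVars false

variable {κ : Type} [Fintype κ] {F X : (κ → ℝ) → ℝ} {D : κ → (κ → ℝ) → ℝ} {B L x s : ℝ}

/-- The gradient of the layer functional. -/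
noncomputable def DW (x s : ℝ) (F : (κ → ℝ) → ℝ) (D : κ → (κ → ℝ) → ℝ) (e : κ) (y : κ → ℝ) : ℝ :=
  (∫ z, Real.exp (x * F (y + s • z)) * D e (y + s • z) ∂(gI κ)) /
      ∫ z, Real.exp (x * F (y + s • z)) ∂(gI κ)

lemma C11.W' (h : C11 F D B L) (hx : 0 < x) (s : ℝ) :
    C11 (H425.W x s F) (DW x s F D) B (L + 2 * x * (Fintype.card κ * B) ^ 2) := h.W hx s

/-- The gradient is Lipschitz. -/
lemma C11.grad_lip (h : C11 X D B L) (e : κ) (y w : κ → ℝ) :
    |D e (y + w) - D e y| ≤ 6 * L * ‖w‖ := by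
  classical
  rcases (norm_nonneg w).eq_or_lt with h0 | h0
  · have : w = 0 := norm_eq_zero.1 h0.symm
    subst this
    simp
  set v : κ → ℝ := Pi.single e ‖w‖ with hv
  have hvn : ‖v‖ = ‖w‖ := by
    rw [hv, Pi.norm_single]
    simp
  have hs : ∀ g : κ → ℝ, ∑ i, g i * v i = g e * ‖w‖ := by
    intro g
    rw [Finset.sum_eq_single e]
    · rw [hv]; simp
    · intro i _ hi
      rw [hv]; simp [hi]
    · simp
  have h1 := h.quad (y + w) v
  have h2 := h.quad y (w + v)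
  have h3 := h.quad y w
  rw [hs (fun i => D i (y + w)), hvn] at h1
  have e2 : ∑ i, D i y * (w + v) i = ∑ i, D i y * w i + D e y * ‖w‖ := by
    rw [← hs (fun i => D i y), ← Finset.sum_add_distrib]
    exact Finset.sum_congr rfl fun i _ => by simp only [Pi.add_apply]; ring
  rw [e2, ← add_assoc] at h2
  have hn : ‖w + v‖ ^ 2 ≤ 4 * ‖w‖ ^ 2 := by
    have h4 : ‖w + v‖ ≤ 2 * ‖w‖ := (norm_add_le _ _).trans (by rw [hvn]; linarith)
    nlinarith [norm_nonneg (w + v)]
  have h5 : L * ‖w + v‖ ^ 2 ≤ L * (4 * ‖w‖ ^ 2) := mul_le_mul_of_nonneg_left hn h.L0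
  have h6 : |(D e (y + w) - D e y) * ‖w‖| ≤ 6 * L * ‖w‖ * ‖w‖ := by
    rw [abs_le] at h1 h2 h3 ⊢
    constructor <;> nlinarith [h1.1, h1.2, h2.1, h2.2, h3.1, h3.2]
  rw [abs_mul, abs_of_pos h0] at h6
  exact le_of_mul_le_mul_right h6 h0

/-! ### the remainder of one small layer -/

/-- the drift -/
noncomputable def dw (D : κ → (κ → ℝ) → ℝ) (x s : ℝ) (y z : κ → ℝ) : κ → ℝ :=
  s • z + (x * s ^ 2) • (fun e => D e y)

/-- the remainder -/
noncomputable def rem (X : (κ → ℝ) → ℝ) (D : κ → (κ → ℝ) → ℝ) (x s : ℝ) (y z : κ → ℝ) : ℝ :=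
  X (y + dw D x s y z) - X y - ∑ e, D e y * dw D x s y z e

/-- bound of the remainder -/
noncomputable def rho (κ : Type) [Fintype κ] (x B L : ℝ) (z : κ → ℝ) : ℝ :=
  x * L * (‖z‖ + x * B) ^ 2

/-- linear bound of the remainder -/
noncomputable def lamb (κ : Type) [Fintype κ] (x B : ℝ) (z : κ → ℝ) : ℝ :=
  x * B * (1 + Fintype.card κ) * (‖z‖ + x * B)

lemma eg_rho : EG (rho κ x B L) := ((eg_norm.add (EG.const (x * B))).pow 2).const_mul _

lemma eg_lamb : EG (lamb κ x B) := (eg_norm.add (EG.const (x * B))).const_mul _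

lemma eg_exp_lamb (c : ℝ) : EG fun z => Real.exp (c * lamb κ x B z) := by
  have e1 : (fun z : κ → ℝ => Real.exp (c * lamb κ x B z)) = fun z : κ → ℝ =>
      Real.exp (c * (x * B * (1 + Fintype.card κ) * (x * B))) *
        Real.exp ((c * (x * B * (1 + Fintype.card κ))) * ‖z‖) := by
    funext z
    unfold lamb
    rw [← Real.exp_add]
    congr 1
    ring
  rw [e1]
  exact (eg_exp_norm _).const_mul _

lemma rho_nonneg (hx : 0 ≤ x) (_hB : 0 ≤ B) (hL : 0 ≤ L) (z : κ → ℝ) : 0 ≤ rho κ x B L z := by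
  unfold rho; positivity

lemma lamb_nonneg (hx : 0 ≤ x) (hB : 0 ≤ B) (z : κ → ℝ) : 0 ≤ lamb κ x B z := by
  unfold lamb
  have hN : (0 : ℝ) ≤ Fintype.card κ := Nat.cast_nonneg _
  positivity

lemma dw_norm (h : C11 X D B L) (hx : 0 < x) (hs : 0 ≤ s) (hs1 : s ≤ 1) (y z : κ → ℝ) :
    ‖dw D x s y z‖ ≤ s * (‖z‖ + x * B) := by
  have hgn : ‖(fun e => D e y)‖ ≤ B := (pi_norm_le_iff_of_nonneg h.B0).2 fun e => by
    simpa using h.bd e y
  unfold dw
  refine (norm_add_le _ _).trans ?_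
  rw [norm_smul, norm_smul, Real.norm_eq_abs, Real.norm_eq_abs, abs_of_nonneg hs,
    abs_of_nonneg (by positivity : 0 ≤ x * s ^ 2)]
  have h1 : x * s ^ 2 * ‖(fun e => D e y)‖ ≤ x * s ^ 2 * B :=
    mul_le_mul_of_nonneg_left hgn (by positivity)
  have h2 : s ^ 2 ≤ s := by nlinarith
  have h3 : x * s ^ 2 * B ≤ x * s * B := by
    refine mul_le_mul_of_nonneg_right (mul_le_mul_of_nonneg_left h2 hx.le) h.B0
  nlinarith

lemma rem_bd2 (h : C11 X D B L) (hx : 0 < x) (hs : 0 ≤ s) (hs1 : s ≤ 1) (y z : κ → ℝ) :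
    |x * rem X D x s y z| ≤ s ^ 2 * rho κ x B L z := by
  rw [abs_mul, abs_of_pos hx]
  have h1 := h.quad y (dw D x s y z)
  have h2 : ‖dw D x s y z‖ ^ 2 ≤ (s * (‖z‖ + x * B)) ^ 2 :=
    pow_le_pow_left₀ (norm_nonneg _) (dw_norm h hx hs hs1 y z) 2
  have h3 : |rem X D x s y z| ≤ L * (s * (‖z‖ + x * B)) ^ 2 :=
    h1.trans (mul_le_mul_of_nonneg_left h2 h.L0)
  calc x * |rem X D x s y z| ≤ x * (L * (s * (‖z‖ + x * B)) ^ 2) :=
        mul_le_mul_of_nonneg_left h3 hx.le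
    _ = s ^ 2 * rho κ x B L z := by unfold rho; ring

lemma rem_bd1 (h : C11 X D B L) (hx : 0 < x) (hs : 0 ≤ s) (hs1 : s ≤ 1) (y z : κ → ℝ) :
    |x * rem X D x s y z| ≤ lamb κ x B z := by
  have hB := h.B0
  rw [abs_mul, abs_of_pos hx]
  have h1 := h.lip y (dw D x s y z)
  have h2 := abs_sum_le (w := dw D x s y z) hB (fun e => h.bd e y)
  have h3 : |rem X D x s y z| ≤ B * ‖dw D x s y z‖ + Fintype.card κ * (B * ‖dw D x s y z‖) :=
    (abs_sub _ _).trans (add_le_add h1 h2)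
  have h4 : ‖dw D x s y z‖ ≤ ‖z‖ + x * B := (dw_norm h hx hs hs1 y z).trans (by
    have : 0 ≤ ‖z‖ + x * B := by positivity
    nlinarith)
  have hN : (0 : ℝ) ≤ Fintype.card κ := Nat.cast_nonneg _
  have h5 : |rem X D x s y z| ≤ B * (1 + Fintype.card κ) * (‖z‖ + x * B) := by
    refine h3.trans ?_
    have : B * ‖dw D x s y z‖ + Fintype.card κ * (B * ‖dw D x s y z‖) =
        B * (1 + Fintype.card κ) * ‖dw D x s y z‖ := by ring
    rw [this]
    exact mul_le_mul_of_nonneg_left h4 (by positivity)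
  calc x * |rem X D x s y z| ≤ x * (B * (1 + Fintype.card κ) * (‖z‖ + x * B)) :=
      mul_le_mul_of_nonneg_left h5 hx.le
    _ = lamb κ x B z := by unfold lamb; ring

lemma meas_dw (D : κ → (κ → ℝ) → ℝ) (x s : ℝ) (y : κ → ℝ) : Measurable (dw D x s y) := by
  unfold dw
  fun_prop

lemma meas_rem (h : C11 X D B L) (y : κ → ℝ) : Measurable (rem X D x s y) := by
  have hXm : Measurable X := (h.lip.lip h.B0).measurable
  have m1 := meas_dw D x s y
  refine (((hXm.comp (m1.const_add y))).sub_const _).sub ?_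
  exact Finset.measurable_fun_sum _ fun e _ => ((measurable_pi_apply e).comp m1).const_mul _

lemma eg_rem (h : C11 X D B L) (hx : 0 < x) (hs : 0 ≤ s) (hs1 : s ≤ 1) (y : κ → ℝ) :
    EG fun z => x * rem X D x s y z :=
  eg_lamb.mono ((meas_rem h y).const_mul x) fun z => by
    rw [abs_of_nonneg (lamb_nonneg hx.le h.B0 z)]
    exact rem_bd1 h hx hs hs1 y z

lemma eg_exp_rem (h : C11 X D B L) (hx : 0 < x) (hs : 0 ≤ s) (hs1 : s ≤ 1) (y : κ → ℝ) :
    EG fun z => Real.exp (x * rem X D x s y z) :=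
  (eg_exp_lamb (κ := κ) (x := x) (B := B) 1).mono ((meas_rem h y).const_mul x).exp fun z => by
    rw [abs_of_pos (Real.exp_pos _), abs_of_pos (Real.exp_pos _), one_mul]
    exact Real.exp_le_exp.2 ((le_abs_self _).trans (rem_bd1 h hx hs hs1 y z))

lemma sum_dw (D : κ → (κ → ℝ) → ℝ) (x s : ℝ) (y z : κ → ℝ) :
    ∑ e, D e y * dw D x s y z e = s * ∑ e, D e y * z e + x * s ^ 2 * ∑ e, D e y ^ 2 := by
  rw [Finset.mul_sum, Finset.mul_sum, ← Finset.sum_add_distrib]
  refine Finset.sum_congr rfl fun e _ => ?_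
  unfold dw
  simp only [Pi.add_apply, Pi.smul_apply, smul_eq_mul]
  ring

/-- the translated representation -/
lemma rem_repr (X : (κ → ℝ) → ℝ) (D : κ → (κ → ℝ) → ℝ) (x s : ℝ) (y : κ → ℝ)
    (φ : (κ → ℝ) → ℝ) :
    ∫ z, Real.exp (x * X (y + s • z)) * φ (y + s • z) ∂(gI κ) =
      Real.exp (x * X y + x ^ 2 * s ^ 2 * (∑ e, D e y ^ 2) / 2) *
        ∫ z, Real.exp (x * rem X D x s y z) * φ (y + dw D x s y z) ∂(gI κ) := by
  have h1 := gI_shift ((x * s) • (fun e => D e y))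
    (fun z => Real.exp (x * X (y + s • z)) * φ (y + s • z))
  rw [h1, ← integral_const_mul]
  refine integral_congr_ae (Filter.Eventually.of_forall fun z => ?_)
  simp only
  have e1 : y + s • (z + (x * s) • (fun e => D e y)) = y + dw D x s y z := by
    unfold dw
    rw [smul_add, smul_smul]
    congr 3
    ring
  have e3 : ∑ i, ((x * s) • (fun e => D e y)) i * z i = x * s * ∑ e, D e y * z e := by
    rw [Finset.mul_sum]
    exact Finset.sum_congr rfl fun e _ => by simp only [Pi.smul_apply, smul_eq_mul]; ring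
  have e4 : ∑ i, ((x * s) • (fun e => D e y)) i ^ 2 = x ^ 2 * s ^ 2 * ∑ e, D e y ^ 2 := by
    rw [Finset.mul_sum]
    exact Finset.sum_congr rfl fun e _ => by simp only [Pi.smul_apply, smul_eq_mul]; ring
  rw [e1, e3, e4, ← mul_assoc, ← mul_assoc, ← Real.exp_add, ← Real.exp_add]
  congr 2
  unfold rem
  rw [sum_dw]
  ring

lemma abs_exp_sub_one_le' (v : ℝ) : |Real.exp v - 1| ≤ |v| * Real.exp |v| := by
  rcases le_total 0 v with h | h
  · have h1 : Real.exp v - 1 ≤ v * Real.exp v := by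
      have h2 := Real.add_one_le_exp (-v)
      have h3 : Real.exp v * (-v + 1) ≤ Real.exp v * Real.exp (-v) :=
        mul_le_mul_of_nonneg_left h2 (Real.exp_pos v).le
      rw [← Real.exp_add, add_neg_cancel, Real.exp_zero] at h3
      linarith
    rw [abs_of_nonneg h, abs_of_nonneg (by linarith [Real.add_one_le_exp v])]
    exact h1
  · have h3 : Real.exp v ≤ 1 := Real.exp_le_one_iff.2 h
    rw [abs_of_nonpos (by linarith), abs_of_nonpos h]
    have h4 := Real.add_one_le_exp v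
    have h5 : 1 ≤ Real.exp (-v) := Real.one_le_exp (by linarith)
    nlinarith [mul_le_mul_of_nonneg_left h5 (show 0 ≤ -v by linarith)]

lemma eg_exp_lamb' : EG fun z => Real.exp (lamb κ x B z) := by
  have := eg_exp_lamb (κ := κ) (x := x) (B := B) 1
  simpa using this

lemma exp_rem_sub (h : C11 X D B L) (hx : 0 < x) (hs : 0 ≤ s) (hs1 : s ≤ 1) (y z : κ → ℝ) :
    |Real.exp (x * rem X D x s y z) - 1| ≤
      s ^ 2 * (rho κ x B L z * Real.exp (lamb κ x B z)) := by
  refine (abs_exp_sub_one_le' _).trans ?_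
  rw [← mul_assoc]
  exact mul_le_mul (rem_bd2 h hx hs hs1 y z) (Real.exp_le_exp.2 (rem_bd1 h hx hs hs1 y z))
    (Real.exp_pos _).le (mul_nonneg (sq_nonneg s) (rho_nonneg hx.le h.B0 h.L0 z))

lemma ent_t1 (h : C11 X D B L) (hx : 0 < x) (hs : 0 ≤ s) (hs1 : s ≤ 1) (y : κ → ℝ) :
    ∫ z, Real.exp (x * rem X D x s y z) * (∑ e, D e y * z e) ∂(gI κ) ≤
      s ^ 2 * ∫ z, rho κ x B L z * Real.exp (lamb κ x B z) *
        (Fintype.card κ * (B * ‖z‖)) ∂(gI κ) := by
  have eef := eg_exp_rem h hx hs hs1 y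
  have q1 : EG fun z : κ → ℝ => rho κ x B L z * Real.exp (lamb κ x B z) *
      (Fintype.card κ * (B * ‖z‖)) :=
    (eg_rho.mul eg_exp_lamb').mul ((eg_norm.const_mul B).const_mul _)
  have eg1 : EG fun z => Real.exp (x * rem X D x s y z) - 1 := eef.sub (EG.const 1)
  have eG : EG fun z : κ → ℝ => ∑ e, D e y * z e := EG.sum _ fun e _ => (EG.coord e).const_mul _
  have hG0 : ∫ z : κ → ℝ, ∑ e, D e y * z e ∂(gI κ) = 0 := by
    rw [integral_finsetSum _ fun i _ => ((EG.coord i).const_mul _).integrable]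
    refine Finset.sum_eq_zero fun i _ => ?_
    rw [integral_const_mul, int_coord, mul_zero]
  have e1 : ∫ z, Real.exp (x * rem X D x s y z) * (∑ e, D e y * z e) ∂(gI κ) =
      ∫ z, (Real.exp (x * rem X D x s y z) - 1) * (∑ e, D e y * z e) ∂(gI κ) := by
    have e2 : ∀ z, (Real.exp (x * rem X D x s y z) - 1) * (∑ e, D e y * z e) =
      Real.exp (x * rem X D x s y z) * (∑ e, D e y * z e) - ∑ e, D e y * z e := fun z => by ring
    simp_rw [e2]
    rw [integral_sub (eef.mul eG).integrable eG.integrable, hG0, sub_zero]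
  rw [e1, ← integral_const_mul]
  refine integral_mono (eg1.mul eG).integrable (q1.integrable.const_mul _) fun z => ?_
  refine (le_abs_self _).trans ?_
  simp only
  rw [abs_mul]
  refine (mul_le_mul (exp_rem_sub h hx hs hs1 y z) (abs_sum_le h.B0 fun e => h.bd e y)
    (abs_nonneg _) ?_).trans (le_of_eq (by ring))
  have := rho_nonneg hx.le h.B0 h.L0 z
  positivity

lemma ent_m (h : C11 X D B L) (hx : 0 < x) (hs : 0 ≤ s) (hs1 : s ≤ 1) (y : κ → ℝ) :
    |∫ z, x * rem X D x s y z ∂(gI κ)| ≤ ∫ z, lamb κ x B z ∂(gI κ) ∧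
    |∫ z, x * rem X D x s y z ∂(gI κ)| ≤ s ^ 2 * ∫ z, rho κ x B L z ∂(gI κ) := by
  have ef := eg_rem h hx hs hs1 y
  constructor
  · exact (abs_integral_le_integral_abs).trans
      (integral_mono ef.integrable.abs eg_lamb.integrable (rem_bd1 h hx hs hs1 y))
  · refine (abs_integral_le_integral_abs).trans ?_
    rw [← integral_const_mul]
    exact integral_mono ef.integrable.abs (eg_rho.integrable.const_mul _)
      (rem_bd2 h hx hs hs1 y)

lemma ent_t2 (h : C11 X D B L) (hx : 0 < x) (hs : 0 ≤ s) (hs1 : s ≤ 1) (y : κ → ℝ) :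
    ∫ z, Real.exp (x * rem X D x s y z) * (x * rem X D x s y z) ∂(gI κ) -
      (∫ z, Real.exp (x * rem X D x s y z) ∂(gI κ)) * (∫ z, x * rem X D x s y z ∂(gI κ)) ≤
      s ^ 4 * ((∫ z, rho κ x B L z ^ 2 * Real.exp (lamb κ x B z) ∂(gI κ)) +
        (∫ z, rho κ x B L z * Real.exp (lamb κ x B z) ∂(gI κ)) *
          ∫ z, rho κ x B L z ∂(gI κ)) := by
  set f : (κ → ℝ) → ℝ := fun z => x * rem X D x s y z with hf
  have ef : EG f := eg_rem h hx hs hs1 y
  have eef : EG fun z => Real.exp (f z) := eg_exp_rem h hx hs hs1 y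
  have eg1 : EG fun z => Real.exp (f z) - 1 := eef.sub (EG.const 1)
  have q2 : EG fun z : κ → ℝ => rho κ x B L z ^ 2 * Real.exp (lamb κ x B z) :=
    (eg_rho.pow 2).mul eg_exp_lamb'
  have q3 : EG fun z : κ → ℝ => rho κ x B L z * Real.exp (lamb κ x B z) :=
    eg_rho.mul eg_exp_lamb'
  have hexp1 : ∀ z, |Real.exp (f z) - 1| ≤ s ^ 2 * (rho κ x B L z * Real.exp (lamb κ x B z)) :=
    exp_rem_sub h hx hs hs1 y
  have hm2 := (ent_m h hx hs hs1 y).2
  set m := ∫ z, f z ∂(gI κ) with hm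
  set c2 := ∫ z, rho κ x B L z ^ 2 * Real.exp (lamb κ x B z) ∂(gI κ) with hc2
  set c3 := ∫ z, rho κ x B L z * Real.exp (lamb κ x B z) ∂(gI κ) with hc3
  set c4 := ∫ z, rho κ x B L z ∂(gI κ) with hc4
  have p3 : 0 ≤ c3 := integral_nonneg fun z => by
    have := rho_nonneg hx.le h.B0 h.L0 z
    positivity
  have e1 : ∫ z, Real.exp (f z) * f z ∂(gI κ) - (∫ z, Real.exp (f z) ∂(gI κ)) * m =
      ∫ z, (Real.exp (f z) - 1) * f z ∂(gI κ) - (∫ z, (Real.exp (f z) - 1) ∂(gI κ)) * m := by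
    have e2 : ∀ z, (Real.exp (f z) - 1) * f z = Real.exp (f z) * f z - f z := fun z => by ring
    simp_rw [e2]
    rw [integral_sub (eef.mul ef).integrable ef.integrable,
      integral_sub eef.integrable (integrable_const _), ← hm]
    simp
    ring
  have e3 : ∫ z, (Real.exp (f z) - 1) * f z ∂(gI κ) ≤ s ^ 4 * c2 := by
    rw [hc2, ← integral_const_mul]
    refine integral_mono (eg1.mul ef).integrable (q2.integrable.const_mul _) fun z => ?_
    refine (le_abs_self _).trans ?_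
    simp only
    rw [abs_mul]
    refine (mul_le_mul (hexp1 z) (rem_bd2 h hx hs hs1 y z) (abs_nonneg _) ?_).trans
      (le_of_eq (by ring))
    have := rho_nonneg hx.le h.B0 h.L0 z
    positivity
  have e4 : |∫ z, (Real.exp (f z) - 1) ∂(gI κ)| ≤ s ^ 2 * c3 := by
    refine (abs_integral_le_integral_abs).trans ?_
    rw [hc3, ← integral_const_mul]
    exact integral_mono eg1.integrable.abs (q3.integrable.const_mul _) hexp1
  have e5 : |(∫ z, (Real.exp (f z) - 1) ∂(gI κ)) * m| ≤ (s ^ 2 * c3) * (s ^ 2 * c4) := by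
    rw [abs_mul]
    exact mul_le_mul e4 hm2 (abs_nonneg _) (by positivity)
  rw [e1]
  have h5 := (abs_le.1 e5).1
  have e6 : s ^ 4 * (c2 + c3 * c4) = s ^ 4 * c2 + s ^ 2 * c3 * (s ^ 2 * c4) := by ring
  rw [e6]
  linarith

lemma ent_alg {Xy S Er I1 I2 l0 c1 c2 lE x s : ℝ} (hx : 0 < x) (hs : 0 ≤ s)
    (hc1 : 0 ≤ c1) (hc2 : 0 ≤ c2) (hEr : Real.exp (-l0) ≤ Er) (t4 : s * I1 ≤ s ^ 3 * c1)
    (t3 : I2 ≤ Er * lE + s ^ 3 * c2) :
    (Xy + x * s ^ 2 * S) * Er + s * I1 + 1 / x * I2 ≤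
      Er * (Xy + x / 2 * s ^ 2 * S + 1 / x * lE + x / 2 * s ^ 2 * S +
        (c1 + 1 / x * c2) * Real.exp l0 * s ^ 3) := by
  have hxi : 0 ≤ 1 / x := by positivity
  have t5 : s ^ 3 * (c1 + 1 / x * c2) ≤ Er * ((c1 + 1 / x * c2) * Real.exp l0 * s ^ 3) := by
    have h1 : 1 ≤ Er * Real.exp l0 := by
      have := mul_le_mul_of_nonneg_right hEr (Real.exp_pos l0).le
      rwa [← Real.exp_add, neg_add_cancel, Real.exp_zero] at this
    have h2 : 0 ≤ s ^ 3 * (c1 + 1 / x * c2) := by positivity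
    have h3 := mul_le_mul_of_nonneg_left h1 h2
    have e6 : s ^ 3 * (c1 + 1 / x * c2) * (Er * Real.exp l0) =
        Er * ((c1 + 1 / x * c2) * Real.exp l0 * s ^ 3) := by ring
    rw [e6, mul_one] at h3
    exact h3
  have t6 := mul_le_mul_of_nonneg_left t3 hxi
  have e7 : s ^ 3 * (c1 + 1 / x * c2) = s ^ 3 * c1 + 1 / x * (s ^ 3 * c2) := by ring
  rw [e7] at t5
  have e8 : Er * (Xy + x / 2 * s ^ 2 * S + 1 / x * lE + x / 2 * s ^ 2 * S +
      (c1 + 1 / x * c2) * Real.exp l0 * s ^ 3) =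
      (Xy + x * s ^ 2 * S) * Er + 1 / x * (Er * lE) +
      Er * ((c1 + 1 / x * c2) * Real.exp l0 * s ^ 3) := by ring
  rw [e8]
  rw [mul_add] at t6
  linarith

/-- One small layer: the entropy production. -/
theorem ent_step (hx : 0 < x) (hB : 0 ≤ B) (hL : 0 ≤ L) : ∃ C : ℝ, 0 ≤ C ∧
    ∀ (X : (κ → ℝ) → ℝ) (D : κ → (κ → ℝ) → ℝ), C11 X D B L → ∀ s, 0 ≤ s → s ≤ 1 → ∀ y,
      ∫ z, Real.exp (x * X (y + s • z)) * X (y + s • z) ∂(gI κ) ≤
        Real.exp (x * W x s X y) *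
          (W x s X y + x / 2 * s ^ 2 * ∑ e, D e y ^ 2 + C * s ^ 3) := by
  have pρ : ∀ z, 0 ≤ rho κ x B L z := rho_nonneg hx.le hB hL
  set c1 := ∫ z, rho κ x B L z * Real.exp (lamb κ x B z) *
        (Fintype.card κ * (B * ‖z‖)) ∂(gI κ) with hc1
  set c2 := (∫ z, rho κ x B L z ^ 2 * Real.exp (lamb κ x B z) ∂(gI κ)) +
        (∫ z, rho κ x B L z * Real.exp (lamb κ x B z) ∂(gI κ)) *
          ∫ z, rho κ x B L z ∂(gI κ) with hc2
  set l0 := ∫ z, lamb κ x B z ∂(gI κ) with hl0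
  have p1 : 0 ≤ c1 := integral_nonneg fun z => by have := pρ z; positivity
  have p2 : 0 ≤ c2 := by
    refine add_nonneg (integral_nonneg fun z => ?_) (mul_nonneg (integral_nonneg fun z => ?_)
      (integral_nonneg pρ)) <;> (have := pρ z; positivity)
  refine ⟨(c1 + 1 / x * c2) * Real.exp l0, by positivity, fun X D h s hs hs1 y => ?_⟩
  have ef := eg_rem h hx hs hs1 y
  have eef := eg_exp_rem h hx hs hs1 y
  have t1 := ent_t1 h hx hs hs1 y
  have t2 := ent_t2 h hx hs hs1 y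
  have hm1 := (ent_m h hx hs hs1 y).1
  rw [← hc1] at t1
  rw [← hc2] at t2
  rw [← hl0] at hm1
  set m := ∫ z, x * rem X D x s y z ∂(gI κ) with hm
  set Er := ∫ z, Real.exp (x * rem X D x s y z) ∂(gI κ) with hEr
  have hEr1 : Real.exp m ≤ Er :=
    convexOn_exp.map_integral_le Real.continuous_exp.continuousOn isClosed_univ
      (Filter.Eventually.of_forall fun _ => Set.mem_univ _) ef.integrable eef.integrable
  have hEr0 : 0 < Er := (Real.exp_pos _).trans_le hEr1
  have hErl : Real.exp (-l0) ≤ Er :=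
    (Real.exp_le_exp.2 (by linarith [(abs_le.1 hm1).1])).trans hEr1
  set c0 := x * X y + x ^ 2 * s ^ 2 * (∑ e, D e y ^ 2) / 2 with hc0
  have hW : Real.exp (x * W x s X y) = Real.exp c0 * Er := by
    rw [h.lip.exp_W hB hx]
    have := rem_repr X D x s y (fun _ => 1)
    simpa using this
  have hlog : x * W x s X y = c0 + Real.log Er := by
    have := congrArg Real.log hW
    rwa [Real.log_exp, Real.log_mul (Real.exp_pos _).ne' hEr0.ne', Real.log_exp] at this
  have hmlog : m ≤ Real.log Er := (Real.le_log_iff_exp_le hEr0).2 hEr1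
  have hrep := rem_repr X D x s y X
  rw [hrep, hW, mul_assoc (Real.exp c0)]
  refine mul_le_mul_of_nonneg_left ?_ (Real.exp_pos _).le
  have eG : EG fun z : κ → ℝ => ∑ e, D e y * z e := EG.sum _ fun e _ => (EG.coord e).const_mul _
  have hXe : ∀ z, Real.exp (x * rem X D x s y z) * X (y + dw D x s y z) =
      (X y + x * s ^ 2 * ∑ e, D e y ^ 2) * Real.exp (x * rem X D x s y z) +
        s * (Real.exp (x * rem X D x s y z) * (∑ e, D e y * z e)) +
        1 / x * (Real.exp (x * rem X D x s y z) * (x * rem X D x s y z)) := by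
    intro z
    have e1 : X (y + dw D x s y z) = X y + (s * (∑ e, D e y * z e) +
        x * s ^ 2 * ∑ e, D e y ^ 2) + 1 / x * (x * rem X D x s y z) := by
      rw [← mul_assoc, one_div_mul_cancel hx.ne', one_mul]
      unfold rem
      rw [sum_dw]
      ring
    rw [e1]
    ring
  have hint : ∫ z, Real.exp (x * rem X D x s y z) * X (y + dw D x s y z) ∂(gI κ) =
      (X y + x * s ^ 2 * ∑ e, D e y ^ 2) * Er +
        s * ∫ z, Real.exp (x * rem X D x s y z) * (∑ e, D e y * z e) ∂(gI κ) +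
        1 / x * ∫ z, Real.exp (x * rem X D x s y z) * (x * rem X D x s y z) ∂(gI κ) := by
    simp_rw [hXe]
    have i1 := eef.integrable.const_mul (X y + x * s ^ 2 * ∑ e, D e y ^ 2)
    have i2 := (eef.mul eG).integrable.const_mul s
    have i3 := (eef.mul ef).integrable.const_mul (1 / x)
    have i12 : Integrable (fun z => (X y + x * s ^ 2 * ∑ e, D e y ^ 2) *
      Real.exp (x * rem X D x s y z) + s * (Real.exp (x * rem X D x s y z) *
        (∑ e, D e y * z e))) (gI κ) := i1.add i2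
    rw [integral_add i12 i3, integral_add i1 i2, integral_const_mul,
      integral_const_mul, integral_const_mul]
  rw [hint]
  have hWv : W x s X y = X y + x / 2 * s ^ 2 * (∑ e, D e y ^ 2) + 1 / x * Real.log Er := by
    have : W x s X y = 1 / x * (c0 + Real.log Er) := by
      rw [← hlog, ← mul_assoc, one_div_mul_cancel hx.ne', one_mul]
    rw [this, hc0]
    field_simp
  rw [hWv]
  refine ent_alg hx hs p1 p2 hErl ?_ ?_
  · calc s * _ ≤ s * (s ^ 2 * c1) := mul_le_mul_of_nonneg_left t1 hs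
      _ = s ^ 3 * c1 := by ring
  · have h2 : Er * m ≤ Er * Real.log Er := mul_le_mul_of_nonneg_left hmlog hEr0.le
    have hs3 : s ^ 4 ≤ s ^ 3 := by
      have : 0 ≤ s ^ 3 := by positivity
      nlinarith
    have h3 : s ^ 4 * c2 ≤ s ^ 3 * c2 := mul_le_mul_of_nonneg_right hs3 p2
    linarith

end Vale.Agent.P146.H425
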