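import Vale.Agent.P146.H425.X1

/-!
The exponent step for a linear layered system: slopes, second differences, and the variance of
the overlap of a level.
-/

open MeasureTheory ProbabilityTheory

namespace Vale.Agent.P146.H425

open Vale.Agent.P157 Vale.Agent.P157.Lv Vale.Agent.P157.Lv.Sy
open Vale.Agent.P146.H784 (vr)

set_option linter.unusedSectionVars false
set_option linter.unusedVariables false

variable {ι X : Type} [Fintype ι] [DecidableEq ι] [Fintype X] [DecidableEq X] [Nonempty X]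

variable {S : Sy ι X} {a : X → ι → ℝ} {c : X → ℝ} {l : ℕ} {m' : ℕ → ℝ} {N : ℕ}
  {φ : X → Fin N → ℝ} {s : ℝ}

/-- The level `l + 1` of the system contains exactly the field `s ∑ z_i φ_i`. -/
def FL (S : Sy ι X) (a : X → ι → ℝ) (φ : X → Fin N → ℝ) (l : ℕ) (s : ℝ) : Prop :=
  ∀ g : (X → ℝ) → ℝ, g (fun _ => 0) = 0 →
    ∑ e, (if S.lev e = l + 1 then g (fun x => a x e) else 0) = ∑ i, g (fun x => s * φ x i)

lemma FL.sum_sq (hS : S.Reg) (hF : FL S a φ l s) (hN : 0 < N) {j : ℕ} (hj : j ≤ S.K)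
    (z : ι → ℝ) : ∑ e, (if S.lev e = l + 1 then S.T j (fun _ x => a x e) z ^ 2 else 0) =
      N * s ^ 2 * H784.rho S φ j z := by
  have h1 := hF (fun v => S.T j (fun _ x => v x) z ^ 2) (by
    simp only
    rw [hS.T_const hj]
    norm_num)
  simp only at h1
  rw [h1]
  have hN' : (0 : ℝ) < N := by exact_mod_cast hN
  unfold H784.rho
  rw [Finset.mul_sum, Finset.mul_sum]
  refine Finset.sum_congr rfl fun i _ => ?_
  rw [T_const_mul]
  unfold Sy.mg
  field_simp

/-- **The slope from below.** -/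
theorem kf_ge_rho (h : LinS S a c) (hF : FL S a φ l s) (hN : 0 < N) (hl : l < S.K) (z : ι → ℝ) :
    N * s ^ 2 / 2 * H784.rho S φ l z ≤ kf S l z := by
  have h1 := h.kf_ge hl z
  rw [hF.sum_sq h.reg hN hl.le] at h1
  linarith

/-- **The slope from above.** -/
theorem kf_le_rho (h : LinS S a c) (hF : FL S a φ l s) (hN : 0 < N) (hl : l < S.K) (z : ι → ℝ) :
    kf S l z ≤ N * s ^ 2 / 2 * S.T l (fun z _ => H784.rho S φ (l + 1) z) z := by
  have h1 := h.kf_le hl z
  have e : (fun (z : ι → ℝ) (_ : X) => ∑ e, (if S.lev e = l + 1 then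
      S.T (l + 1) (fun _ x => a x e) z ^ 2 else 0)) =
      fun z _ => N * s ^ 2 * H784.rho S φ (l + 1) z := by
    funext z _
    exact hF.sum_sq h.reg hN hl z
  rw [e, T_const_mul] at h1
  linarith

/-- the mean slope -/
noncomputable def mk (S : Sy ι X) (l : ℕ) : ℝ := S.Ex (fun z _ => kf S l z)

section bounds

variable (h : LinS S a c) (hF : FL S a φ l s) (hN : 0 < N) (hl : l < S.K)
  (hφ : ∀ x i, (φ x i) ^ 2 ≤ 1)

include h hF hN hl

theorem mk_ge : N * s ^ 2 / 2 * S.Rl φ l ≤ mk S l := by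
  have h1 := h.reg.Ex_mono (f := fun z _ => N * s ^ 2 / 2 * H784.rho S φ l z)
    (g := fun z _ => kf S l z) (Nh.fst ((H784.eg_rho h.reg hl.le).const_mul _))
    (Nh.fst (eg_kf h.reg hl)) fun z _ => kf_ge_rho h hF hN hl z
  rw [Ex_const_mul, H784.Ex_rho] at h1
  exact h1

theorem mk_le : mk S l ≤ N * s ^ 2 / 2 * S.Rl φ (l + 1) := by
  have h1 := h.reg.Ex_mono (f := fun z _ => kf S l z)
    (g := fun z _ => N * s ^ 2 / 2 * S.T l (fun z _ => H784.rho S φ (l + 1) z) z)
    (Nh.fst (eg_kf h.reg hl))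
    (Nh.fst ((h.reg.eg_T hl.le (Nh.fst (H784.eg_rho h.reg hl))).const_mul _))
    fun z _ => kf_le_rho h hF hN hl z
  rw [Ex_const_mul, h.reg.Ex_T hl.le (Nh.fst (H784.eg_rho h.reg hl)), H784.Ex_rho] at h1
  exact h1

lemma kf_nonneg (z : ι → ℝ) : 0 ≤ kf S l z :=
  (mul_nonneg (by positivity) (H784.rho_nonneg S φ l z)).trans (kf_ge_rho h hF hN hl z)

include hφ

lemma kf_le_const (z : ι → ℝ) : kf S l z ≤ N * s ^ 2 / 2 := by
  refine (kf_le_rho h hF hN hl z).trans ?_
  have h1 : S.T l (fun z _ => H784.rho S φ (l + 1) z) z ≤ 1 := by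
    rw [← h.reg.T_const hl.le 1 z]
    exact h.reg.T_mono hl.le (Nh.fst (H784.eg_rho h.reg hl)) (fun _ => EG.const 1)
      (fun z _ => H784.rho_le_one h.reg hl hφ z) z
  have h2 : 0 ≤ N * s ^ 2 / 2 := by positivity
  nlinarith

/-- **(X) The variance of the overlap of the level `l`.** -/
theorem vr_rho_le (hs : s ≠ 0) : vr S (fun z _ => H784.rho S φ l z) ≤
    8 / (N * s ^ 2) ^ 2 * vr S (fun z _ => kf S l z) + 2 * (S.Rl φ (l + 1) - S.Rl φ l) := by
  have hS := h.reg
  have hN' : (0 : ℝ) < N := by exact_mod_cast hN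
  have hs2 : 0 < s ^ 2 := by positivity
  obtain ⟨q, hq⟩ : ∃ q, q = 2 / (N * s ^ 2) := ⟨_, rfl⟩
  have hq0 : 0 < q := by rw [hq]; positivity
  have hq1 : q * (N * s ^ 2 / 2) = 1 := by rw [hq]; field_simp
  obtain ⟨κ, hκ⟩ : ∃ κ : (ι → ℝ) → ℝ, κ = fun z => q * kf S l z := ⟨_, rfl⟩
  have eκ : EG κ := by rw [hκ]; exact (eg_kf hS hl).const_mul q
  have er := H784.eg_rho (φ := φ) hS hl.le
  have er1 := H784.eg_rho (φ := φ) hS (l := l + 1) hl
  have k1 : ∀ z, H784.rho S φ l z ≤ κ z := by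
    intro z
    have h1 := mul_le_mul_of_nonneg_left (kf_ge_rho h hF hN hl z) hq0.le
    rw [← mul_assoc, hq1, one_mul] at h1
    rw [hκ]
    exact h1
  have k2 : ∀ z, κ z ≤ S.T l (fun z _ => H784.rho S φ (l + 1) z) z := by
    intro z
    have h1 := mul_le_mul_of_nonneg_left (kf_le_rho h hF hN hl z) hq0.le
    rw [← mul_assoc, hq1, one_mul] at h1
    rw [hκ]
    exact h1
  have k3 : ∀ z, κ z ≤ 1 := by
    intro z
    have h1 := mul_le_mul_of_nonneg_left (kf_le_const h hF hN hl hφ z) hq0.le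
    rw [hq1] at h1
    rw [hκ]
    exact h1
  -- the centered variables
  obtain ⟨a1, ha1⟩ : ∃ a1, a1 = S.Ex (fun z _ => κ z) := ⟨_, rfl⟩
  obtain ⟨a2, ha2⟩ : ∃ a2, a2 = S.Ex (fun z _ => H784.rho S φ l z) := ⟨_, rfl⟩
  have nκ : Nh (X := X) fun z _ => κ z := Nh.fst eκ
  have nr : Nh (X := X) fun z _ => H784.rho S φ l z := Nh.fst er
  have nd : Nh (X := X) fun z _ => (κ z - H784.rho S φ l z) := Nh.fst (eκ.sub er)
  -- the square of the difference
  have d1 : S.Ex (fun z _ => (κ z - H784.rho S φ l z) ^ 2) ≤ S.Rl φ (l + 1) - S.Rl φ l := by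
    have h1 := hS.Ex_mono (f := fun z _ => (κ z - H784.rho S φ l z) ^ 2)
      (g := fun z _ => S.T l (fun z _ => H784.rho S φ (l + 1) z) z - H784.rho S φ l z)
      (Nh.fst ((eκ.sub er).pow 2)) (Nh.fst ((hS.eg_T hl.le (Nh.fst er1)).sub er))
      (fun z _ => by
        have h2 := k1 z
        have h3 := k3 z
        have h4 := H784.rho_nonneg S φ l z
        nlinarith [k2 z])
    rw [hS.Ex_sub (Nh.fst (hS.eg_T hl.le (Nh.fst er1))) nr, hS.Ex_T hl.le (Nh.fst er1),
      H784.Ex_rho, H784.Ex_rho] at h1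
    exact h1
  have d2 : vr S (fun z _ => κ z) = q ^ 2 * vr S (fun z _ => kf S l z) := by
    rw [hκ]
    exact H784.vr_const_mul q (fun z _ => kf S l z)
  have d3 : vr S (fun z _ => H784.rho S φ l z) ≤ 2 * vr S (fun z _ => κ z) +
      2 * S.Ex (fun z _ => (κ z - H784.rho S φ l z) ^ 2) := by
    have h1 : S.Ex (fun z _ => (H784.rho S φ l z - a2) ^ 2) ≤
        S.Ex (fun z _ => (H784.rho S φ l z - a1) ^ 2) := by
      have e1 : ∀ t, S.Ex (fun z _ => (H784.rho S φ l z - t) ^ 2) =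
          S.Ex (fun z _ => H784.rho S φ l z ^ 2) - 2 * t * a2 + t ^ 2 := by
        intro t
        have e2 : (fun (z : ι → ℝ) (_ : X) => (H784.rho S φ l z - t) ^ 2) =
            fun z _ => (H784.rho S φ l z ^ 2 - 2 * t * H784.rho S φ l z) + t ^ 2 := by
          funext z _; ring
        rw [e2, hS.Ex_add (Nh.sub (Nh.pow nr 2) (Nh.const_mul _ nr)) (fun _ => EG.const _),
          hS.Ex_sub (Nh.pow nr 2) (Nh.const_mul _ nr), Ex_const_mul, hS.Ex_const, ← ha2]
      rw [e1, e1]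
      nlinarith [sq_nonneg (a1 - a2)]
    have h2 := hS.Ex_mono (f := fun z _ => (H784.rho S φ l z - a1) ^ 2)
      (g := fun z _ => 2 * (κ z - a1) ^ 2 + 2 * (κ z - H784.rho S φ l z) ^ 2)
      (Nh.fst ((er.sub (EG.const a1)).pow 2))
      (Nh.fst ((((eκ.sub (EG.const a1)).pow 2).const_mul 2).add
        (((eκ.sub er).pow 2).const_mul 2)))
      (fun z _ => by nlinarith [sq_nonneg (κ z - a1 + (κ z - H784.rho S φ l z))])
    rw [hS.Ex_add (Nh.const_mul 2 (Nh.fst ((eκ.sub (EG.const a1)).pow 2)))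
      (Nh.const_mul 2 (Nh.fst ((eκ.sub er).pow 2))), Ex_const_mul, Ex_const_mul] at h2
    unfold vr
    rw [← ha1, ← ha2]
    exact h1.trans h2
  have e3 : 8 / (N * s ^ 2) ^ 2 = 2 * q ^ 2 := by rw [hq]; ring
  rw [e3]
  nlinarith [d1, d2, d3]

end bounds

/-! ### the level zero -/

/-- If the coefficients of the level zero vanish, then the free energy is `lg_0`. -/
theorem lg_zero_const (h : LinS S a c) (h0 : ∀ x e, S.lev e = 0 → a x e = 0) (z : ι → ℝ) :
    S.lg 0 z = S.fe := by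
  have key : ∀ l ≤ S.K, ∀ z w : ι → ℝ, (∀ e, S.lev e ≠ 0 → z e = w e) → S.lg l z = S.lg l w := by
    refine down_ind (P := fun l => ∀ z w : ι → ℝ, (∀ e, S.lev e ≠ 0 → z e = w e) →
      S.lg l z = S.lg l w) ?_ ?_
    · intro z w hzw
      rw [lg_top]
      unfold Sy.top
      congr 1
      refine Finset.sum_congr rfl fun x _ => ?_
      rw [h.H, h.H]
      congr 2
      refine Finset.sum_congr rfl fun e _ => ?_
      by_cases he : S.lev e = 0
      · rw [h0 x e he, zero_mul, zero_mul]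
      · rw [hzw e he]
    · intro l hl ih z w hzw
      rw [lg_step S hl]
      unfold stp J
      congr 2
      refine integral_congr_ae (Filter.Eventually.of_forall fun y => ?_)
      simp only
      rw [ih (mix S.lev l z y) (mix S.lev l w y) fun e he => ?_]
      unfold mix
      rw [hzw e he]
  have h1 : ∀ z, S.lg 0 z = S.lg 0 0 := by
    intro z
    rw [← h.reg.dep_lg (Nat.zero_le _) z 0]
    refine key 0 (Nat.zero_le _) _ _ fun e he => ?_
    unfold mix
    rw [if_neg (by omega)]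
  have h2 : S.fe = S.lg 0 0 := by
    unfold Sy.fe
    simp only [h1]
    simp
  rw [h1, h2]

/-! ### the slopes and the second differences of the free energy -/

section fe

variable (h : LinS S a c) (h' : (wm S m').Reg) (h0 : ∀ x e, S.lev e = 0 → a x e = 0)

lemma LinS.wm (h : LinS S a c) (h' : (wm S m').Reg) : LinS (H425.wm S m') a c := ⟨h', h.H⟩

include h h' h0

/-- **(T) The slope inequality.** -/
theorem slope_le (hl1 : 1 ≤ l) (hl : l < S.K) (heq : ∀ j, j ≠ l + 1 → m' j = S.m j) :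
    (m' (l + 1) - S.m (l + 1)) * mk S l ≤ (wm S m').fe - S.fe := by
  have hr : 0 < S.m 1 := h.reg.pos
  have hm' : 0 < m' (l + 1) := h'.m_pos (by omega) (by rw [wm_K]; omega)
  have h1 := fe_sub_ge h.reg h' hl.le hr (fun j hj hj' => heq j (by omega))
    (fun j hj hj' => h.reg.m_mono hj (by omega)) (lg_zero_const h h0)
    (lg_zero_const (h.wm h') h0)
    (g := fun z => (m' (l + 1) - S.m (l + 1)) * kf S l z) ((eg_kf h.reg hl).const_mul _)
    (fun z => by
      have := h.tangent_lg hl hm' (fun j hj _ => heq j (by omega)) z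
      linarith)
  rw [Ex_const_mul] at h1
  exact h1

/-- **The gain over the slope is at least a variance.** -/
theorem gain_ge (hl1 : 1 ≤ l) (hl : l < S.K) (heq : ∀ j, j ≠ l + 1 → m' j = S.m j)
    (hF : FL S a φ l s) (hN : 0 < N) (hφ : ∀ x i, (φ x i) ^ 2 ≤ 1)
    (hb : S.m 1 * |m' (l + 1) - S.m (l + 1)| * (N * s ^ 2) ≤ 1) :
    (m' (l + 1) - S.m (l + 1)) * mk S l +
      1 / 4 * S.m 1 * (m' (l + 1) - S.m (l + 1)) ^ 2 * vr S (fun z _ => kf S l z) ≤
      (wm S m').fe - S.fe := by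
  have hr : 0 < S.m 1 := h.reg.pos
  have hm' : 0 < m' (l + 1) := h'.m_pos (by omega) (by rw [wm_K]; omega)
  exact fe_sub_ge_var h.reg h' hl.le hr (fun j hj hj' => heq j (by omega))
    (fun j hj hj' => h.reg.m_mono hj (by omega)) (lg_zero_const h h0)
    (lg_zero_const (h.wm h') h0) (eg_kf h.reg hl) (kf_nonneg h hF hN hl)
    (kf_le_const h hF hN hl hφ) (by linarith)
    (fun z => by
      have := h.tangent_lg hl hm' (fun j hj _ => heq j (by omega)) z
      linarith)

end fe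

end Vale.Agent.P146.H425
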