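import Vale.Agent.P146.H425.FOut
import Vale.Agent.P146.H785.Growth
import Vale.Agent.P146.H713.Ftc

/-!
Plan R1, the output of the block F for smooth functions: the rows `(star)` (785) and `(FTC)`
(713) are plugged into `f_out`.
-/

open MeasureTheory ProbabilityTheory

namespace Vale.Agent.P146.R1

open Vale.Agent.P157.Lv Vale.Agent.P146.H425

set_option linter.unusedSectionVars false

/-- the rows `(star)` and `(FTC)` -/
theorem rate_of {κ : Type} [Fintype κ] [DecidableEq κ] {F : (κ → ℝ) → ℝ}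
    {D : κ → (κ → ℝ) → ℝ} {B L M K x θ T : ℝ} {H Tn : κ → κ → (κ → ℝ) → ℝ}
    (hS : Sm F D B L H Tn M) (hc : Cv F) (hK0 : 0 ≤ K)
    (hK : ∀ y y', -K ≤ ∑ e, D e y * D e y') (hx : 0 < x) (hθ : 0 < θ) (hθ1 : θ ≤ 1 / 64)
    (hT : 0 < T) (hT1 : T ≤ 1)
    (hQ : ∀ s, 1 - T / 2 ≤ s → s ≤ 1 - T / 4 → K ≤ Qt x θ (1 - T) (1 - T / 2) s F D) :
    Rate F D x θ T (fun s => Ht x θ (1 - T) (1 - T / 2) s F D H) := by
  have h := hS.c11
  have hL := Lth_bd (θ := θ) h hc hx (t0 := 1 - T) (t1 := 1 - T / 2) (by linarith)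
    (by linarith) (by linarith) hθ.le (by linarith)
  have hL2 := Lth_bd (θ := 2 * θ) h hc hx (t0 := 1 - T) (t1 := 1 - T / 2) (by linarith)
    (by linarith) (by linarith) (by linarith) (by linarith)
  refine ⟨(Qt_cont hS hx θ (1 - T) (by linarith)).mono
    (Set.Icc_subset_Icc le_rfl (by linarith)), fun s hs => ?_, fun s _ => ?_, fun s hs => ?_⟩
  · exact Qt_deriv hS hx θ (1 - T) ⟨hs.1, by linarith [hs.2]⟩
  · exact Ht_nonneg hS hx _ _ _ _
  · have h0 := hQ s hs.1.le hs.2.le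
    refine H785.star (hS.c2 hc) hc hx (by linarith) (by linarith) hs.1.le
      (by linarith [hs.1]) (by linarith [hs.2]) hθ.le hK0 hK hL.1 (hL2.2.trans ?_) ?_
    · refine mul_le_mul_of_nonneg_right (by linarith) ?_
      exact mul_nonneg (sq_nonneg _) (GG_nonneg h (by positivity))
    · have h1 : 0 ≤ Qt x θ (1 - T) (1 - T / 2) s F D := hK0.trans h0
      have h2 : θ * (Qt x θ (1 - T) (1 - T / 2) s F D + K) ≤
          1 / 64 * (Qt x θ (1 - T) (1 - T / 2) s F D + K) :=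
        mul_le_mul_of_nonneg_right hθ1 (by linarith)
      linarith

/-- **The output of the block F for a smooth convex function whose gradients at two points have
an inner product at least `-K`.** -/
theorem f_fin {ε α C K : ℝ} (hα : 0 < α) (hαε : 4 * α ≤ ε) (hC : 0 < C) (hK0 : 0 ≤ K) :
    ∃ n₀ : ℝ, 2 ≤ n₀ ∧ ∀ n : ℝ, n₀ ≤ n → ∀ (κ : Type) [Fintype κ] [DecidableEq κ]
      (F : (κ → ℝ) → ℝ) (D : κ → (κ → ℝ) → ℝ) (B L M : ℝ) (H Tn : κ → κ → (κ → ℝ) → ℝ),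
      Sm F D B L H Tn M → Cv F → (∀ z, ∑ e, D e z ^ 2 ≤ C * n) →
      (∀ y y', -K ≤ ∑ e, D e y * D e y') →
      n ^ (1 / 3 + ε : ℝ) ≤ ∫ z, (F z - ∫ z', F z' ∂(gI κ)) ^ 2 ∂(gI κ) →
      ∃ x θ T ρ s1 s2 : ℝ, FData n α ε C F D
        (fun x θ T s => Ht x θ (1 - T) (1 - T / 2) s F D H) x θ T ρ s1 s2 := by
  obtain ⟨n₀, h2, hf⟩ := f_out hα hαε hC K
  refine ⟨n₀, h2, fun n hn κ _ _ F D B L M H Tn hS hc hCn hK hV => ?_⟩
  exact hf n hn κ F D B L _ hS.c11 hc hCn (fun x θ T hx hθ hθ1 hT hT1 hQ =>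
    rate_of hS hc hK0 hK hx hθ hθ1 hT hT1 hQ) hV

end Vale.Agent.P146.R1
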