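import Vale.Agent.P146.H425.FCore
import Vale.Agent.P146.H640.R1t
import Vale.Agent.P146.H327.Mom
import Vale.Agent.P146.H737.R1f

/-!
Plan R1, the output of the block F (`f_out`): if the variance is at least `n^(1/3+ε)`, there are a
scale `x`, a window `[1-T,1]`, a size `ρ` and two times `s1 < s2` in `[1-T/2, 1-T/4]` such that
under the law `P_θ` the squared gradient is `ρ` up to `n^α`, off an exponentially small event.
-/

open MeasureTheory ProbabilityTheory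

namespace Vale.Agent.P146.R1

open Vale.Agent.P157.Lv Vale.Agent.P146.H425 Vale.Agent.P146.H327

set_option linter.unusedSectionVars false

variable {κ : Type} [Fintype κ] {F : (κ → ℝ) → ℝ} {D : κ → (κ → ℝ) → ℝ}
  {B L : ℝ}

/-- The rows `(star)` and `(FTC)` for the mean squared gradient; `R s` is the mean squared
Hessian at the time `s`. -/
structure Rate (F : (κ → ℝ) → ℝ) (D : κ → (κ → ℝ) → ℝ) (x θ T : ℝ) (R : ℝ → ℝ) : Prop where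
  cont : ContinuousOn (fun s => Qt x θ (1 - T) (1 - T / 2) s F D)
    (Set.Icc (1 - T / 2) (1 - T / 4))
  deriv : ∀ s ∈ Set.Ioo (1 - T / 2) (1 - T / 4),
    HasDerivAt (fun s => Qt x θ (1 - T) (1 - T / 2) s F D) (R s) s
  nonneg : ∀ s ∈ Set.Ioo (1 - T / 2) (1 - T / 4), 0 ≤ R s
  star : ∀ s ∈ Set.Ioo (1 - T / 2) (1 - T / 4),
    5 / 32 * Qt x θ (1 - T) (1 - T / 2) s F D ^ 2 / GG (2 * x) F D ≤
      Qt x θ (1 - T) (1 - T / 2) s F D / s + R s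

/-- The output of the block F. -/
structure FData (n α ε C : ℝ) (F : (κ → ℝ) → ℝ) (D : κ → (κ → ℝ) → ℝ)
    (R : ℝ → ℝ → ℝ → ℝ → ℝ) (x θ T ρ s1 s2 : ℝ) : Prop where
  x_low : n ^ (-(1 / 6) : ℝ) ≤ x
  x_up : x ≤ n ^ (-(1 / 6) + α : ℝ)
  θ_pos : 0 < θ
  θ_le : θ ≤ 1 / 64
  T_pos : 0 < T
  T_low : 1 / n ^ 2 ≤ T
  T_le : T ≤ 1
  ρ_pos : 0 < ρ
  ρ_le : ρ ≤ C * n
  ρ_low : n ^ (1 / 3 + ε - 3 * α : ℝ) ≤ ρ
  y_low : n ^ (ε - α : ℝ) ≤ x ^ 2 * ρ * T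
  s1_low : 1 - T / 2 < s1
  s12 : s1 + T / 8 ≤ s2
  s2_up : s2 < 1 - T / 4
  low : ∀ s, 1 - T / 2 ≤ s → s ≤ 1 - T / 4 → Et x θ (1 - T) (1 - T / 2) s F
    (fun _ _ z2 => if sq x s F D z2 ≤ n ^ (-α) * ρ then (1 : ℝ) else 0) ≤
      Real.exp (-n ^ (ε / 2))
  up2 : ∀ s, 1 - T / 2 ≤ s → s ≤ 1 - T / 4 → Et x θ (1 - T) (1 - T / 2) s F
    (fun _ _ z2 => if n ^ α * ρ ≤ sq x s F D z2 then (1 : ℝ) else 0) ≤
      Real.exp (-n ^ (ε / 2))
  up1 : ∀ s, 1 - T / 2 ≤ s → s ≤ 1 - T / 4 → Et x θ (1 - T) (1 - T / 2) s F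
    (fun _ z1 _ => if n ^ α * ρ ≤ sq x (1 - T / 2) F D z1 then (1 : ℝ) else 0) ≤
      Real.exp (-n ^ (ε / 2))
  up0 : ∀ s, 1 - T / 2 ≤ s → s ≤ 1 - T / 4 → Et x θ (1 - T) (1 - T / 2) s F
    (fun z0 _ _ => if n ^ α * ρ ≤ sq x (1 - T) F D z0 then (1 : ℝ) else 0) ≤
      Real.exp (-n ^ (ε / 2))
  mom2 : ∀ s, 1 - T / 2 ≤ s → s ≤ 1 - T / 4 → ∀ p ≤ 8, Et x θ (1 - T) (1 - T / 2) s F
    (fun _ _ z2 => sq x s F D z2 ^ p) ≤ n ^ α * ρ ^ p
  mom1 : ∀ s, 1 - T / 2 ≤ s → s ≤ 1 - T / 4 → ∀ p ≤ 8, Et x θ (1 - T) (1 - T / 2) s F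
    (fun _ z1 _ => sq x (1 - T / 2) F D z1 ^ p) ≤ n ^ α * ρ ^ p
  mom0 : ∀ s, 1 - T / 2 ≤ s → s ≤ 1 - T / 4 → ∀ p ≤ 8, Et x θ (1 - T) (1 - T / 2) s F
    (fun z0 _ _ => sq x (1 - T) F D z0 ^ p) ≤ n ^ α * ρ ^ p
  rate1 : R x θ T s1 ≤ n ^ α * ρ / T
  rate2 : R x θ T s2 ≤ n ^ α * ρ / T
  grow : T ≤ n ^ (-α) → n ^ (-α) * ρ ≤
    Qt x θ (1 - T) (1 - T / 2) s2 F D - Qt x θ (1 - T) (1 - T / 2) s1 F D

section

variable {x θ T ρ Λ s : ℝ}

/-- the two rows of the tilt -/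
lemma tilt_rows (h : C11 F D B L) (hc : Cv F) (hx : 0 < x) (hT : 0 < T) (hT1 : T ≤ 1)
    (hρ : ρ = Phi x F D (1 - T)) (hθ : 0 < θ) (hθ1 : θ ≤ 1 / 64) :
    Tilt x θ (1 - T) (1 - T / 2) (x ^ 2 * ρ * T / 4) F D := by
  have h2 := Lth_bd (θ := θ) h hc hx (t0 := 1 - T) (t1 := 1 - T / 2) (by linarith) (by linarith)
    (by linarith) hθ.le (by linarith)
  have h3 := Lth_bd (θ := 2 * θ) h hc hx (t0 := 1 - T) (t1 := 1 - T / 2) (by linarith)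
    (by linarith) (by linarith) (by linarith) (by linarith)
  refine ⟨h2.1, h3.2, fun s h1 hs => ?_⟩
  refine tilt h hx (by linarith) (by linarith) h1 hs hθ.le ?_
  rw [← hρ]
  have e : x ^ 2 / 2 * (1 - T / 2 - (1 - T)) * ρ = x ^ 2 * ρ * T / 4 := by ring
  rw [e]

end

lemma Phi_le {x t Bd : ℝ} (h : C11 F D B L) (hx : 0 < x) (hB : ∀ z, ∑ e, D e z ^ 2 ≤ Bd)
    (ht : t ∈ Set.Icc (0 : ℝ) 1) : Phi x F D t ≤ Bd := by
  have hA : 0 < ∫ z, Real.exp (x * F z) ∂(gI κ) := integral_exp_pos (h.eg_exp x).integrable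
  unfold Phi Nm
  rw [div_le_iff₀ hA, ← Nm_one h hx (a := √t) (b := √(1 - t)) (by
    rw [Real.sq_sqrt ht.1, Real.sq_sqrt (by linarith [ht.2])]; ring), ← integral_const_mul]
  have hW := h.W' hx (√(1 - t))
  have e1 : EG fun y => Real.exp (x * W x (√(1 - t)) F y) * G2 x (√(1 - t)) F D y :=
    (hW.eg_exp x).mul hW.eg_G2
  refine integral_mono (EG.smul' e1 _).integrable
    ((EG.smul' (hW.eg_exp x) _).integrable.const_mul _) fun z => ?_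
  simp only
  rw [mul_comm]
  exact mul_le_mul_of_nonneg_right (H327.sq_le h hB x t _) (Real.exp_pos _).le

/-- the power of a product with a small power of `n` -/
lemma pow_split8 {n α ρ : ℝ} (hn : 1 ≤ n) (hα : 0 ≤ α) (hρ : 0 ≤ ρ) {p : ℕ} (hp : p ≤ 8) :
    (n ^ (α / 16) * ρ) ^ p ≤ n ^ (α / 2) * ρ ^ p := by
  rw [mul_pow]
  refine mul_le_mul_of_nonneg_right ?_ (pow_nonneg hρ p)
  rw [← Real.rpow_natCast, ← Real.rpow_mul (by linarith)]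
  refine Real.rpow_le_rpow_of_exponent_le hn ?_
  have : (p : ℝ) ≤ 8 := by exact_mod_cast hp
  nlinarith

/-- The numbers. -/
structure FNum (n α ε C A : ℝ) : Prop where
  n1 : 1 ≤ n
  Λ1 : 1 ≤ 3 * A * Real.log n
  Λu : 3000 * (3 * A * Real.log n) ≤ n ^ (α / 16)
  u1 : 10000 ≤ n ^ (α / 16)
  pow : ∀ δ, α / 16 ≤ δ → n ^ (α / 16) ≤ n ^ δ
  y1 : ∀ y, n ^ (ε - α : ℝ) ≤ y → n ^ (ε / 2) ≤ y
  small : ∀ y, n ^ (ε - α : ℝ) ≤ y →
    3 * Real.exp (-(1 / (64 * (3 * A * Real.log n)) * y / 16)) ≤ Real.exp (-n ^ (ε / 2))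
  half : Real.exp (-n ^ (ε / 2)) ≤ 1 / 2
  exp8 : ∀ p : ℕ, p ≤ 8 → (C * n) ^ p * Real.exp (-n ^ (ε / 2)) ≤ 1
  ρ1 : ∀ x T ρ : ℝ, 0 < x → x ≤ n ^ (-(1 / 6) + α : ℝ) → 0 ≤ T → T ≤ 1 → 0 ≤ ρ →
    n ^ (ε - α : ℝ) ≤ x ^ 2 * ρ * T → n ^ (1 / 3 + ε - 3 * α : ℝ) ≤ ρ
  ρ2 : ∀ ρ : ℝ, n ^ (1 / 3 + ε - 3 * α : ℝ) ≤ ρ → n ^ (1 / 3 : ℝ) ≤ n ^ (-(α / 4)) * ρ ∧ 1 ≤ ρ
  mom : ∀ (p : ℕ) (E ρ : ℝ), p ≤ 8 → 1 ≤ ρ →
    E ≤ (n ^ (α / 16) * ρ) ^ p + (C * n) ^ p * Real.exp (-n ^ (ε / 2)) → E ≤ n ^ α * ρ ^ p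

theorem fnum {ε α C A : ℝ} (hα : 0 < α) (hαε : 4 * α ≤ ε) (hC : 0 < C) (hA : 1 ≤ A) :
    ∃ n₀ : ℝ, 2 ≤ n₀ ∧ ∀ n : ℝ, n₀ ≤ n → FNum n α ε C A := by
  obtain ⟨n₃, hn₃, hlog⟩ := H737.R1.log_le_pow (A := 10000 * A) (δ := α / 16) (by positivity)
  refine ⟨max n₃ (max C 3), hn₃.trans (le_max_left _ _), fun n hn => ?_⟩
  have hn3 : n₃ ≤ n := (le_max_left _ _).trans hn
  have hnC : C ≤ n := ((le_max_left _ _).trans (le_max_right _ _)).trans hn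
  have hn30 : 3 ≤ n := ((le_max_right _ _).trans (le_max_right _ _)).trans hn
  have hn0 : 0 < n := by linarith
  have hn1' : 1 ≤ n := by linarith
  have hlog1 : 1 ≤ Real.log n := by
    rw [Real.le_log_iff_exp_le hn0]
    exact (Real.exp_one_lt_d9.le.trans (by norm_num)).trans hn30
  have hA0 : 0 < A := by linarith
  set u := n ^ (α / 16) with hu
  have hu1 : 10000 * A * Real.log n ≤ u := hlog n hn3
  have hAl : 1 ≤ A * Real.log n := by nlinarith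
  have hu2 : 10000 ≤ u := by nlinarith
  have hu0 : 0 < u := by linarith
  have hpow : ∀ δ, α / 16 ≤ δ → u ≤ n ^ δ := fun δ hδ =>
    Real.rpow_le_rpow_of_exponent_le hn1' hδ
  have he0 : u ≤ n ^ (ε / 2) := hpow _ (by linarith)
  have hexp8 : ∀ p : ℕ, p ≤ 8 → (C * n) ^ p * Real.exp (-n ^ (ε / 2)) ≤ 1 := by
    intro p hp
    have h1 : (C * n) ^ p ≤ Real.exp (16 * Real.log n) := by
      have h2 : C * n ≤ n ^ 2 := by nlinarith
      have h3 : (C * n) ^ p ≤ (n ^ 2) ^ p := pow_le_pow_left₀ (by positivity) h2 p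
      have h4 : (n ^ 2) ^ p ≤ (n ^ 2) ^ 8 := pow_le_pow_right₀ (one_le_pow₀ hn1') hp
      have h5 : Real.exp (16 * Real.log n) = (n ^ 2) ^ 8 := by
        rw [mul_comm, Real.exp_mul, Real.exp_log hn0, ← pow_mul]
        norm_cast
      rw [h5]
      exact h3.trans h4
    have h6 : Real.exp (16 * Real.log n) ≤ Real.exp (n ^ (ε / 2)) := by
      refine Real.exp_le_exp.2 ?_
      have : Real.log n ≤ A * Real.log n := by nlinarith
      nlinarith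
    calc (C * n) ^ p * Real.exp (-n ^ (ε / 2)) ≤
        Real.exp (n ^ (ε / 2)) * Real.exp (-n ^ (ε / 2)) :=
          mul_le_mul_of_nonneg_right (h1.trans h6) (Real.exp_pos _).le
      _ = 1 := by rw [← Real.exp_add, add_neg_cancel, Real.exp_zero]
  refine ⟨hn1', by nlinarith, by linarith, hu2, hpow, fun y hy => ?_, fun y hy => ?_, ?_, hexp8,
    fun x T ρ hxp hx1 hT0 hT1 hρ hy => ?_, fun ρ hρ => ?_, fun p E ρ hp hρ1 hE => ?_⟩
  · exact le_trans (Real.rpow_le_rpow_of_exponent_le hn1' (by linarith)) hy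
  · have hΛ0 : 0 < 3 * A * Real.log n := by positivity
    set θ := 1 / (64 * (3 * A * Real.log n)) with hθ
    have hθ0 : 0 < θ := by positivity
    have hyθ : n ^ (ε / 2) + 2 ≤ θ * y / 16 := by
      have h1 : u * n ^ (ε / 2) ≤ y := by
        refine le_trans ?_ hy
        rw [hu, ← Real.rpow_add hn0]
        exact Real.rpow_le_rpow_of_exponent_le hn1' (by linarith)
      have h2 : θ * (u * n ^ (ε / 2)) ≤ θ * y := mul_le_mul_of_nonneg_left h1 hθ0.le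
      have h3 : 32 * n ^ (ε / 2) ≤ θ * (u * n ^ (ε / 2)) := by
        have h4 : 32 ≤ θ * u := by
          rw [hθ, div_mul_eq_mul_div, one_mul, le_div_iff₀ (by positivity)]
          linarith
        have h5 := mul_le_mul_of_nonneg_right h4 (by linarith : (0 : ℝ) ≤ n ^ (ε / 2))
        linarith
      linarith
    have h1 : Real.exp (-(θ * y / 16)) ≤ Real.exp (-n ^ (ε / 2) - 2) :=
      Real.exp_le_exp.2 (by linarith)
    have h2 : Real.exp (-n ^ (ε / 2) - 2) = Real.exp (-n ^ (ε / 2)) * Real.exp (-2) := by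
      rw [← Real.exp_add]; ring_nf
    have h3 : 3 * Real.exp (-2) ≤ 1 := by
      rw [Real.exp_neg]
      have h4 : (3 : ℝ) ≤ Real.exp 2 := by
        have := Real.add_one_le_exp (2 : ℝ)
        linarith
      rw [mul_inv_le_iff₀ (Real.exp_pos _)]
      linarith
    have h5 := mul_le_mul_of_nonneg_left h3 (Real.exp_pos (-n ^ (ε / 2))).le
    linarith
  · have h1 : Real.exp (-n ^ (ε / 2)) ≤ Real.exp (-1) := Real.exp_le_exp.2 (by linarith)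
    have h2 : Real.exp (-1) ≤ 1 / 2 := by
      rw [Real.exp_neg, ← one_div]
      refine one_div_le_one_div_of_le (by norm_num) ?_
      have := Real.add_one_le_exp (1 : ℝ)
      linarith
    linarith
  · have h1 : x ^ 2 * ρ * T ≤ x ^ 2 * ρ := by
      have := mul_le_mul_of_nonneg_left hT1 (by positivity : 0 ≤ x ^ 2 * ρ)
      linarith
    have h2 : x ^ 2 * n ^ (1 / 3 + ε - 3 * α : ℝ) ≤ n ^ (ε - α) := by
      have h3 : x ^ 2 ≤ (n ^ (-(1 / 6) + α : ℝ)) ^ 2 := pow_le_pow_left₀ hxp.le hx1 2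
      refine (mul_le_mul_of_nonneg_right h3 (by positivity)).trans ?_
      rw [← Real.rpow_natCast, ← Real.rpow_mul hn0.le, ← Real.rpow_add hn0]
      exact Real.rpow_le_rpow_of_exponent_le hn1' (by push_cast; linarith)
    have h4 : x ^ 2 * n ^ (1 / 3 + ε - 3 * α : ℝ) ≤ x ^ 2 * ρ := by linarith
    exact le_of_mul_le_mul_left h4 (by positivity)
  · have h1 : n ^ (1 / 3 : ℝ) = n ^ (-(α / 4)) * n ^ (1 / 3 + α / 4 : ℝ) := by
      rw [← Real.rpow_add hn0]; ring_nf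
    refine ⟨?_, le_trans (Real.one_le_rpow hn1' (by linarith)) hρ⟩
    rw [h1]
    refine mul_le_mul_of_nonneg_left (le_trans ?_ hρ) (by positivity)
    exact Real.rpow_le_rpow_of_exponent_le hn1' (by linarith)
  · have hρp : 0 < ρ := by linarith
    have h1 := pow_split8 (ρ := ρ) (α := α) hn1' hα.le hρp.le hp
    have h2 := hexp8 p hp
    have h3 : 1 ≤ ρ ^ p := one_le_pow₀ hρ1
    have h4 : n ^ (α / 2) + 1 ≤ n ^ α := by
      have h5 : n ^ α = n ^ (α / 2) * n ^ (α / 2) := by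
        rw [← Real.rpow_add hn0]; ring_nf
      have h6 : u ≤ n ^ (α / 2) := hpow _ (by linarith)
      rw [h5]
      nlinarith
    have h7 := mul_le_mul_of_nonneg_right h4 (pow_nonneg hρp.le p)
    linarith

/-- The bounds at one scale and one window, in terms of powers of `n`. -/
theorem f_at {n α ε C A x T : ℝ} (hN : FNum n α ε C A) (h : C11 F D B L)
    (hc : Cv F) (hBd : ∀ z, ∑ e, D e z ^ 2 ≤ C * n) (hC : 0 < C)
    (hα : 0 < α) (hx : 0 < x) (hx1 : x ≤ n ^ (-(1 / 6) + α : ℝ)) (hT : 0 < T) (hT1 : T ≤ 1)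
    {ρ θ : ℝ} (hρ : ρ = Phi x F D (1 - T)) (hθ : θ = 1 / (64 * (3 * A * Real.log n)))
    (hG : GG (2 * x) F D ≤ 3 * A * Real.log n * (ρ * T))
    (hy : n ^ (ε - α : ℝ) ≤ x ^ 2 * ρ * T) :
    0 < ρ ∧ 0 < θ ∧ θ ≤ 1 / 64 ∧ ρ ≤ C * n ∧ n ^ (1 / 3 + ε - 3 * α : ℝ) ≤ ρ ∧
    (∀ s, 1 - T / 2 ≤ s → s ≤ 1 - T / 4 → n ^ (-(α / 4)) * ρ ≤
      Qt x θ (1 - T) (1 - T / 2) s F D) ∧
    Qt x θ (1 - T) (1 - T / 2) (1 - T / 4) F D ≤ n ^ (α / 2) * ρ ∧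
    (∀ s, 1 - T / 2 ≤ s → s ≤ 1 - T / 4 → Et x θ (1 - T) (1 - T / 2) s F
      (fun _ _ z2 => if sq x s F D z2 ≤ n ^ (-α) * ρ then (1 : ℝ) else 0) ≤
        Real.exp (-n ^ (ε / 2))) ∧
    (∀ s, 1 - T / 2 ≤ s → s ≤ 1 - T / 4 → Et x θ (1 - T) (1 - T / 2) s F
      (fun _ _ z2 => if n ^ α * ρ ≤ sq x s F D z2 then (1 : ℝ) else 0) ≤
        Real.exp (-n ^ (ε / 2))) ∧
    (∀ s, 1 - T / 2 ≤ s → s ≤ 1 - T / 4 → Et x θ (1 - T) (1 - T / 2) s F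
      (fun _ z1 _ => if n ^ α * ρ ≤ sq x (1 - T / 2) F D z1 then (1 : ℝ) else 0) ≤
        Real.exp (-n ^ (ε / 2))) ∧
    (∀ s, 1 - T / 2 ≤ s → s ≤ 1 - T / 4 → Et x θ (1 - T) (1 - T / 2) s F
      (fun z0 _ _ => if n ^ α * ρ ≤ sq x (1 - T) F D z0 then (1 : ℝ) else 0) ≤
        Real.exp (-n ^ (ε / 2))) ∧
    (∀ s, 1 - T / 2 ≤ s → s ≤ 1 - T / 4 → ∀ p ≤ 8, Et x θ (1 - T) (1 - T / 2) s F
      (fun _ _ z2 => sq x s F D z2 ^ p) ≤ n ^ α * ρ ^ p) ∧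
    (∀ s, 1 - T / 2 ≤ s → s ≤ 1 - T / 4 → ∀ p ≤ 8, Et x θ (1 - T) (1 - T / 2) s F
      (fun _ z1 _ => sq x (1 - T / 2) F D z1 ^ p) ≤ n ^ α * ρ ^ p) ∧
    (∀ s, 1 - T / 2 ≤ s → s ≤ 1 - T / 4 → ∀ p ≤ 8, Et x θ (1 - T) (1 - T / 2) s F
      (fun z0 _ _ => sq x (1 - T) F D z0 ^ p) ≤ n ^ α * ρ ^ p) := by
  have hn0 : 0 < n := by linarith [hN.n1]
  have hyp : 0 < x ^ 2 * ρ * T := (Real.rpow_pos_of_pos hn0 _).trans_le hy
  have hρp : 0 < ρ := by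
    by_contra hh
    push Not at hh
    have : x ^ 2 * ρ * T ≤ 0 := mul_nonpos_of_nonpos_of_nonneg
      (mul_nonpos_of_nonneg_of_nonpos (by positivity) hh) hT.le
    linarith
  have hρC : ρ ≤ C * n := by
    rw [hρ]
    exact Phi_le h hx hBd ⟨by linarith, by linarith⟩
  have hsm := hN.small _ hy
  have hΛu := hN.Λu
  have hΛ1 := hN.Λ1
  rw [← hθ] at hsm
  set Λ := 3 * A * Real.log n with hΛ
  have hΛ0 : 0 < Λ := by linarith
  have hθ0 : 0 < θ := by rw [hθ]; positivity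
  have hθΛ : θ * Λ ≤ 1 / 64 := by
    rw [hθ]
    exact le_of_eq (by field_simp)
  have hθ1 : θ ≤ 1 / 64 := by
    rw [hθ]
    exact one_div_le_one_div_of_le (by norm_num) (by linarith)
  have htilt := tilt_rows h hc hx hT hT1 hρ hθ0 hθ1
  have hu2 := hN.u1
  set u := n ^ (α / 16) with hu
  have hpow := hN.pow
  have hupe : ∀ M, u ≤ M → Real.exp ((Λ / 2 - M / 16) * (x ^ 2 * ρ * T)) ≤
      Real.exp (-n ^ (ε / 2)) := by
    intro M hM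
    refine Real.exp_le_exp.2 ?_
    have h1 : Λ / 2 - M / 16 ≤ -1 := by linarith
    have h2 := mul_le_mul_of_nonneg_right h1 hyp.le
    have h3 := hN.y1 _ hy
    linarith
  have hρl := hN.ρ1 x T ρ hx hx1 hT.le hT1 hρp.le hy
  have hρ1 : 1 ≤ ρ := (hN.ρ2 ρ hρl).2
  have hL0 : 0 ≤ Lth x θ (1 - T) (1 - T / 2) F := htilt.L0
  have hte : ∀ t, t ≤ 1 - T / 4 → ∀ p : ℕ, (C * n) ^ p * Real.exp
      (-(x ^ 2 * (1 - t) * (u * ρ) / 4) +
      x ^ 2 / 4 * GG (2 * x) F D + Lth x (2 * θ) (1 - T) (1 - T / 2) F / 2) ≤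
        (C * n) ^ p * Real.exp (-n ^ (ε / 2)) := by
    intro t ht p
    refine mul_le_mul_of_nonneg_left ?_ (by positivity)
    refine le_trans ?_ (hupe u le_rfl)
    refine le_trans (Real.exp_le_exp.2 ?_) (tail_exp_le (M := u) h hc hx hT hT1 hρp hΛ1 hG
      hθ0 hθΛ htilt)
    have h1 : x ^ 2 * (T / 4) * (u * ρ) ≤ x ^ 2 * (1 - t) * (u * ρ) :=
      mul_le_mul_of_nonneg_right (mul_le_mul_of_nonneg_left (by linarith) (by positivity))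
        (by positivity)
    linarith
  have hnα : u ≤ n ^ α := hpow _ (by linarith)
  refine ⟨hρp, hθ0, hθ1, hρC, hρl, fun s h1 h2 => ?_, ?_, fun s h1 h2 => ?_,
    fun s h1 h2 => ?_,
    fun s h1 h2 => ?_, fun s h1 h2 => ?_,
    fun s h1 h2 p hp => ?_, fun s h1 h2 p hp => ?_, fun s h1 h2 p hp => ?_⟩
  · refine le_trans ?_ (Qt_low (s := s) h hc hx hT hT1 hρp hΛ1 hG hθ0 hθΛ htilt h1
        (by linarith) (hsm.trans hN.half))
    have h1 : u ≤ n ^ (α / 4) := hpow _ (by linarith)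
    have h2 : n ^ (-(α / 4)) ≤ 1 / 512 := by
      rw [Real.rpow_neg hn0.le, ← one_div]
      exact one_div_le_one_div_of_le (by norm_num) (by linarith)
    have h3 := mul_le_mul_of_nonneg_right h2 hρp.le
    linarith
  · refine (Qt_up h hc hx hT hT1 hρp hΛ1 hG hθ0 hθΛ htilt).trans ?_
    have h1 : u ≤ n ^ (α / 2) := hpow _ (by linarith)
    exact mul_le_mul_of_nonneg_right (by linarith) hρp.le
  · refine le_trans ?_ ((low_tail (s := s) h hc hx hT hT1 hρp hΛ1 hG hθ0 hθΛ htilt h1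
      (by linarith)).trans hsm)
    refine Et_mono h hx (e3_ind_sq2 h hx s _) (e3_ind_sq2 h hx s _) fun z0 z1 z2 => ?_
    have h3 : n ^ (-α) * ρ ≤ ρ / 256 := by
      have h4 : n ^ (-α) ≤ 1 / 256 := by
        rw [Real.rpow_neg hn0.le, ← one_div]
        exact one_div_le_one_div_of_le (by norm_num) (by linarith)
      have h5 := mul_le_mul_of_nonneg_right h4 hρp.le
      linarith
    by_cases h6 : sq x s F D z2 ≤ n ^ (-α) * ρ
    · rw [if_pos h6, if_pos (h6.trans h3)]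
    · rw [if_neg h6]
      split_ifs <;> norm_num
  · exact (up_tail2 (s := s) h hc hx hT hT1 hρp hΛ1 hG hθ0 hθΛ htilt
      (by positivity) h1 h2).trans (hupe _ hnα)
  · exact (up_tail1 (s := s) h hc hx hT hT1 hρp hΛ1 hG hθ0 hθΛ htilt
      (by positivity) h1 h2).trans (hupe _ hnα)
  · exact (up_tail0 (s := s) h hc hx hT hT1 hρp hΛ1 hG hθ0 hθΛ htilt
      (by positivity) h1 h2).trans (hupe _ hnα)
  · refine hN.mom p _ ρ hp hρ1 ((H327.mom2 h hc hx (t0 := 1 - T) (t1 := 1 - T / 2) (s := s)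
      (by linarith) (by linarith) h1 (by linarith) hL0 hBd (M := u * ρ) (by positivity) p).trans ?_)
    exact add_le_add le_rfl (hte s h2 p)
  · refine hN.mom p _ ρ hp hρ1 ((H327.mom1 h hc hx (t0 := 1 - T) (t1 := 1 - T / 2) (s := s)
      (by linarith) (by linarith) h1 (by linarith) hL0 hBd (M := u * ρ) (by positivity) p).trans ?_)
    exact add_le_add le_rfl (hte (1 - T / 2) (by linarith) p)
  · refine hN.mom p _ ρ hp hρ1 ((H327.mom0 h hc hx (t0 := 1 - T) (t1 := 1 - T / 2) (s := s)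
      (by linarith) (by linarith) h1 (by linarith) hL0 hBd (M := u * ρ) (by positivity) p).trans ?_)
    exact add_le_add le_rfl (hte (1 - T) (by linarith) p)

/-- **The output of the block F.** -/
theorem f_out {ε α C : ℝ} (hα : 0 < α) (hαε : 4 * α ≤ ε) (hC : 0 < C) (K₀ : ℝ) :
    ∃ n₀ : ℝ, 2 ≤ n₀ ∧ ∀ n : ℝ, n₀ ≤ n → ∀ (κ : Type) [Fintype κ] (F : (κ → ℝ) → ℝ)
      (D : κ → (κ → ℝ) → ℝ) (B L : ℝ) (R : ℝ → ℝ → ℝ → ℝ → ℝ), C11 F D B L → Cv F →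
      (∀ z, ∑ e, D e z ^ 2 ≤ C * n) →
      (∀ x θ T, 0 < x → 0 < θ → θ ≤ 1 / 64 → 0 < T → T ≤ 1 →
        (∀ s, 1 - T / 2 ≤ s → s ≤ 1 - T / 4 → K₀ ≤ Qt x θ (1 - T) (1 - T / 2) s F D) →
          Rate F D x θ T (R x θ T)) →
      n ^ (1 / 3 + ε : ℝ) ≤ ∫ z, (F z - ∫ z', F z' ∂(gI κ)) ^ 2 ∂(gI κ) →
      ∃ x θ T ρ s1 s2 : ℝ, FData n α ε C F D R x θ T ρ s1 s2 := by
  have hε : 0 < ε := by linarith
  obtain ⟨A, hA, n₁, hn₁, hframe⟩ := H737.R1.frame hC hα hε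
  obtain ⟨n₂, hn₂, htyp⟩ := H737.R1.typical_n (A := A) hA hα
  obtain ⟨n₃, hn₃, hfnum⟩ := fnum hα hαε hC hA
  obtain ⟨n₄, hn₄⟩ := Filter.eventually_atTop.1
    ((tendsto_rpow_atTop (show (0 : ℝ) < 1 / 3 by norm_num)).eventually_ge_atTop K₀)
  refine ⟨max (max n₁ n₂) (max n₃ n₄), hn₁.trans ((le_max_left _ _).trans
    (le_max_left _ _)), fun n hn κ _ F D B L R h hc hCn hR hV => ?_⟩
  have hn1 : n₁ ≤ n := ((le_max_left _ _).trans (le_max_left _ _)).trans hn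
  have hn2 : n₂ ≤ n := ((le_max_right _ _).trans (le_max_left _ _)).trans hn
  have hn3 : n₃ ≤ n := ((le_max_left _ _).trans (le_max_right _ _)).trans hn
  have hn4 := hn₄ n (((le_max_right _ _).trans (le_max_right _ _)).trans hn)
  have hN := hfnum n hn3
  have hn0 : 0 < n := by linarith [hN.n1]
  obtain ⟨x, T, hx0, hx1, hreg, hT0, hT1, hwin, hy⟩ := hframe n hn1 (fun x t => Phi x F D t)
    (∫ z, (F z - ∫ z', F z' ∂(gI κ)) ^ 2 ∂(gI κ)) hV (fun x hx => var_le_Phi h hc hx)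
    (fun x hx t ht => ⟨(Phi_bd h hx ht).1, Phi_le h hx hCn ht⟩)
    (fun x hx => Phi_int h hx)
  have hxp : 0 < x := (Real.rpow_pos_of_pos hn0 _).trans_le hx0
  have hTp : 0 < T := (by positivity : 0 < 1 / n ^ 2).trans_le hT0
  have hlog : 0 < Real.log n := by
    have := hN.Λ1
    by_contra hh
    push Not at hh
    have h1 : A * Real.log n ≤ 0 := mul_nonpos_of_nonneg_of_nonpos (by linarith) hh
    linarith
  have hG : GG (2 * x) F D ≤ 3 * A * Real.log n * (Phi x F D (1 - T) * T) := by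
    have h1 : GG x F D ≤ 3 * Real.log n * (Phi x F D (1 - T) * T) := by
      have := (div_le_iff₀ (by positivity : (0 : ℝ) < 3 * Real.log n)).1 hwin
      unfold GG
      linarith
    have h2 : GG (2 * x) F D ≤ A * GG x F D := hreg
    have h3 := mul_le_mul_of_nonneg_left h1 (by linarith : (0 : ℝ) ≤ A)
    linarith
  have hGp : 0 < GG (2 * x) F D := by
    have h1 := var_le_Phi h hc (x := 2 * x) (by positivity)
    have h2 : 0 < n ^ (1 / 3 + ε : ℝ) := Real.rpow_pos_of_pos hn0 _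
    unfold GG
    linarith
  obtain ⟨hρp, hθ0, hθ1, hρC, hρl, hlo, hup, k1, k2, k3, k4, k5, k6, k7⟩ :=
    f_at hN h hc hCn hC hα hxp hx1 hTp hT1 rfl rfl hG hy
  have hRt := hR x _ T hxp hθ0 hθ1 hTp hT1 fun s h1 h2 =>
    (hn4.trans (hN.ρ2 _ hρl).1).trans (hlo s h1 h2)
  obtain ⟨s1, s2, hs1, -, hs12, hs2, hr1, hr2, hgr⟩ := htyp n hn2 _ _ T _ _ hTp hT1 hρp hGp
    hG hRt.cont hRt.deriv hRt.nonneg (fun s hs => hlo s hs.1 hs.2) hup hRt.star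
  exact ⟨x, _, T, _, s1, s2, hx0, hx1, hθ0, hθ1, hTp, hT0, hT1, hρp, hρC, hρl, hy, hs1, hs12, hs2,
    k1, k2, k3, k4, k5, k6, k7, hr1, hr2, hgr⟩

end Vale.Agent.P146.R1
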