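import Vale.Agent.P146.H425.Chain

/-!
The exponent functional: two-sided tangent inequality, and the entropy between the squared mean of
the gradient and the mean of the squared gradient.
-/

open MeasureTheory ProbabilityTheory

namespace Vale.Agent.P146.H425

open Vale.Agent.P157.Lv

set_option linter.unusedSectionVars false

variable {κ : Type} [Fintype κ] {F : (κ → ℝ) → ℝ} {D : κ → (κ → ℝ) → ℝ} {B L x : ℝ}

/-- the right difference quotient -/
lemma tangent_R (h : LipB F B) (hB : 0 ≤ B) (hx : 0 < x) {η : ℝ} (hη : 0 < η) :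
    η * (KL F x / (x * (x + η))) ≤ W (x + η) 1 F 0 - W x 1 F 0 := by
  have hxη : 0 < x + η := by linarith
  have hl := h.lip hB
  have e1 : EG fun z => Real.exp (x * F z) := hl.exp_eg x
  have e2 : EG fun z => Real.exp (x * F z) * Real.exp (η * F z) := e1.mul (hl.exp_eg η)
  have pA : 0 < ∫ z, Real.exp (x * F z) ∂(gI κ) := integral_exp_pos e1.integrable
  have h1 := jensen_tilt e1 (fun z => (Real.exp_pos _).le) pA (hl.eg.const_mul η) e2
  set A := ∫ z, Real.exp (x * F z) ∂(gI κ) with hA
  set T1 := ∫ z, Real.exp (x * F z) * F z ∂(gI κ) with hT1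
  have e3 : ∫ z, Real.exp (x * F z) * (η * F z) ∂(gI κ) = η * T1 := by
    rw [hT1, ← integral_const_mul]
    congr 1
    funext z
    ring
  have e4 : ∫ z, Real.exp (x * F z) * Real.exp (η * F z) ∂(gI κ) =
      ∫ z, Real.exp ((x + η) * F z) ∂(gI κ) := by
    congr 1
    funext z
    rw [← Real.exp_add, ← add_mul]
  rw [e3, e4] at h1
  have pA' : 0 < ∫ z, Real.exp ((x + η) * F z) ∂(gI κ) :=
    integral_exp_pos (hl.exp_eg (x + η)).integrable
  have h2 := Real.log_le_log (mul_pos pA (Real.exp_pos _)) h1
  rw [Real.log_mul pA.ne' (Real.exp_pos _).ne', Real.log_exp] at h2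
  rw [W_one_zero, W_one_zero, ← hA]
  have e5 : KL F x = x * (T1 / A) - Real.log A := rfl
  rw [e5]
  have h3 : 1 / (x + η) * (Real.log A + η * T1 / A) ≤
      1 / (x + η) * Real.log (∫ z, Real.exp ((x + η) * F z) ∂(gI κ)) :=
    mul_le_mul_of_nonneg_left h2 (by positivity)
  refine le_trans (le_of_eq ?_) (sub_le_sub_right h3 _)
  field_simp
  ring

/-- **The two-sided tangent inequality in the exponent.** -/
theorem tangent (h : C11 F D B L) (hc : Cv F) (hx : 0 < x) {x' : ℝ} (hx' : 0 < x') :
    W x 1 F 0 + (x' - x) * (KL F x / x ^ 2) ≤ W x' 1 F 0 := by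
  have hcx := convexOn_W h hc
  rcases lt_trichotomy x' x with hlt | rfl | hgt
  · -- to the left
    set δ := x - x' with hδ
    have hδ0 : 0 < δ := by linarith
    set cc := (W x 1 F 0 - W x' 1 F 0) / δ with hcc
    have key : ∀ η, 0 < η → η ≤ δ → cc * (x * (x - η)) ≤ KL F x := by
      intro η hη hηδ
      have hηx : η < x := by linarith
      have hxη : 0 < x - η := by linarith
      have h1 := tangent_W h.lip h.B0 hx hη hηx
      have h2 := hcx.2 (Set.mem_Ioi.2 hx) (Set.mem_Ioi.2 hx')
        (show (0 : ℝ) ≤ 1 - η / δ by rw [sub_nonneg, div_le_one hδ0]; exact hηδ)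
        (show (0 : ℝ) ≤ η / δ by positivity) (by ring)
      simp only [smul_eq_mul] at h2
      have e1 : (1 - η / δ) * x + η / δ * x' = x - η := by
        rw [hδ]; field_simp; ring
      rw [e1] at h2
      have h3 : cc ≤ (W x 1 F 0 - W (x - η) 1 F 0) / η := by
        rw [le_div_iff₀ hη, hcc]
        have : (W x 1 F 0 - W x' 1 F 0) / δ * η = η / δ * (W x 1 F 0 - W x' 1 F 0) := by ring
        rw [this]
        linarith
      have h4 := h3.trans h1
      rwa [le_div_iff₀ (by positivity)] at h4
    have hlim : cc * x ^ 2 ≤ KL F x := by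
      refine le_of_forall_pos_le_add fun ε hε => ?_
      set η := min δ (ε / (|cc| * x + 1)) with hηd
      have hη : 0 < η := lt_min hδ0 (by positivity)
      have h1 := key η hη (min_le_left _ _)
      have h2 : cc * x * η ≤ ε := by
        have h3 : cc * x * η ≤ |cc| * x * η := by
          have := le_abs_self cc
          gcongr
        have h4 : |cc| * x * η ≤ (|cc| * x + 1) * (ε / (|cc| * x + 1)) := by
          have := min_le_right δ (ε / (|cc| * x + 1))
          have h5 : 0 ≤ |cc| * x := by positivity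
          exact mul_le_mul (by linarith) this hη.le (by linarith)
        rw [mul_div_cancel₀ _ (by positivity)] at h4
        linarith
      nlinarith [h1, h2]
    have h5 : cc ≤ KL F x / x ^ 2 := by rwa [le_div_iff₀ (by positivity)]
    have h6 : W x 1 F 0 - W x' 1 F 0 ≤ δ * (KL F x / x ^ 2) := by
      rw [hcc, div_le_iff₀ hδ0] at h5
      linarith
    have h7 : (x' - x) * (KL F x / x ^ 2) = -(δ * (KL F x / x ^ 2)) := by rw [hδ]; ring
    rw [h7]
    linarith
  · simp
  · -- to the right
    set δ := x' - x with hδ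
    have hδ0 : 0 < δ := by linarith
    set cc := (W x' 1 F 0 - W x 1 F 0) / δ with hcc
    have key : ∀ η, 0 < η → η ≤ δ → KL F x ≤ cc * (x * (x + η)) := by
      intro η hη hηδ
      have h1 := tangent_R h.lip h.B0 hx hη
      have h2 := hcx.2 (Set.mem_Ioi.2 hx) (Set.mem_Ioi.2 hx')
        (show (0 : ℝ) ≤ 1 - η / δ by rw [sub_nonneg, div_le_one hδ0]; exact hηδ)
        (show (0 : ℝ) ≤ η / δ by positivity) (by ring)
      simp only [smul_eq_mul] at h2
      have e1 : (1 - η / δ) * x + η / δ * x' = x + η := by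
        rw [hδ]; field_simp; ring
      rw [e1] at h2
      have h3 : η * (KL F x / (x * (x + η))) ≤ η * cc := by
        have : η * cc = η / δ * (W x' 1 F 0 - W x 1 F 0) := by rw [hcc]; ring
        rw [this]
        linarith
      have h4 := le_of_mul_le_mul_left h3 hη
      rwa [div_le_iff₀ (by positivity)] at h4
    have hlim : KL F x ≤ cc * x ^ 2 := by
      refine le_of_forall_pos_le_add fun ε hε => ?_
      set η := min δ (ε / (|cc| * x + 1)) with hηd
      have hη : 0 < η := lt_min hδ0 (by positivity)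
      have h1 := key η hη (min_le_left _ _)
      have h2 : cc * x * η ≤ ε := by
        have h3 : cc * x * η ≤ |cc| * x * η := by
          have := le_abs_self cc
          gcongr
        have h4 : |cc| * x * η ≤ (|cc| * x + 1) * (ε / (|cc| * x + 1)) := by
          have := min_le_right δ (ε / (|cc| * x + 1))
          have h5 : 0 ≤ |cc| * x := by positivity
          exact mul_le_mul (by linarith) this hη.le (by linarith)
        rw [mul_div_cancel₀ _ (by positivity)] at h4
        linarith
      nlinarith [h1, h2]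
    have h5 : KL F x / x ^ 2 ≤ cc := by rwa [div_le_iff₀ (by positivity)]
    have h6 : δ * (KL F x / x ^ 2) ≤ W x' 1 F 0 - W x 1 F 0 := by
      rw [hcc, le_div_iff₀ hδ0] at h5
      linarith
    linarith

/-- the partial derivatives -/
lemma C11.pd [DecidableEq κ] (h : C11 F D B L) (e : κ) : PD e F (D e) := by
  intro y t
  rw [hasDerivAt_iff_isLittleO_nhds_zero]
  have hb : ∀ u : ℝ, |F (Function.update y e (t + u)) - F (Function.update y e t) -
      u * D e (Function.update y e t)| ≤ L * u ^ 2 := by
    intro u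
    have h1 := h.quad (Function.update y e t) (Pi.single e u)
    have e1 : Function.update y e t + Pi.single e u = Function.update y e (t + u) := by
      funext i
      by_cases hi : i = e
      · subst hi; simp
      · simp [hi]
    have e2 : ∑ e', D e' (Function.update y e t) * (Pi.single e u : κ → ℝ) e' =
        u * D e (Function.update y e t) := by
      rw [Finset.sum_eq_single e]
      · rw [Pi.single_eq_same]; ring
      · intro b _ hb
        rw [Pi.single_eq_of_ne hb, mul_zero]
      · simp
    have e3 : ‖(Pi.single e u : κ → ℝ)‖ ≤ |u| := by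
      refine (pi_norm_le_iff_of_nonneg (abs_nonneg _)).2 fun i => ?_
      by_cases hi : i = e
      · subst hi; simp
      · simp [hi]
    rw [e1, e2] at h1
    refine h1.trans (mul_le_mul_of_nonneg_left ?_ h.L0)
    rw [← sq_abs u]
    exact pow_le_pow_left₀ (norm_nonneg _) e3 2
  rw [Asymptotics.isLittleO_iff]
  intro ε hε
  have hev : ∀ᶠ u : ℝ in nhds 0, |u| * (L + 1) < ε := by
    have : Filter.Tendsto (fun u : ℝ => |u| * (L + 1)) (nhds 0) (nhds (|(0 : ℝ)| * (L + 1))) :=
      (continuous_abs.mul continuous_const).tendsto 0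
    rw [abs_zero, zero_mul] at this
    exact this.eventually (gt_mem_nhds hε)
  filter_upwards [hev] with u hu
  rw [Real.norm_eq_abs, Real.norm_eq_abs, smul_eq_mul]
  refine (hb u).trans ?_
  have h1 : L * u ^ 2 ≤ (L + 1) * (|u| * |u|) := by
    rw [← sq, sq_abs]
    nlinarith [sq_nonneg u]
  nlinarith [abs_nonneg u]

/-- **The entropy dominates the squared mean of the gradient.** -/
theorem KL_ge (h : C11 F D B L) (hx : 0 < x) :
    x ^ 2 / 2 * ∑ e, ((∫ z, Real.exp (x * F z) * D e z ∂(gI κ)) /
      ∫ z, Real.exp (x * F z) ∂(gI κ)) ^ 2 ≤ KL F x := by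
  classical
  have hl := h.lip.lip h.B0
  have e1 : EG fun z => Real.exp (x * F z) := hl.exp_eg x
  have pA : 0 < ∫ z, Real.exp (x * F z) ∂(gI κ) := integral_exp_pos e1.integrable
  set A := ∫ z, Real.exp (x * F z) ∂(gI κ) with hA
  set T1 := ∫ z, Real.exp (x * F z) * F z ∂(gI κ) with hT1
  set d : κ → ℝ := fun e => (∫ z, Real.exp (x * F z) * D e z ∂(gI κ)) / A with hd
  have hmean : ∀ e, ∫ z, Real.exp (x * F z) * z e ∂(gI κ) = A * (x * d e) := by
    intro e
    have h1 := PD.stein (((h.pd e).const_mul x).exp) e1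
      (e1.mul ((h.eg_D e).const_mul x))
    have e2 : (fun z : κ → ℝ => Real.exp (x * F z) * z e) =
        fun z => z e * Real.exp (x * F z) := by
      funext z; ring
    rw [e2, h1, hd]
    simp only
    have e3 : ∀ z, Real.exp (x * F z) * (x * D e z) = x * (Real.exp (x * F z) * D e z) := by
      intro z; ring
    simp_rw [e3]
    rw [integral_const_mul]
    field_simp
  set t : (κ → ℝ) → ℝ := fun z => x * ∑ e, d e * z e - x * F z with ht
  have es : EG fun z : κ → ℝ => ∑ e, d e * z e := EG.sum _ fun e _ => (EG.coord e).const_mul _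
  have et : EG t := (es.const_mul x).sub (hl.eg.const_mul x)
  have e4 : ∀ z, Real.exp (x * F z) * Real.exp (t z) = Real.exp (x * ∑ e, d e * z e) := by
    intro z
    rw [← Real.exp_add, ht]
    simp only
    congr 1
    ring
  have hls : Lip (fun z : κ → ℝ => ∑ e, d e * z e) :=
    Lip.sum _ fun e _ => (Lip.coord e).const_mul _
  have ee : EG fun z => Real.exp (x * F z) * Real.exp (t z) := by
    simp_rw [e4]
    exact hls.exp_eg x
  have h1 := jensen_tilt e1 (fun z => (Real.exp_pos _).le) pA et ee
  rw [← hA] at h1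
  simp_rw [e4] at h1
  have h2 : ∫ z : κ → ℝ, Real.exp (x * ∑ e, d e * z e) ∂(gI κ) =
      Real.exp (x ^ 2 / 2 * ∑ e, d e ^ 2) := by
    have h3 := gI_shift (-(x • d)) (fun _ : κ → ℝ => (1 : ℝ))
    simp only [mul_one, integral_const, probReal_univ, smul_eq_mul] at h3
    have e5 : ∀ z : κ → ℝ, Real.exp (-(∑ i, (-(x • d)) i * z i) - (∑ i, (-(x • d)) i ^ 2) / 2) =
        Real.exp (-(x ^ 2 / 2 * ∑ e, d e ^ 2)) * Real.exp (x * ∑ e, d e * z e) := by
      intro z
      rw [← Real.exp_add]
      congr 1
      have f1 : ∑ i, (-(x • d)) i * z i = -(x * ∑ e, d e * z e) := by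
        rw [Finset.mul_sum, ← Finset.sum_neg_distrib]
        exact Finset.sum_congr rfl fun i _ => by
          simp only [Pi.neg_apply, Pi.smul_apply, smul_eq_mul]; ring
      have f2 : ∑ i, (-(x • d)) i ^ 2 = x ^ 2 * ∑ e, d e ^ 2 := by
        rw [Finset.mul_sum]
        exact Finset.sum_congr rfl fun i _ => by
          simp only [Pi.neg_apply, Pi.smul_apply, smul_eq_mul]; ring
      rw [f1, f2]
      ring
    simp_rw [e5] at h3
    rw [integral_const_mul, Real.exp_neg, eq_comm, inv_mul_eq_iff_eq_mul₀ (Real.exp_pos _).ne']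
      at h3
    rw [h3, mul_one]
  rw [h2] at h1
  have h3 : ∫ z, Real.exp (x * F z) * t z ∂(gI κ) = A * (x ^ 2 * ∑ e, d e ^ 2) - x * T1 := by
    have e5 : ∀ z, Real.exp (x * F z) * t z = x * (∑ e, d e * (Real.exp (x * F z) * z e)) -
        x * (Real.exp (x * F z) * F z) := by
      intro z
      rw [ht]
      simp only
      rw [mul_sub, Finset.mul_sum, Finset.mul_sum, Finset.mul_sum]
      congr 1
      · exact Finset.sum_congr rfl fun e _ => by ring
      · ring
    have ie : ∀ e, Integrable (fun z => d e * (Real.exp (x * F z) * z e)) (gI κ) := fun e =>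
      ((e1.mul (EG.coord e)).const_mul _).integrable
    have i1 : Integrable (fun z => x * (∑ e, d e * (Real.exp (x * F z) * z e))) (gI κ) :=
      (integrable_finsetSum _ fun e _ => ie e).const_mul x
    have i2 : Integrable (fun z => x * (Real.exp (x * F z) * F z)) (gI κ) :=
      ((e1.mul hl.eg).integrable).const_mul x
    simp_rw [e5]
    rw [integral_sub i1 i2, integral_const_mul, integral_const_mul,
      integral_finsetSum _ fun e _ => ie e, ← hT1]
    congr 1
    rw [Finset.mul_sum, Finset.mul_sum, Finset.mul_sum]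
    refine Finset.sum_congr rfl fun e _ => ?_
    rw [integral_const_mul, hmean]
    ring
  have h4 := Real.log_le_log (mul_pos pA (Real.exp_pos _)) h1
  rw [Real.log_mul pA.ne' (Real.exp_pos _).ne', Real.log_exp, Real.log_exp, h3] at h4
  have e6 : (A * (x ^ 2 * ∑ e, d e ^ 2) - x * T1) / A = x ^ 2 * ∑ e, d e ^ 2 - x * (T1 / A) := by
    field_simp
  rw [e6] at h4
  have e7 : KL F x = x * (T1 / A) - Real.log A := rfl
  rw [e7]
  linarith

/-- **Logarithmic Sobolev inequality.** -/
theorem KL_le_grad (h : C11 F D B L) (hx : 0 < x) :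
    KL F x ≤ x ^ 2 / 2 * ((∫ z, Real.exp (x * F z) * ∑ e, D e z ^ 2 ∂(gI κ)) /
      ∫ z, Real.exp (x * F z) ∂(gI κ)) := by
  refine (KL_le h hx).trans (mul_le_mul_of_nonneg_left ?_ (by positivity))
  have hm := Phi_mono h hx
  have h1 : ∫ t in (0 : ℝ)..1, Phi x F D t ≤ ∫ _ in (0 : ℝ)..1, Phi x F D 1 := by
    refine intervalIntegral.integral_mono_on zero_le_one ?_ (by simp) fun t ht =>
      hm ht (Set.right_mem_Icc.2 zero_le_one) ht.2
    refine MonotoneOn.intervalIntegrable ?_
    rw [Set.uIcc_of_le zero_le_one]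
    exact hm
  rw [intervalIntegral.integral_const, sub_zero, one_smul] at h1
  refine h1.trans (le_of_eq ?_)
  unfold Phi Nm G2
  rw [Real.sqrt_one, sub_self, Real.sqrt_zero]
  congr 1
  refine integral_congr_ae (Filter.Eventually.of_forall fun z => ?_)
  simp only [one_smul]
  rw [W_zero hx]
  congr 1
  refine Finset.sum_congr rfl fun e _ => ?_
  congr 1
  unfold DW
  simp only [zero_smul, add_zero, integral_const, probReal_univ, smul_eq_mul, one_mul]
  rw [mul_div_assoc, mul_div_cancel₀]
  exact (Real.exp_pos _).ne'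

end Vale.Agent.P146.H425
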