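import Vale.Agent.P146.H425.SyLg
import Vale.Agent.P146.H425.Tan
import Vale.Agent.P146.H784.Sand1

/-!
The slope of the log-weight in the exponent of its layer: `kf S l` is the function of the levels
at most `l` with `lg_l(m') ≥ lg_l(m) + (m' - m) kf`, if only the exponent `m_{l+1}` is changed;
it lies between `N s² rho_l / 2` and `N s² T_l rho_{l+1} / 2`.
-/

open MeasureTheory ProbabilityTheory

namespace Vale.Agent.P146.H425

open Vale.Agent.P157 Vale.Agent.P157.Lv Vale.Agent.P157.Lv.Sy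
open Vale.Agent.P146.H784 (rho vr eg_rho dep_rho)

set_option linter.unusedSectionVars false
set_option linter.unusedVariables false

variable {ι X : Type} [Fintype ι] [Fintype X] [Nonempty X]

/-- The system with other exponents. -/
def wm (S : Sy ι X) (m' : ℕ → ℝ) : Sy ι X := { S with m := m' }

variable {S : Sy ι X} {a : X → ι → ℝ} {c : X → ℝ} {l : ℕ} {m' : ℕ → ℝ}

lemma wm_lev (S : Sy ι X) (m' : ℕ → ℝ) : (wm S m').lev = S.lev := rfl
lemma wm_K (S : Sy ι X) (m' : ℕ → ℝ) : (wm S m').K = S.K := rfl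
lemma wm_m (S : Sy ι X) (m' : ℕ → ℝ) : (wm S m').m = m' := rfl
lemma wm_H (S : Sy ι X) (m' : ℕ → ℝ) : (wm S m').H = S.H := rfl

/-- the log-weight at the level `l` depends only on the exponents above `l` -/
lemma lg_wm (S : Sy ι X) (m' : ℕ → ℝ) : ∀ l ≤ S.K, (∀ j, l < j → j ≤ S.K → m' j = S.m j) →
    (wm S m').lg l = S.lg l := by
  refine down_ind (P := fun l => (∀ j, l < j → j ≤ S.K → m' j = S.m j) →
    (wm S m').lg l = S.lg l) ?_ ?_
  · intro _
    rw [lg_top]
    have h : (wm S m').lg (wm S m').K = (wm S m').top := lg_top _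
    exact h
  · intro l hl ih h
    have h1 := ih fun j hj hj' => h j (by omega) hj'
    have h2 : (wm S m').lg l = (wm S m').stp l ((wm S m').lg (l + 1)) := lg_step _ hl
    rw [h2, lg_step S hl, h1]
    unfold stp
    rw [wm_m, wm_lev, h (l + 1) (by omega) hl]

/-- The slope of the log-weight `l` in the exponent `m_{l+1}`. -/
noncomputable def kf (S : Sy ι X) (l : ℕ) (z : ι → ℝ) : ℝ :=
  1 / S.m (l + 1) * (S.T l (fun z _ => S.lg (l + 1) z) z - S.lg l z)

lemma nh_lg (hS : S.Reg) (hl : l ≤ S.K) : Nh (X := X) fun z _ => S.lg l z :=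
  Nh.fst (hS.lip_lg hl).eg

lemma eg_kf (hS : S.Reg) (hl : l < S.K) : EG (kf S l) :=
  EG.const_mul _ ((hS.eg_T hl.le (nh_lg hS hl)).sub (hS.lip_lg hl.le).eg)

lemma dep_kf (hS : S.Reg) (hl : l < S.K) : Dep S.lev l (kf S l) := by
  intro z w
  unfold kf
  rw [S.dep_T l _ z w, hS.dep_lg hl.le z w]

section dec

variable [DecidableEq ι]

/-- the slope is an entropy -/
lemma kf_eq (hS : S.Reg) (hl : l < S.K) (z : ι → ℝ) :
    kf S l z = KL (fun w => S.lg (l + 1) (mix S.lev l z w)) (S.m (l + 1)) / S.m (l + 1) ^ 2 := by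
  have hm : 0 < S.m (l + 1) := hS.m_pos (by omega) (by omega)
  have h1 := T_ratio hS hl (nh_lg hS (l := l + 1) hl) z
  have h2 : (fun z => Real.exp (S.m (l + 1) * S.lg (l + 1) z) *
      S.T (l + 1) (fun z _ => S.lg (l + 1) z) z) =
      fun z => Real.exp (S.m (l + 1) * S.lg (l + 1) z) * S.lg (l + 1) z := by
    funext z
    rw [hS.T_fst hl (hS.dep_lg (l := l + 1) hl)]
  rw [h2] at h1
  have h3 := hS.J_exp_lg hl z
  unfold kf
  rw [h1]
  have h4 : S.lg l z = 1 / S.m (l + 1) *
      Real.log (J S.lev l (fun z => Real.exp (S.m (l + 1) * S.lg (l + 1) z)) z) := by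
    rw [h3, Real.log_exp, ← mul_assoc, one_div_mul_cancel hm.ne', one_mul]
  rw [h4]
  unfold KL J
  field_simp

namespace LinS

variable (h : LinS S a c)

include h

lemma m_pos (hl : l < S.K) : 0 < S.m (l + 1) := h.reg.m_pos (by omega) (by omega)

/-- the gradient of the layer -/
lemma c11_mix (hl : l < S.K) (z : ι → ℝ) : ∃ L, C11 (fun w => S.lg (l + 1) (mix S.lev l z w))
    (fun e w => if S.lev e = l + 1 then S.T (l + 1) (fun _ x => a x e) (mix S.lev l z w) else 0)
    (bA a) L := by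
  obtain ⟨L, hC⟩ := h.c11_lg (l + 1) hl
  refine ⟨L, ?_⟩
  have h1 := hC.mixr S.lev l z
  refine cast ?_ h1
  congr 1
  funext e w
  unfold Dlg
  by_cases h1 : S.lev e ≤ l
  · rw [if_pos h1, if_neg (by omega)]
  · rw [if_neg h1]
    by_cases h2 : S.lev e ≤ l + 1
    · rw [if_pos h2, if_pos (by omega)]
    · rw [if_neg h2, if_neg (by omega)]

lemma cv_mix (hl : l < S.K) (z : ι → ℝ) : Cv fun w => S.lg (l + 1) (mix S.lev l z w) := by
  have hc := h.cv_lg (l + 1) hl
  intro p q hp hq hpq w0 w1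
  have h1 := hc p q hp hq hpq (mix S.lev l z w0) (mix S.lev l z w1)
  rw [← mix_comb] at h1
  have e : p • z + q • z = z := by rw [← add_smul, hpq, one_smul]
  rw [e] at h1
  exact h1

/-- **The tangent inequality for the log-weight.** -/
theorem tangent_lg (hl : l < S.K) (hm' : 0 < m' (l + 1))
    (heq : ∀ j, l + 1 < j → j ≤ S.K → m' j = S.m j) (z : ι → ℝ) :
    S.lg l z + (m' (l + 1) - S.m (l + 1)) * kf S l z ≤ (wm S m').lg l z := by
  obtain ⟨L, hC⟩ := h.c11_mix hl z
  have h1 := tangent hC (h.cv_mix hl z) (h.m_pos hl) hm'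
  have e1 := lg_wm S m' (l + 1) hl heq
  have e2 : (wm S m').lg l z = W (m' (l + 1)) 1 (fun w => S.lg (l + 1) (mix S.lev l z w)) 0 := by
    rw [lg_eq_VJ (S := wm S m') hl, VJ_eq_W, e1]
    rfl
  have e3 : S.lg l z = W (S.m (l + 1)) 1 (fun w => S.lg (l + 1) (mix S.lev l z w)) 0 := by
    rw [lg_eq_VJ hl, VJ_eq_W]
  rw [e2, e3, kf_eq h.reg hl]
  exact h1

/-- the lower bound of the slope -/
theorem kf_ge (hl : l < S.K) (z : ι → ℝ) :
    1 / 2 * ∑ e, (if S.lev e = l + 1 then S.T l (fun _ x => a x e) z ^ 2 else 0) ≤ kf S l z := by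
  obtain ⟨L, hC⟩ := h.c11_mix hl z
  have hm := h.m_pos hl
  have h1 := KL_ge hC hm
  rw [kf_eq h.reg hl, le_div_iff₀ (by positivity)]
  refine le_trans (le_of_eq ?_) h1
  rw [mul_comm, ← mul_assoc]
  congr 1
  · ring
  · refine Finset.sum_congr rfl fun e _ => ?_
    by_cases he : S.lev e = l + 1
    · simp only [if_pos he]
      rw [T_ratio h.reg hl (Nh.snd fun x => a x e) z]
      rfl
    · simp only [if_neg he, mul_zero, integral_zero, zero_div]
      norm_num

/-- the upper bound of the slope -/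
theorem kf_le (hl : l < S.K) (z : ι → ℝ) :
    kf S l z ≤ 1 / 2 * S.T l (fun z _ => ∑ e, (if S.lev e = l + 1 then
      S.T (l + 1) (fun _ x => a x e) z ^ 2 else 0)) z := by
  obtain ⟨L, hC⟩ := h.c11_mix hl z
  have hm := h.m_pos hl
  have h1 := KL_le_grad hC hm
  rw [kf_eq h.reg hl, div_le_iff₀ (by positivity)]
  refine h1.trans (le_of_eq ?_)
  rw [mul_comm _ (S.m (l + 1) ^ 2), ← mul_assoc]
  congr 1
  · ring
  · have hn : Nh (X := X) fun z _ => ∑ e, (if S.lev e = l + 1 then
        S.T (l + 1) (fun _ x => a x e) z ^ 2 else 0) := by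
      refine Nh.sum _ fun e _ => ?_
      by_cases he : S.lev e = l + 1
      · simp only [if_pos he]
        exact Nh.fst ((h.reg.eg_T hl (Nh.snd fun x => a x e)).pow 2)
      · simp only [if_neg he]
        exact fun _ => EG.const 0
    rw [T_ratio h.reg hl hn z]
    have hd : Dep S.lev (l + 1) fun z => ∑ e, (if S.lev e = l + 1 then
        S.T (l + 1) (fun _ x => a x e) z ^ 2 else 0) := by
      intro z w
      refine Finset.sum_congr rfl fun e _ => ?_
      rw [S.dep_T (l + 1) _ z w]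
    have e2 : ∀ z, S.T (l + 1) (fun z _ => ∑ e, (if S.lev e = l + 1 then
        S.T (l + 1) (fun _ x => a x e) z ^ 2 else 0)) z = ∑ e, (if S.lev e = l + 1 then
        S.T (l + 1) (fun _ x => a x e) z ^ 2 else 0) := fun z => h.reg.T_fst hl hd z
    simp only [e2]
    unfold J
    congr 1
    refine integral_congr_ae (Filter.Eventually.of_forall fun w => ?_)
    simp only
    congr 1
    refine Finset.sum_congr rfl fun e _ => ?_
    by_cases he : S.lev e = l + 1
    · simp only [if_pos he]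
    · simp only [if_neg he]
      norm_num

end LinS

end dec

end Vale.Agent.P146.H425
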