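import Vale.Agent.P146.H425.Sn

/-!
The log-weights of a linear layered system are jointly convex in the position and in all the
exponents.
-/

open MeasureTheory ProbabilityTheory

namespace Vale.Agent.P146.H425

open Vale.Agent.P157 Vale.Agent.P157.Lv Vale.Agent.P157.Lv.Sy

set_option linter.unusedSectionVars false
set_option linter.unusedVariables false

variable {ι X : Type} [Fintype ι] [Fintype X] [Nonempty X] [DecidableEq ι]
  {S : Sy ι X} {a : X → ι → ℝ} {c : X → ℝ}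

lemma wm_lin (h : LinS S a c) {m' : ℕ → ℝ} (hm' : (wm S m').Reg) : LinS (wm S m') a c :=
  ⟨hm', h.H⟩

/-- **The log-weights are jointly convex in the position and in the exponents.** -/
theorem lg_jc (h : LinS S a c) {m0 m1 mm : ℕ → ℝ} (r0 : (wm S m0).Reg) (r1 : (wm S m1).Reg)
    (rr : (wm S mm).Reg) {p q : ℝ} (hp : 0 ≤ p) (hq : 0 ≤ q) (hpq : p + q = 1)
    (hmm : ∀ j, 1 ≤ j → j ≤ S.K → mm j = p * m0 j + q * m1 j) :
    ∀ j ≤ S.K, ∀ z0 z1 : ι → ℝ, (wm S mm).lg j (p • z0 + q • z1) ≤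
      p * (wm S m0).lg j z0 + q * (wm S m1).lg j z1 := by
  have L0 := wm_lin h r0
  have L1 := wm_lin h r1
  have LL := wm_lin h rr
  refine down_ind (P := fun j => ∀ z0 z1 : ι → ℝ, (wm S mm).lg j (p • z0 + q • z1) ≤
      p * (wm S m0).lg j z0 + q * (wm S m1).lg j z1) ?_ ?_
  · intro z0 z1
    have e0 : (wm S m0).lg S.K = S.top := lg_top (wm S m0)
    have e1 : (wm S m1).lg S.K = S.top := lg_top (wm S m1)
    have e2 : (wm S mm).lg S.K = S.top := lg_top (wm S mm)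
    rw [e0, e1, e2]
    exact L0.cv_top p q hp hq hpq z0 z1
  · intro l hl ih z0 z1
    have hl' : l < S.K := hl
    have hm0 : 0 < m0 (l + 1) := r0.m_pos (by omega) (show l + 1 ≤ S.K + 1 by omega)
    have hm1 : 0 < m1 (l + 1) := r1.m_pos (by omega) (show l + 1 ≤ S.K + 1 by omega)
    have hb := bA_nonneg a
    obtain ⟨A0, C0⟩ := L0.c11_lg (l + 1) (show l + 1 ≤ S.K by omega)
    obtain ⟨A1, C1⟩ := L1.c11_lg (l + 1) (show l + 1 ≤ S.K by omega)
    obtain ⟨A2, C2⟩ := LL.c11_lg (l + 1) (show l + 1 ≤ S.K by omega)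
    have e0 : (wm S m0).lg l = VJ S.lev l (m0 (l + 1)) ((wm S m0).lg (l + 1)) :=
      lg_eq_VJ (S := wm S m0) hl'
    have e1 : (wm S m1).lg l = VJ S.lev l (m1 (l + 1)) ((wm S m1).lg (l + 1)) :=
      lg_eq_VJ (S := wm S m1) hl'
    have e2 : (wm S mm).lg l = VJ S.lev l (mm (l + 1)) ((wm S mm).lg (l + 1)) :=
      lg_eq_VJ (S := wm S mm) hl'
    rw [e0, e1, e2, VJ_eq_W, VJ_eq_W, VJ_eq_W, hmm (l + 1) (by omega) (by omega)]
    have h2 := layer (C2.mixr S.lev l (p • z0 + q • z1)) (C0.mixr S.lev l z0).lip hb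
      (C1.mixr S.lev l z1).lip hb hm0 hm1 hp hq hpq (fun w0 w1 => by
        rw [mix_comb]
        exact ih _ _) 0 0
    simpa using h2

open Vale.Agent.P146.Ub (RI lc st dsk fd ph)
open Vale.Agent.P146.Ub.Ld (SN AN rlv rlv_le)

/-- **The same for the SK systems with fields.** -/
theorem SN_lg_jc {n K N : ℕ} {β : ℝ} {s : ℕ → ℝ} (hK : 1 ≤ K) {m0 m1 mm : ℕ → ℝ} (w0 : WE K m0)
    (w1 : WE K m1) (ww : WE K mm) {p q : ℝ} (hp : 0 ≤ p) (hq : 0 ≤ q) (hpq : p + q = 1)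
    (hmm : ∀ j, 1 ≤ j → j ≤ K → mm j = p * m0 j + q * m1 j) {j : ℕ} (hj : j ≤ K)
    (z0 z1 : RI n K → ℝ) :
    (SN n K 1 mm β N s).lg j (p • z0 + q • z1) ≤
      p * (SN n K 1 m0 β N s).lg j z0 + q * (SN n K 1 m1 β N s).lg j z1 :=
  lg_jc (S := SN n K 1 m0 β N s) (SN_lin hK w0) (m0 := m0) (m1 := m1) (mm := mm)
    (SN_lin hK w0).reg (SN_lin hK w1).reg (SN_lin hK ww).reg hp hq hpq hmm j hj z0 z1

end Vale.Agent.P146.H425
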