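import Vale.Agent.P146.H425.LowT
import Vale.Agent.P146.H260.Asm5
import Vale.Agent.P146.H260.XQ7U
import Vale.Agent.P146.H737.Fin

set_option linter.all false

/-!
# P146: the variance grows faster than `n ^ γ` for every `γ < 1 / 8`
-/

open MeasureTheory ProbabilityTheory Filter Topology

namespace Vale.Agent.P146.H425.LowA

open Vale.Agent.P146 Vale.Agent.P146.H605 Vale.Agent.P146.H260.Asm Vale.Agent.P146.H425.LowT

/-- a shift of the centre of the Laplace transform -/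
lemma log_shift (n : ℕ) (β x y z : ℝ) (h : 0 < ∫ g, Real.exp (x * (freeEnergy n β g - z))
      ∂(disorder n)) :
    Real.log (∫ g, Real.exp (x * (freeEnergy n β g - y)) ∂(disorder n)) =
      x * (z - y) + Real.log (∫ g, Real.exp (x * (freeEnergy n β g - z)) ∂(disorder n)) := by
  have e : ∀ g, Real.exp (x * (freeEnergy n β g - y)) =
      Real.exp (x * (z - y)) * Real.exp (x * (freeEnergy n β g - z)) := fun g => by
    rw [← Real.exp_add]
    congr 1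
    ring
  simp_rw [e]
  rw [integral_const_mul, Real.log_mul (Real.exp_pos _).ne' h.ne', Real.log_exp]

/-- **The variance from the moment law.** -/
theorem var_of_moment {c : ℝ} (hc : 0 < c) (hF : Flat c) {β l p θ : ℝ} (hβ : 0 < β) (hl : 0 < l)
    (hθ0 : 0 < θ) (hθ6 : θ ≤ 1 / 6)
    (hp : ∀ n : ℕ, 1 ≤ n → 0 ≤ n * p - ∫ g, freeEnergy n β g ∂(disorder n))
    (hm : ∀ ε : ℝ, 0 < ε → ∀ a : ℝ, a < θ → ∃ δ : ℝ, 0 < δ ∧ ∀ᶠ n : ℕ in atTop,
      ∀ x : ℝ, (n : ℝ) ^ (-a) ≤ x → x ≤ δ →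
        |Real.log (∫ g, Real.exp (x * (freeEnergy n β g - n * p)) ∂(disorder n)) -
          l * n * x ^ 6| ≤ ε * n * x ^ 6)
    (γ : ℝ) (hγ : γ < 2 * θ) :
    ∀ᶠ n : ℕ in atTop, (n : ℝ) ^ γ ≤ Var[freeEnergy n β; disorder n] := by
  obtain ⟨a, ha⟩ : ∃ a, a = (max γ 0 / 2 + θ) / 2 := ⟨_, rfl⟩
  have hγm : max γ 0 < 2 * θ := max_lt hγ (by linarith)
  have hγ1 : γ ≤ max γ 0 := le_max_left _ _
  have hγ2 : 0 ≤ max γ 0 := le_max_right _ _
  have haθ : a < θ := by rw [ha]; linarith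
  have ha0 : 0 < a := by rw [ha]; linarith
  have haγ : γ < 2 * a := by rw [ha]; linarith
  have ha6 : 0 < 1 - 6 * a := by linarith
  obtain ⟨δ, hδ, h1⟩ := hm (l / 2) (by positivity) a haθ
  have t1 : Tendsto (fun n : ℕ => (n : ℝ) ^ (-a)) atTop (𝓝 0) :=
    (tendsto_rpow_neg_atTop ha0).comp tendsto_natCast_atTop_atTop
  have t2 : Tendsto (fun n : ℕ => (n : ℝ) ^ (1 - 6 * a)) atTop atTop :=
    (tendsto_rpow_atTop ha6).comp tendsto_natCast_atTop_atTop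
  have t3 : Tendsto (fun n : ℕ => (n : ℝ) ^ (2 * a - γ)) atTop atTop :=
    (tendsto_rpow_atTop (by linarith)).comp tendsto_natCast_atTop_atTop
  have t4 : Tendsto (fun n : ℕ => (n : ℝ) ^ (2 * a)) atTop atTop :=
    (tendsto_rpow_atTop (by linarith)).comp tendsto_natCast_atTop_atTop
  filter_upwards [h1, t1.eventually_le_const hδ, t2.eventually_ge_atTop (8 / l),
    t3.eventually_ge_atTop (4 / c ^ 2), t4.eventually_ge_atTop (4 / c ^ 2),
    eventually_ge_atTop 1] with n h2 h3 h4 h5 h6 hn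
  have hn1 : (1 : ℝ) ≤ n := by exact_mod_cast hn
  have hn0 : (0 : ℝ) < n := by linarith
  obtain ⟨x, hx⟩ : ∃ x, x = (n : ℝ) ^ (-a) := ⟨_, rfl⟩
  have hx0 : 0 < x := by rw [hx]; exact Real.rpow_pos_of_pos hn0 _
  have h7 := h2 x hx.ge (by rw [hx]; exact h3)
  have e6 : (n : ℝ) * x ^ 6 = (n : ℝ) ^ (1 - 6 * a) := by
    rw [hx, ← Real.rpow_natCast, ← Real.rpow_mul hn0.le]
    nth_rw 1 [← Real.rpow_one (n : ℝ)]
    rw [← Real.rpow_add hn0]
    congr 1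
    push_cast
    ring
  have h8 : 4 ≤ Real.log (∫ g, Real.exp (x * (freeEnergy n β g - n * p)) ∂(disorder n)) := by
    have h9 := (abs_le.1 h7).1
    have e7 : l * n * x ^ 6 = l * (n : ℝ) ^ (1 - 6 * a) := by rw [← e6]; ring
    have e8 : l / 2 * n * x ^ 6 = l / 2 * (n : ℝ) ^ (1 - 6 * a) := by rw [← e6]; ring
    rw [e7, e8] at h9
    have h10 : l / 2 * (8 / l) ≤ l / 2 * (n : ℝ) ^ (1 - 6 * a) := by gcongr
    have e9 : l / 2 * (8 / l) = 4 := by field_simp; norm_num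
    rw [e9] at h10
    linarith
  have h9 : 0 < ∫ g, Real.exp (x * (freeEnergy n β g - n * p)) ∂(disorder n) := by
    by_contra hcon
    have h10 : ∫ g, Real.exp (x * (freeEnergy n β g - n * p)) ∂(disorder n) = 0 :=
      le_antisymm (not_lt.1 hcon) (integral_nonneg fun g => (Real.exp_pos _).le)
    rw [h10, Real.log_zero] at h8
    linarith
  have h10 := log_shift n β x (∫ h, freeEnergy n β h ∂(disorder n)) (n * p) h9
  have h11 : 0 ≤ x * (n * p - ∫ h, freeEnergy n β h ∂(disorder n)) :=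
    mul_nonneg hx0.le (hp n hn)
  have h12 := v_of_tail hc hF hn hβ hx0 (by rw [h10]; linarith)
  refine le_trans ?_ h12
  have e10 : x ^ (-2 : ℝ) = (n : ℝ) ^ (2 * a) := by
    rw [hx, ← Real.rpow_mul hn0.le]
    congr 1
    ring
  rw [e10]
  have e11 : (n : ℝ) ^ (2 * a) = (n : ℝ) ^ γ * (n : ℝ) ^ (2 * a - γ) := by
    rw [← Real.rpow_add hn0]
    congr 1
    ring
  have hc2 : 0 < c ^ 2 := by positivity
  have h13 : 1 ≤ c ^ 2 / 4 * (n : ℝ) ^ (2 * a) := by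
    have : c ^ 2 / 4 * (4 / c ^ 2) ≤ c ^ 2 / 4 * (n : ℝ) ^ (2 * a) := by gcongr
    have e12 : c ^ 2 / 4 * (4 / c ^ 2) = 1 := by field_simp
    linarith
  have h14 : (n : ℝ) ^ γ ≤ c ^ 2 / 4 * (n : ℝ) ^ (2 * a) := by
    have hg0 : 0 < (n : ℝ) ^ γ := Real.rpow_pos_of_pos hn0 _
    have h15 : 1 ≤ c ^ 2 / 4 * (n : ℝ) ^ (2 * a - γ) := by
      have : c ^ 2 / 4 * (4 / c ^ 2) ≤ c ^ 2 / 4 * (n : ℝ) ^ (2 * a - γ) := by gcongr
      have e12 : c ^ 2 / 4 * (4 / c ^ 2) = 1 := by field_simp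
      linarith
    calc (n : ℝ) ^ γ = (n : ℝ) ^ γ * 1 := by ring
      _ ≤ (n : ℝ) ^ γ * (c ^ 2 / 4 * (n : ℝ) ^ (2 * a - γ)) := by gcongr
      _ = c ^ 2 / 4 * (n : ℝ) ^ (2 * a) := by rw [e11]; ring
  linarith

/-- **The variance grows faster than `n ^ γ` for every `γ < 1 / 8`, at every temperature below
the critical one**, and so does the chaos profile. -/
theorem var_low (hF : ∃ c : ℝ, 0 < c ∧ Flat c) {β : ℝ} (hβ : 1 < β) (γ : ℝ) (hγ : γ < 1 / 8) :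
    ∀ᶠ n : ℕ in atTop, (n : ℝ) ^ γ ≤ Var[freeEnergy n β; disorder n] ∧
      ∃ t : ℝ, 0 ≤ t ∧ t < 1 ∧ (n : ℝ) ^ γ ≤ n * (1 - t) * crossOverlap n β t := by
  obtain ⟨c, hc, hF⟩ := hF
  obtain ⟨Λ, -, h⟩ := final_g (θ := 1 / 16) (a := 2 / 3) (c := 1 / 3) (w := 9 / 16) (k := 2)
    (D := 7) (by norm_num) (by norm_num) (by norm_num) (by norm_num) (by norm_num) (by norm_num)
    (by norm_num) (fun β hβ => H737.tmh1 hβ.le) (fun β hβ => H737.tm1 hβ.le) fun β hβ =>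
      Vale.Agent.P146.H260.XQ7.lowD7 hβ
  obtain ⟨h0, p, k, D, -, -, h2, h3, -⟩ := h β hβ
  have hV : ∀ γ : ℝ, γ < 1 / 8 → ∀ᶠ n : ℕ in atTop,
      (n : ℝ) ^ γ ≤ Var[freeEnergy n β; disorder n] := fun γ hγ =>
    var_of_moment hc hF (by linarith) h0 (θ := 1 / 16) (by norm_num) (by norm_num)
      (fun n hn => (h3 n hn).1) (fun ε hε a ha => by
        obtain ⟨δ, hδ, h4⟩ := h2 ε hε a ha
        exact ⟨δ, hδ, h4.mono fun n hn => hn.1⟩) γ (by linarith)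
  filter_upwards [hV γ hγ, Tb.prof_grow (by norm_num : (0 : ℝ) < 1 / 8) hV γ hγ] with n h4 h5
  exact ⟨h4, h5⟩

end Vale.Agent.P146.H425.LowA
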