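import Vale.Agent.P146.Defs

/-!
# P146: an upper bound of the Laplace transform at the scale of the standard deviation turns any
growth of the Laplace transform into a lower bound of the variance
-/

open MeasureTheory ProbabilityTheory

namespace Vale.Agent.P146.H425.LowT

open Vale.Agent.P146

/-- the Laplace transform of the free energy is bounded at the scale of the standard deviation -/
def Flat (c : ℝ) : Prop := ∀ n : ℕ, 1 ≤ n → ∀ β : ℝ, 0 < β → ∀ x : ℝ, 0 ≤ x →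
  x ≤ c / (1 + √Var[freeEnergy n β; disorder n]) →
  Real.log (∫ g, Real.exp (x * (freeEnergy n β g - ∫ h, freeEnergy n β h ∂(disorder n)))
    ∂(disorder n)) ≤ 3

/-- **A lower bound of the variance from one large exponential moment.** -/
theorem v_of_tail {c : ℝ} (hc : 0 < c) (hF : Flat c) {n : ℕ} (hn : 1 ≤ n) {β : ℝ} (hβ : 0 < β)
    {x : ℝ} (hx : 0 < x)
    (h : 4 ≤ Real.log (∫ g, Real.exp (x * (freeEnergy n β g -
      ∫ h, freeEnergy n β h ∂(disorder n))) ∂(disorder n))) :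
    c ^ 2 / 2 * x ^ (-2 : ℝ) - 1 ≤ Var[freeEnergy n β; disorder n] := by
  obtain ⟨V, hV⟩ : ∃ V, V = Var[freeEnergy n β; disorder n] := ⟨_, rfl⟩
  have hV0 : 0 ≤ V := by rw [hV]; exact variance_nonneg _ _
  have h1 : ¬ x ≤ c / (1 + √V) := fun h2 => by
    rw [hV] at h2
    linarith [hF n hn β hβ x hx.le h2]
  rw [← hV]
  have hs0 : 0 ≤ √V := Real.sqrt_nonneg V
  have hs1 : √V ^ 2 = V := Real.sq_sqrt hV0
  have h2 : c < x * (1 + √V) := by
    have := lt_of_not_ge h1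
    rwa [div_lt_iff₀ (by linarith)] at this
  have e1 : x ^ (-2 : ℝ) = 1 / x ^ 2 := by
    rw [Real.rpow_neg hx.le]
    norm_num
  rw [e1]
  have h3 : c ^ 2 ≤ x ^ 2 * (2 + 2 * V) := by
    have h4 : c ^ 2 ≤ (x * (1 + √V)) ^ 2 := by
      gcongr
    have h5 : (1 + √V) ^ 2 ≤ 2 + 2 * V := by nlinarith [sq_nonneg (√V - 1)]
    calc c ^ 2 ≤ (x * (1 + √V)) ^ 2 := h4
      _ = x ^ 2 * (1 + √V) ^ 2 := by ring
      _ ≤ x ^ 2 * (2 + 2 * V) := by gcongr
  have h6 : c ^ 2 / x ^ 2 ≤ 2 + 2 * V := by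
    rw [div_le_iff₀ (by positivity)]
    linarith
  have e2 : c ^ 2 / 2 * (1 / x ^ 2) = c ^ 2 / x ^ 2 / 2 := by ring
  rw [e2]
  linarith

/-- the statement with the constants hidden -/
theorem v_of_tail' (hF : ∃ c : ℝ, 0 < c ∧ Flat c) : ∃ c : ℝ, 0 < c ∧
    ∀ n : ℕ, 1 ≤ n → ∀ β : ℝ, 0 < β → ∀ x : ℝ, 0 < x →
    4 ≤ Real.log (∫ g, Real.exp (x * (freeEnergy n β g -
      ∫ h, freeEnergy n β h ∂(disorder n))) ∂(disorder n)) →
    c * x ^ (-2 : ℝ) - 1 ≤ Var[freeEnergy n β; disorder n] := by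
  obtain ⟨c, hc, hF⟩ := hF
  exact ⟨c ^ 2 / 2, by positivity, fun n hn β hβ x hx h => v_of_tail hc hF hn hβ hx h⟩

end Vale.Agent.P146.H425.LowT
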