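import Vale.Agent.P146.H425.Ut

/-!
The objects of the plan R1: the value functions `u_t`, the law `P_θ` with the density
`exp (x F + θ x (u_{t1} - u_{t0})) / norm`, seen at the times `t0 ≤ t1 ≤ s`.
-/

open MeasureTheory ProbabilityTheory

namespace Vale.Agent.P146.R1

open Vale.Agent.P157.Lv Vale.Agent.P146.H425

set_option linter.unusedSectionVars false

/-- Three independent blocks of coordinates. -/
abbrev K3 (κ : Type) : Type := κ ⊕ (κ ⊕ κ)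

variable {κ : Type} [Fintype κ] {F : (κ → ℝ) → ℝ} {D : κ → (κ → ℝ) → ℝ} {B L x θ t0 t1 s t : ℝ}

/-- The value function at the time `t`. -/
noncomputable def uu (x t : ℝ) (F : (κ → ℝ) → ℝ) (z : κ → ℝ) : ℝ := W x (√(1 - t)) F z

/-- Its gradient. -/
noncomputable def dd (x t : ℝ) (F : (κ → ℝ) → ℝ) (D : κ → (κ → ℝ) → ℝ) (e : κ) (z : κ → ℝ) : ℝ :=
  DW x (√(1 - t)) F D e z

/-- Its squared gradient. -/
noncomputable def sq (x t : ℝ) (F : (κ → ℝ) → ℝ) (D : κ → (κ → ℝ) → ℝ) (z : κ → ℝ) : ℝ :=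
  G2 x (√(1 - t)) F D z

/-- `(1/x) log E exp (x F)` -/
noncomputable def phi (x : ℝ) (F : (κ → ℝ) → ℝ) : ℝ := W x 1 F 0

/-- `∫ E_x |D_t|² dt` -/
noncomputable def GG (x : ℝ) (F : (κ → ℝ) → ℝ) (D : κ → (κ → ℝ) → ℝ) : ℝ :=
  ∫ t in (0 : ℝ)..1, Phi x F D t

/-- `x ξ = x (u_{t1} - u_{t0})` -/
noncomputable def xi (x t0 t1 : ℝ) (F : (κ → ℝ) → ℝ) (z0 z1 : κ → ℝ) : ℝ :=
  x * (uu x t1 F z1 - uu x t0 F z0)

/-- The blocks. -/
def b0 (w : K3 κ → ℝ) : κ → ℝ := fun e => w (Sum.inl e)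
/-- The blocks. -/
def b1 (w : K3 κ → ℝ) : κ → ℝ := fun e => w (Sum.inr (Sum.inl e))
/-- The blocks. -/
def b2 (w : K3 κ → ℝ) : κ → ℝ := fun e => w (Sum.inr (Sum.inr e))

/-- The positions at the times `t0`, `t1`, `s`. -/
noncomputable def q0 (t0 : ℝ) (w : K3 κ → ℝ) : κ → ℝ := √t0 • b0 w
/-- The positions at the times `t0`, `t1`, `s`. -/
noncomputable def q1 (t0 t1 : ℝ) (w : K3 κ → ℝ) : κ → ℝ := q0 t0 w + √(t1 - t0) • b1 w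
/-- The positions at the times `t0`, `t1`, `s`. -/
noncomputable def q2 (t0 t1 s : ℝ) (w : K3 κ → ℝ) : κ → ℝ := q1 t0 t1 w + √(s - t1) • b2 w

/-- The density of `P_θ` with respect to the Wiener law, not normalized. -/
noncomputable def dn (x θ t0 t1 s : ℝ) (F : (κ → ℝ) → ℝ) (z0 z1 z2 : κ → ℝ) : ℝ :=
  Real.exp (x * uu x s F z2 + θ * xi x t0 t1 F z0 z1)

/-- The mean of `Ψ (z_{t0}, z_{t1}, z_s)`, not normalized. -/
noncomputable def Eu (x θ t0 t1 s : ℝ) (F : (κ → ℝ) → ℝ)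
    (Ψ : (κ → ℝ) → (κ → ℝ) → (κ → ℝ) → ℝ) : ℝ :=
  ∫ w : K3 κ → ℝ, dn x θ t0 t1 s F (q0 t0 w) (q1 t0 t1 w) (q2 t0 t1 s w) *
    Ψ (q0 t0 w) (q1 t0 t1 w) (q2 t0 t1 s w) ∂(gI (K3 κ))

/-- The mean under `P_θ`. -/
noncomputable def Et (x θ t0 t1 s : ℝ) (F : (κ → ℝ) → ℝ)
    (Ψ : (κ → ℝ) → (κ → ℝ) → (κ → ℝ) → ℝ) : ℝ :=
  Eu x θ t0 t1 s F Ψ / Eu x θ t0 t1 s F (fun _ _ _ => 1)

/-- `L(θ) = log E_x exp (θ x ξ)` -/
noncomputable def Lth (x θ t0 t1 : ℝ) (F : (κ → ℝ) → ℝ) : ℝ :=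
  Real.log (Eu x θ t0 t1 t1 F (fun _ _ _ => 1)) - Real.log (∫ z, Real.exp (x * F z) ∂(gI κ))

/-- `Q_θ(s) = E_θ |D_s|²` -/
noncomputable def Qt (x θ t0 t1 s : ℝ) (F : (κ → ℝ) → ℝ) (D : κ → (κ → ℝ) → ℝ) : ℝ :=
  Et x θ t0 t1 s F (fun _ _ z2 => sq x s F D z2)

/-- Functions of three positions, of exponential growth. -/
def E3 (Ψ : (κ → ℝ) → (κ → ℝ) → (κ → ℝ) → ℝ) : Prop :=
  EG fun w : K3 κ → ℝ => Ψ (b0 w) (b1 w) (b2 w)

/-! ### linear changes of variables and Fubini -/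

lemma eg_comp {α β : Type} [Fintype α] [Fintype β] {f : (α → ℝ) → ℝ} (hf : EG f)
    {A : (β → ℝ) → α → ℝ} (hA : Measurable A) {c : ℝ} (hc : 0 ≤ c) (hb : ∀ w, ‖A w‖ ≤ c * ‖w‖) :
    EG fun w => f (A w) := by
  obtain ⟨C, k, hC, hk, h⟩ := hf.bdd
  refine ⟨hf.meas.comp hA, C, k * c, hC, by positivity, fun w => (h _).trans ?_⟩
  refine mul_le_mul_of_nonneg_left (Real.exp_le_exp.2 ?_) hC
  rw [mul_assoc]
  exact mul_le_mul_of_nonneg_left (hb w) hk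

lemma norm_b0 (w : K3 κ → ℝ) : ‖b0 w‖ ≤ ‖w‖ :=
  (pi_norm_le_iff_of_nonneg (norm_nonneg _)).2 fun _ => norm_le_pi_norm w _
lemma norm_b1 (w : K3 κ → ℝ) : ‖b1 w‖ ≤ ‖w‖ :=
  (pi_norm_le_iff_of_nonneg (norm_nonneg _)).2 fun _ => norm_le_pi_norm w _
lemma norm_b2 (w : K3 κ → ℝ) : ‖b2 w‖ ≤ ‖w‖ :=
  (pi_norm_le_iff_of_nonneg (norm_nonneg _)).2 fun _ => norm_le_pi_norm w _

lemma meas_b0 : Measurable (b0 (κ := κ)) := by unfold b0; fun_prop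
lemma meas_b1 : Measurable (b1 (κ := κ)) := by unfold b1; fun_prop
lemma meas_b2 : Measurable (b2 (κ := κ)) := by unfold b2; fun_prop

lemma meas_q0 (t0 : ℝ) : Measurable (q0 (κ := κ) t0) := by
  unfold q0 b0
  fun_prop
lemma meas_q1 (t0 t1 : ℝ) : Measurable (q1 (κ := κ) t0 t1) := by
  unfold q1 q0 b0 b1
  fun_prop
lemma meas_q2 (t0 t1 s : ℝ) : Measurable (q2 (κ := κ) t0 t1 s) := by
  unfold q2 q1 q0 b0 b1 b2
  fun_prop

lemma norm_q0 (t0 : ℝ) (w : K3 κ → ℝ) : ‖q0 t0 w‖ ≤ √t0 * ‖w‖ := by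
  unfold q0
  rw [norm_smul, Real.norm_eq_abs, abs_of_nonneg (Real.sqrt_nonneg _)]
  exact mul_le_mul_of_nonneg_left (norm_b0 w) (Real.sqrt_nonneg _)

lemma norm_q1 (t0 t1 : ℝ) (w : K3 κ → ℝ) : ‖q1 t0 t1 w‖ ≤ (√t0 + √(t1 - t0)) * ‖w‖ := by
  unfold q1
  refine (norm_add_le _ _).trans ?_
  rw [norm_smul, Real.norm_eq_abs, abs_of_nonneg (Real.sqrt_nonneg _), add_mul]
  exact add_le_add (norm_q0 t0 w)
    (mul_le_mul_of_nonneg_left (norm_b1 w) (Real.sqrt_nonneg _))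

lemma norm_q2 (t0 t1 s : ℝ) (w : K3 κ → ℝ) :
    ‖q2 t0 t1 s w‖ ≤ (√t0 + √(t1 - t0) + √(s - t1)) * ‖w‖ := by
  unfold q2
  refine (norm_add_le _ _).trans ?_
  rw [norm_smul, Real.norm_eq_abs, abs_of_nonneg (Real.sqrt_nonneg _), add_mul]
  exact add_le_add (norm_q1 t0 t1 w)
    (mul_le_mul_of_nonneg_left (norm_b2 w) (Real.sqrt_nonneg _))

lemma E3.eg_q {Ψ : (κ → ℝ) → (κ → ℝ) → (κ → ℝ) → ℝ} (h : E3 Ψ) (t0 t1 s : ℝ) :
    EG fun w : K3 κ → ℝ => Ψ (q0 t0 w) (q1 t0 t1 w) (q2 t0 t1 s w) := by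
  have h1 := eg_comp h (A := fun w : K3 κ → ℝ =>
      (Sum.elim (q0 t0 w) (Sum.elim (q1 t0 t1 w) (q2 t0 t1 s w)) : K3 κ → ℝ))
    (c := √t0 + √(t1 - t0) + √(s - t1)) ?_ (by positivity) fun w => ?_
  · exact h1
  · refine measurable_pi_lambda _ fun e => ?_
    rcases e with e | e | e
    · exact (measurable_pi_apply e).comp (meas_q0 t0)
    · exact (measurable_pi_apply e).comp (meas_q1 t0 t1)
    · exact (measurable_pi_apply e).comp (meas_q2 t0 t1 s)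
  · refine (pi_norm_le_iff_of_nonneg (by positivity)).2 fun e => ?_
    have h0 := norm_nonneg w
    have k0 := Real.sqrt_nonneg t0
    have k1 := Real.sqrt_nonneg (t1 - t0)
    have k2 := Real.sqrt_nonneg (s - t1)
    rcases e with e | e | e
    · exact ((norm_le_pi_norm (q0 t0 w) e).trans (norm_q0 t0 w)).trans (by nlinarith)
    · exact ((norm_le_pi_norm (q1 t0 t1 w) e).trans (norm_q1 t0 t1 w)).trans (by nlinarith)
    · exact (norm_le_pi_norm (q2 t0 t1 s w) e).trans (norm_q2 t0 t1 s w)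

lemma E3.of0 {ψ : (κ → ℝ) → ℝ} (h : EG ψ) : E3 fun z0 _ _ => ψ z0 :=
  eg_comp h meas_b0 zero_le_one fun w => by rw [one_mul]; exact norm_b0 w
lemma E3.of1 {ψ : (κ → ℝ) → ℝ} (h : EG ψ) : E3 fun _ z1 _ => ψ z1 :=
  eg_comp h meas_b1 zero_le_one fun w => by rw [one_mul]; exact norm_b1 w
lemma E3.of2 {ψ : (κ → ℝ) → ℝ} (h : EG ψ) : E3 fun _ _ z2 => ψ z2 :=
  eg_comp h meas_b2 zero_le_one fun w => by rw [one_mul]; exact norm_b2 w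

variable {Ψ Ψ' : (κ → ℝ) → (κ → ℝ) → (κ → ℝ) → ℝ}

lemma E3.const (c : ℝ) : E3 (κ := κ) fun _ _ _ => c := EG.const c
lemma E3.add (h : E3 Ψ) (h' : E3 Ψ') : E3 fun z0 z1 z2 => Ψ z0 z1 z2 + Ψ' z0 z1 z2 := EG.add h h'
lemma E3.sub (h : E3 Ψ) (h' : E3 Ψ') : E3 fun z0 z1 z2 => Ψ z0 z1 z2 - Ψ' z0 z1 z2 := EG.sub h h'
lemma E3.mul (h : E3 Ψ) (h' : E3 Ψ') : E3 fun z0 z1 z2 => Ψ z0 z1 z2 * Ψ' z0 z1 z2 := EG.mul h h'
lemma E3.const_mul (c : ℝ) (h : E3 Ψ) : E3 fun z0 z1 z2 => c * Ψ z0 z1 z2 := EG.const_mul c h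
lemma E3.pow (h : E3 Ψ) (k : ℕ) : E3 fun z0 z1 z2 => Ψ z0 z1 z2 ^ k := EG.pow h k
lemma E3.abs (h : E3 Ψ) : E3 fun z0 z1 z2 => |Ψ z0 z1 z2| := EG.abs h

/-! ### the density -/

lemma c11_uu (h : C11 F D B L) (hx : 0 < x) (t : ℝ) :
    C11 (uu x t F) (dd x t F D) B (L + 2 * x * (Fintype.card κ * B) ^ 2) := h.W' hx _

lemma eg_uu (h : C11 F D B L) (hx : 0 < x) (t : ℝ) : EG (uu x t F) := (c11_uu h hx t).eg

lemma lip_b {α β : Type} [Fintype α] [Fintype β] {f : (α → ℝ) → ℝ} (hf : Lip f)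
    {A : (β → ℝ) → α → ℝ} {c : ℝ} (hc : 0 ≤ c) (hb : ∀ w w', ‖A w - A w'‖ ≤ c * ‖w - w'‖) :
    Lip fun w => f (A w) := by
  obtain ⟨k, hk, h⟩ := hf
  refine ⟨k * c, by positivity, fun w w' => (h _ _).trans ?_⟩
  rw [mul_assoc]
  exact mul_le_mul_of_nonneg_left (hb w w') hk

lemma e3_dn (h : C11 F D B L) (hx : 0 < x) (θ t0 t1 s : ℝ) : E3 (dn x θ t0 t1 s F) := by
  have l : ∀ t, Lip (uu x t F) := fun t => (c11_uu h hx t).lip.lip h.B0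
  have l0 : Lip fun w : K3 κ → ℝ => uu x t0 F (b0 w) :=
    lip_b (l t0) zero_le_one fun w w' => by rw [one_mul]; exact norm_b0 (w - w')
  have l1 : Lip fun w : K3 κ → ℝ => uu x t1 F (b1 w) :=
    lip_b (l t1) zero_le_one fun w w' => by rw [one_mul]; exact norm_b1 (w - w')
  have l2 : Lip fun w : K3 κ → ℝ => uu x s F (b2 w) :=
    lip_b (l s) zero_le_one fun w w' => by rw [one_mul]; exact norm_b2 (w - w')
  have h1 := ((l2.const_mul x).add ((l1.add (l0.const_mul (-1))).const_mul (θ * x))).exp_eg 1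
  have e : (fun w : K3 κ → ℝ => dn x θ t0 t1 s F (b0 w) (b1 w) (b2 w)) =
      fun w => Real.exp (1 * (x * uu x s F (b2 w) +
        θ * x * (uu x t1 F (b1 w) + -1 * uu x t0 F (b0 w)))) := by
    funext w
    unfold dn xi
    congr 1
    ring
  unfold E3
  rw [e]
  exact h1

lemma dn_pos (z0 z1 z2 : κ → ℝ) : 0 < dn x θ t0 t1 s F z0 z1 z2 := Real.exp_pos _

lemma eg_Eu (h : C11 F D B L) (hx : 0 < x) (hΨ : E3 Ψ) (θ t0 t1 s : ℝ) :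
    EG fun w : K3 κ → ℝ => dn x θ t0 t1 s F (q0 t0 w) (q1 t0 t1 w) (q2 t0 t1 s w) *
      Ψ (q0 t0 w) (q1 t0 t1 w) (q2 t0 t1 s w) := ((e3_dn h hx θ t0 t1 s).mul hΨ).eg_q t0 t1 s

lemma Eu_add (h : C11 F D B L) (hx : 0 < x) (hΨ : E3 Ψ) (hΨ' : E3 Ψ') :
    Eu x θ t0 t1 s F (fun z0 z1 z2 => Ψ z0 z1 z2 + Ψ' z0 z1 z2) =
      Eu x θ t0 t1 s F Ψ + Eu x θ t0 t1 s F Ψ' := by
  unfold Eu
  rw [← integral_add (eg_Eu h hx hΨ θ t0 t1 s).integrable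
    (eg_Eu h hx hΨ' θ t0 t1 s).integrable]
  refine integral_congr_ae (Filter.Eventually.of_forall fun w => ?_)
  simp only
  ring

lemma Eu_const_mul (c : ℝ) : Eu x θ t0 t1 s F (fun z0 z1 z2 => c * Ψ z0 z1 z2) =
    c * Eu x θ t0 t1 s F Ψ := by
  unfold Eu
  rw [← integral_const_mul]
  refine integral_congr_ae (Filter.Eventually.of_forall fun w => ?_)
  simp only
  ring

lemma Eu_mono (h : C11 F D B L) (hx : 0 < x) (hΨ : E3 Ψ) (hΨ' : E3 Ψ')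
    (hle : ∀ z0 z1 z2, Ψ z0 z1 z2 ≤ Ψ' z0 z1 z2) :
    Eu x θ t0 t1 s F Ψ ≤ Eu x θ t0 t1 s F Ψ' :=
  integral_mono (eg_Eu h hx hΨ θ t0 t1 s).integrable (eg_Eu h hx hΨ' θ t0 t1 s).integrable
    fun _ => mul_le_mul_of_nonneg_left (hle _ _ _) (dn_pos _ _ _).le

lemma Eu_nonneg (hle : ∀ z0 z1 z2, 0 ≤ Ψ z0 z1 z2) : 0 ≤ Eu x θ t0 t1 s F Ψ :=
  integral_nonneg fun _ => mul_nonneg (dn_pos _ _ _).le (hle _ _ _)

lemma Eu_one_pos (h : C11 F D B L) (hx : 0 < x) : 0 < Eu x θ t0 t1 s F (fun _ _ _ => 1) := by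
  unfold Eu
  simp only [mul_one]
  exact integral_exp_pos ((e3_dn h hx θ t0 t1 s).eg_q t0 t1 s).integrable

lemma Et_add (h : C11 F D B L) (hx : 0 < x) (hΨ : E3 Ψ) (hΨ' : E3 Ψ') :
    Et x θ t0 t1 s F (fun z0 z1 z2 => Ψ z0 z1 z2 + Ψ' z0 z1 z2) =
      Et x θ t0 t1 s F Ψ + Et x θ t0 t1 s F Ψ' := by
  unfold Et
  rw [Eu_add h hx hΨ hΨ', add_div]

lemma Et_const_mul (c : ℝ) : Et x θ t0 t1 s F (fun z0 z1 z2 => c * Ψ z0 z1 z2) =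
    c * Et x θ t0 t1 s F Ψ := by
  unfold Et
  rw [Eu_const_mul, mul_div_assoc]

lemma Et_sub (h : C11 F D B L) (hx : 0 < x) (hΨ : E3 Ψ) (hΨ' : E3 Ψ') :
    Et x θ t0 t1 s F (fun z0 z1 z2 => Ψ z0 z1 z2 - Ψ' z0 z1 z2) =
      Et x θ t0 t1 s F Ψ - Et x θ t0 t1 s F Ψ' := by
  have h1 := Et_add (θ := θ) (t0 := t0) (t1 := t1) (s := s) h hx hΨ (hΨ'.const_mul (-1))
  rw [Et_const_mul] at h1
  have e : (fun z0 z1 z2 => Ψ z0 z1 z2 - Ψ' z0 z1 z2) =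
      fun z0 z1 z2 => Ψ z0 z1 z2 + -1 * Ψ' z0 z1 z2 := by
    funext z0 z1 z2; ring
  rw [e, h1]
  ring

lemma Et_const (h : C11 F D B L) (hx : 0 < x) (c : ℝ) :
    Et x θ t0 t1 s F (fun _ _ _ => c) = c := by
  have h1 : Et x θ t0 t1 s F (fun _ _ _ => c) = c * Et x θ t0 t1 s F (fun _ _ _ => 1) := by
    rw [← Et_const_mul]
    simp
  rw [h1]
  unfold Et
  rw [div_self (Eu_one_pos h hx).ne', mul_one]

lemma Et_mono (h : C11 F D B L) (hx : 0 < x) (hΨ : E3 Ψ) (hΨ' : E3 Ψ')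
    (hle : ∀ z0 z1 z2, Ψ z0 z1 z2 ≤ Ψ' z0 z1 z2) :
    Et x θ t0 t1 s F Ψ ≤ Et x θ t0 t1 s F Ψ' :=
  div_le_div_of_nonneg_right (Eu_mono h hx hΨ hΨ' hle) (Eu_one_pos h hx).le

lemma Et_nonneg (h : C11 F D B L) (hx : 0 < x) (hle : ∀ z0 z1 z2, 0 ≤ Ψ z0 z1 z2) :
    0 ≤ Et x θ t0 t1 s F Ψ := div_nonneg (Eu_nonneg hle) (Eu_one_pos h hx).le

/-- Cauchy–Schwarz -/
lemma Et_cs (h : C11 F D B L) (hx : 0 < x) (hΨ : E3 Ψ) (hΨ' : E3 Ψ') :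
    Et x θ t0 t1 s F (fun z0 z1 z2 => Ψ z0 z1 z2 * Ψ' z0 z1 z2) ^ 2 ≤
      Et x θ t0 t1 s F (fun z0 z1 z2 => Ψ z0 z1 z2 ^ 2) *
        Et x θ t0 t1 s F (fun z0 z1 z2 => Ψ' z0 z1 z2 ^ 2) := by
  have h0 : ∀ r : ℝ, 0 ≤ Et x θ t0 t1 s F (fun z0 z1 z2 => Ψ' z0 z1 z2 ^ 2) * (r * r) +
      (-2 * Et x θ t0 t1 s F (fun z0 z1 z2 => Ψ z0 z1 z2 * Ψ' z0 z1 z2)) * r +
        Et x θ t0 t1 s F (fun z0 z1 z2 => Ψ z0 z1 z2 ^ 2) := by
    intro r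
    have h1 := Et_nonneg (Ψ := fun z0 z1 z2 => (Ψ z0 z1 z2 - r * Ψ' z0 z1 z2) ^ 2)
      (θ := θ) (t0 := t0) (t1 := t1) (s := s) h hx (fun _ _ _ => sq_nonneg _)
    have e : (fun z0 z1 z2 => (Ψ z0 z1 z2 - r * Ψ' z0 z1 z2) ^ 2) =
        fun z0 z1 z2 => (Ψ z0 z1 z2 ^ 2 + (-2 * r) * (Ψ z0 z1 z2 * Ψ' z0 z1 z2)) +
          (r * r) * Ψ' z0 z1 z2 ^ 2 := by
      funext z0 z1 z2; ring
    rw [e, Et_add h hx ((hΨ.pow 2).add ((hΨ.mul hΨ').const_mul _)) ((hΨ'.pow 2).const_mul _),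
      Et_add h hx (hΨ.pow 2) ((hΨ.mul hΨ').const_mul _), Et_const_mul, Et_const_mul] at h1
    linarith
  have h3 := discrim_le_zero h0
  unfold discrim at h3
  linarith

/-! ### iterated integrals and reductions -/

lemma int_sum {α β : Type} [Fintype α] [Fintype β] {G : (α ⊕ β → ℝ) → ℝ} (hG : EG G) :
    ∫ w, G w ∂(gI (α ⊕ β)) = ∫ w1, (∫ w2, G (Sum.elim w1 w2) ∂(gI β)) ∂(gI α) := by
  have h1 := MeasureTheory.measurePreserving_sumPiEquivProdPi_symm (ι := α) (ι' := β)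
    (X := fun _ => ℝ) (fun _ => gaussianReal 0 1)
  have e : ∀ q : (α → ℝ) × (β → ℝ), (MeasurableEquiv.sumPiEquivProdPi
      (fun _ : α ⊕ β => ℝ)).symm q = Sum.elim q.1 q.2 := by
    intro q
    funext j
    cases j <;> rfl
  have h2 : MeasurePreserving (fun q : (α → ℝ) × (β → ℝ) => (Sum.elim q.1 q.2 : α ⊕ β → ℝ))
      ((gI α).prod (gI β)) (gI (α ⊕ β)) := by
    have : (fun q : (α → ℝ) × (β → ℝ) => (Sum.elim q.1 q.2 : α ⊕ β → ℝ)) =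
      (MeasurableEquiv.sumPiEquivProdPi (fun _ : α ⊕ β => ℝ)).symm := by
      funext q
      exact (e q).symm
    rw [this]
    exact h1
  have h3 : Integrable (fun q : (α → ℝ) × (β → ℝ) => G (Sum.elim q.1 q.2))
      ((gI α).prod (gI β)) :=
    MeasurePreserving.integrable_comp_of_integrable (g := G) h2 hG.integrable
  have h4 : ∫ w, G w ∂(gI (α ⊕ β)) = ∫ q : (α → ℝ) × (β → ℝ), G (Sum.elim q.1 q.2)
        ∂((gI α).prod (gI β)) := by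
    conv_lhs => rw [← h2.map_eq]
    rw [integral_map h2.measurable.aemeasurable]
    rw [h2.map_eq]
    exact hG.meas.aestronglyMeasurable
  rw [h4, integral_prod _ h3]

lemma eg_elim {α β : Type} [Fintype α] [Fintype β] {G : (α ⊕ β → ℝ) → ℝ} (hG : EG G)
    (w1 : α → ℝ) : EG fun w2 : β → ℝ => G (Sum.elim w1 w2) := by
  obtain ⟨C, k, hC, hk, hb⟩ := hG.bdd
  refine ⟨hG.meas.comp ?_, C * Real.exp (k * ‖w1‖), k, by positivity, hk,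
    fun w => (hb _).trans ?_⟩
  · refine measurable_pi_lambda _ fun e => ?_
    rcases e with e | e
    · exact measurable_const
    · exact measurable_pi_apply e
  · rw [mul_assoc, ← Real.exp_add, ← mul_add]
    refine mul_le_mul_of_nonneg_left (Real.exp_le_exp.2 (mul_le_mul_of_nonneg_left ?_ hk)) hC
    refine (pi_norm_le_iff_of_nonneg (by positivity)).2 fun e => ?_
    rcases e with e | e
    · exact (norm_le_pi_norm w1 e).trans (by linarith [norm_nonneg w])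
    · exact (norm_le_pi_norm w e).trans (by linarith [norm_nonneg w1])

lemma int_K3 {G : (K3 κ → ℝ) → ℝ} (hG : EG G) :
    ∫ w, G w ∂(gI (K3 κ)) =
      ∫ y0, (∫ y1, (∫ y2, G (Sum.elim y0 (Sum.elim y1 y2)) ∂(gI κ)) ∂(gI κ)) ∂(gI κ) := by
  rw [int_sum hG]
  refine integral_congr_ae (Filter.Eventually.of_forall fun y0 => ?_)
  exact int_sum (eg_elim hG y0)

lemma b0_elim (y0 y1 y2 : κ → ℝ) : b0 (Sum.elim y0 (Sum.elim y1 y2)) = y0 := rfl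
lemma b1_elim (y0 y1 y2 : κ → ℝ) : b1 (Sum.elim y0 (Sum.elim y1 y2)) = y1 := rfl
lemma b2_elim (y0 y1 y2 : κ → ℝ) : b2 (Sum.elim y0 (Sum.elim y1 y2)) = y2 := rfl

/-- The iterated form. -/
lemma Eu_iter (h : C11 F D B L) (hx : 0 < x) (hΨ : E3 Ψ) (θ t0 t1 s : ℝ) :
    Eu x θ t0 t1 s F Ψ = ∫ y0, (∫ y1, (∫ y2,
      dn x θ t0 t1 s F (√t0 • y0) (√t0 • y0 + √(t1 - t0) • y1)
        (√t0 • y0 + √(t1 - t0) • y1 + √(s - t1) • y2) *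
      Ψ (√t0 • y0) (√t0 • y0 + √(t1 - t0) • y1)
        (√t0 • y0 + √(t1 - t0) • y1 + √(s - t1) • y2) ∂(gI κ)) ∂(gI κ)) ∂(gI κ) :=
  int_K3 (eg_Eu h hx hΨ θ t0 t1 s)

/-- `θ ≠ 0` as a weight -/
lemma Eu_weight : Eu x θ t0 t1 s F Ψ =
    Eu x 0 t0 t1 s F (fun z0 z1 z2 => Real.exp (θ * xi x t0 t1 F z0 z1) * Ψ z0 z1 z2) := by
  unfold Eu
  refine integral_congr_ae (Filter.Eventually.of_forall fun w => ?_)
  simp only
  unfold dn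
  rw [zero_mul, add_zero, Real.exp_add, mul_assoc]

/-- one conditional step of the value function -/
lemma uu_step (h : C11 F D B L) (hx : 0 < x) {t t' : ℝ} (ht : t ≤ t') (ht' : t' ≤ 1)
    (z : κ → ℝ) :
    ∫ y, Real.exp (x * uu x t' F (z + √(t' - t) • y)) ∂(gI κ) = Real.exp (x * uu x t F z) := by
  unfold uu
  rw [← (h.lip.W (s := √(1 - t')) h.B0 hx).exp_W h.B0 hx z, W_W h.lip h.B0 hx (c := √(1 - t))]
  rw [Real.sq_sqrt (by linarith), Real.sq_sqrt (by linarith), Real.sq_sqrt (by linarith)]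
  ring

/-- functions of the first two positions: the time `s` drops out -/
lemma Eu_fst {ψ : (κ → ℝ) → (κ → ℝ) → ℝ} (h : C11 F D B L) (hx : 0 < x)
    (hψ : E3 fun z0 z1 _ => ψ z0 z1) (h1 : t1 ≤ s) (hs : s ≤ 1) :
    Eu x θ t0 t1 s F (fun z0 z1 _ => ψ z0 z1) = ∫ y0, (∫ y1,
      Real.exp (x * uu x t1 F (√t0 • y0 + √(t1 - t0) • y1) +
        θ * xi x t0 t1 F (√t0 • y0) (√t0 • y0 + √(t1 - t0) • y1)) *
      ψ (√t0 • y0) (√t0 • y0 + √(t1 - t0) • y1) ∂(gI κ)) ∂(gI κ) := by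
  rw [Eu_iter h hx hψ]
  refine integral_congr_ae (Filter.Eventually.of_forall fun y0 => ?_)
  refine integral_congr_ae (Filter.Eventually.of_forall fun y1 => ?_)
  simp only
  unfold dn
  rw [integral_mul_const, Real.exp_add]
  congr 1
  rw [← uu_step h hx h1 hs (√t0 • y0 + √(t1 - t0) • y1), ← integral_mul_const]
  refine integral_congr_ae (Filter.Eventually.of_forall fun y2 => ?_)
  simp only
  rw [Real.exp_add]

lemma Eu_fst_eq {ψ : (κ → ℝ) → (κ → ℝ) → ℝ} (h : C11 F D B L) (hx : 0 < x)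
    (hψ : E3 fun z0 z1 _ => ψ z0 z1) (h1 : t1 ≤ s) (hs : s ≤ 1) :
    Eu x θ t0 t1 s F (fun z0 z1 _ => ψ z0 z1) = Eu x θ t0 t1 t1 F (fun z0 z1 _ => ψ z0 z1) := by
  rw [Eu_fst h hx hψ h1 hs, Eu_fst h hx hψ le_rfl (h1.trans hs)]

/-- the normalization does not depend on `s` -/
lemma Eu_one_eq (h : C11 F D B L) (hx : 0 < x) (h1 : t1 ≤ s) (hs : s ≤ 1) :
    Eu x θ t0 t1 s F (fun _ _ _ => 1) = Eu x θ t0 t1 t1 F (fun _ _ _ => 1) :=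
  Eu_fst_eq (ψ := fun _ _ => 1) h hx (E3.const 1) h1 hs

lemma Et_fst_eq {ψ : (κ → ℝ) → (κ → ℝ) → ℝ} (h : C11 F D B L) (hx : 0 < x)
    (hψ : E3 fun z0 z1 _ => ψ z0 z1) (h1 : t1 ≤ s) (hs : s ≤ 1) :
    Et x θ t0 t1 s F (fun z0 z1 _ => ψ z0 z1) = Et x θ t0 t1 t1 F (fun z0 z1 _ => ψ z0 z1) := by
  unfold Et
  rw [Eu_fst_eq h hx hψ h1 hs, Eu_one_eq h hx h1 hs]

/-- `θ = 0`, a function of the last position -/
lemma Eu_zero {ψ : (κ → ℝ) → ℝ} (h : C11 F D B L) (hx : 0 < x) (hψ : EG ψ)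
    (h0 : 0 ≤ t0) (h01 : t0 ≤ t1) (h1 : t1 ≤ s) :
    Eu x 0 t0 t1 s F (fun _ _ z2 => ψ z2) = Nm x (√s) (√(1 - s)) F ψ := by
  rw [Eu_iter h hx (E3.of2 hψ)]
  have hf : EG fun z => Real.exp (x * uu x s F z) * ψ z :=
    (((c11_uu h hx s).lip.lip h.B0).exp_eg x).mul hψ
  have e1 : ∀ y0, ∫ y1, (∫ y2,
      dn x 0 t0 t1 s F (√t0 • y0) (√t0 • y0 + √(t1 - t0) • y1)
        (√t0 • y0 + √(t1 - t0) • y1 + √(s - t1) • y2) *
      ψ (√t0 • y0 + √(t1 - t0) • y1 + √(s - t1) • y2) ∂(gI κ)) ∂(gI κ) =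
      ∫ y, Real.exp (x * uu x s F (√t0 • y0 + √(s - t0) • y)) *
        ψ (√t0 • y0 + √(s - t0) • y) ∂(gI κ) := by
    intro y0
    have h2 := gI_rot hf (a := √(t1 - t0)) (b := √(s - t1)) (c := √(s - t0)) (by
      rw [Real.sq_sqrt (by linarith), Real.sq_sqrt (by linarith), Real.sq_sqrt (by linarith)]
      ring) (√t0 • y0)
    rw [← h2]
    refine integral_congr_ae (Filter.Eventually.of_forall fun y1 => ?_)
    refine integral_congr_ae (Filter.Eventually.of_forall fun y2 => ?_)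
    simp only
    unfold dn
    rw [zero_mul, add_zero]
  simp_rw [e1]
  have h3 := gI_rot hf (a := √t0) (b := √(s - t0)) (c := √s) (by
      rw [Real.sq_sqrt h0, Real.sq_sqrt (by linarith), Real.sq_sqrt (by linarith)]
      ring) 0
  simp only [zero_add] at h3
  rw [h3]
  rfl

lemma Eu_zero_one (h : C11 F D B L) (hx : 0 < x) (h0 : 0 ≤ t0) (h01 : t0 ≤ t1) (h1 : t1 ≤ s)
    (hs : s ≤ 1) : Eu x 0 t0 t1 s F (fun _ _ _ => 1) = ∫ z, Real.exp (x * F z) ∂(gI κ) := by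
  have h2 := Eu_zero h hx (EG.const 1) h0 h01 h1
  rw [h2]
  have e := uu_step h hx (t := 0) (t' := s) (by linarith) hs 0
  unfold Nm
  simp only [mul_one]
  simp only [sub_zero, zero_add] at e
  unfold uu at e
  rw [e, h.lip.exp_W h.B0 hx]
  simp

lemma Lth_zero (h : C11 F D B L) (hx : 0 < x) (h0 : 0 ≤ t0) (h01 : t0 ≤ t1) (h1 : t1 ≤ 1) :
    Lth x 0 t0 t1 F = 0 := by
  unfold Lth
  rw [Eu_zero_one h hx h0 h01 le_rfl h1, sub_self]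

lemma log_int_exp (h : C11 F D B L) (hx : 0 < x) :
    Real.log (∫ z, Real.exp (x * F z) ∂(gI κ)) = x * phi x F := by
  unfold phi
  have e := h.lip.exp_W h.B0 hx (s := 1) 0
  simp only [zero_add, one_smul] at e
  rw [← e, Real.log_exp]

/-- the normalization is `exp (x φ(x) + L(θ))` -/
lemma Eu_one (h : C11 F D B L) (hx : 0 < x) (h1 : t1 ≤ s) (hs : s ≤ 1) :
    Eu x θ t0 t1 s F (fun _ _ _ => 1) = Real.exp (x * phi x F + Lth x θ t0 t1 F) := by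
  unfold Lth
  rw [Eu_one_eq h hx h1 hs, ← log_int_exp h hx, add_sub_cancel,
    Real.exp_log (Eu_one_pos h hx)]

/-- Jensen -/
lemma Et_jensen (h : C11 F D B L) (hx : 0 < x) (hΨ : E3 Ψ)
    (hΨ' : E3 fun z0 z1 z2 => Real.exp (Ψ z0 z1 z2)) :
    Real.exp (Et x θ t0 t1 s F Ψ) ≤ Et x θ t0 t1 s F (fun z0 z1 z2 => Real.exp (Ψ z0 z1 z2)) := by
  set m := Et x θ t0 t1 s F Ψ with hm
  have h1 : Et x θ t0 t1 s F (fun z0 z1 z2 => Real.exp m * (Ψ z0 z1 z2 - m + 1)) ≤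
      Et x θ t0 t1 s F (fun z0 z1 z2 => Real.exp (Ψ z0 z1 z2)) := by
    refine Et_mono h hx (((hΨ.sub (E3.const m)).add (E3.const 1)).const_mul _) hΨ'
      fun z0 z1 z2 => ?_
    have h2 := Real.add_one_le_exp (Ψ z0 z1 z2 - m)
    calc Real.exp m * (Ψ z0 z1 z2 - m + 1) ≤ Real.exp m * Real.exp (Ψ z0 z1 z2 - m) :=
          mul_le_mul_of_nonneg_left h2 (Real.exp_pos _).le
      _ = Real.exp (Ψ z0 z1 z2) := by rw [← Real.exp_add]; ring_nf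
  rw [Et_const_mul, Et_add h hx (hΨ.sub (E3.const m)) (E3.const 1),
    Et_sub h hx hΨ (E3.const m), Et_const h hx, Et_const h hx, ← hm] at h1
  linarith

/-- `θ = 0`: the mean of a function of the last position -/
lemma Et_zero {ψ : (κ → ℝ) → ℝ} (h : C11 F D B L) (hx : 0 < x) (hψ : EG ψ)
    (h0 : 0 ≤ t0) (h01 : t0 ≤ t1) (h1 : t1 ≤ s) (hs : s ≤ 1) :
    Et x 0 t0 t1 s F (fun _ _ z2 => ψ z2) =
      Nm x (√s) (√(1 - s)) F ψ / ∫ z, Real.exp (x * F z) ∂(gI κ) := by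
  unfold Et
  rw [Eu_zero h hx hψ h0 h01 h1, Eu_zero_one h hx h0 h01 h1 hs]

/-- The means under `P_θ` are weighted means under `P_x`. -/
lemma Et_weight (h : C11 F D B L) (hx : 0 < x) (h0 : 0 ≤ t0) (h01 : t0 ≤ t1) (h1 : t1 ≤ s)
    (hs : s ≤ 1) : Et x θ t0 t1 s F Ψ = Real.exp (-(Lth x θ t0 t1 F)) * Et x 0 t0 t1 s F
      (fun z0 z1 z2 => Real.exp (θ * xi x t0 t1 F z0 z1) * Ψ z0 z1 z2) := by
  unfold Et
  rw [Eu_weight, Eu_one h hx h1 hs, Eu_one h hx h1 hs, Lth_zero h hx h0 h01 (h1.trans hs),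
    add_zero, Real.exp_add, Real.exp_neg]
  field_simp

end Vale.Agent.P146.R1
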