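import Vale.Agent.P146.H425.Chain

/-!
The log-weights of a linear layered system are `C¹·¹`, jointly convex, and convex in the exponents.
-/

open MeasureTheory ProbabilityTheory

namespace Vale.Agent.P146.H425

open Vale.Agent.P157 Vale.Agent.P157.Lv Vale.Agent.P157.Lv.Sy

set_option linter.unusedSectionVars false

variable {ι X : Type} [Fintype ι] {F : (ι → ℝ) → ℝ} {D : ι → (ι → ℝ) → ℝ} {B L x : ℝ}
  {lev : ι → ℕ} {l : ℕ}

omit [Fintype ι] in
lemma mix_add_l (y v w : ι → ℝ) : mix lev l (y + v) w = mix lev l y w + mix lev l v 0 := by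
  funext e
  simp only [mix, Pi.add_apply, Pi.zero_apply]
  split_ifs
  · rfl
  · rw [add_zero]

omit [Fintype ι] in
lemma mix_add_r (z w v : ι → ℝ) : mix lev l z (w + v) = mix lev l z w + mix lev l 0 v := by
  funext e
  simp only [mix, Pi.add_apply, Pi.zero_apply]
  split_ifs
  · rw [add_zero]
  · rfl

omit [Fintype ι] in
lemma mix_comb (a b : ℝ) (z0 z1 w0 w1 : ι → ℝ) :
    mix lev l (a • z0 + b • z1) (a • w0 + b • w1) = a • mix lev l z0 w0 + b • mix lev l z1 w1 := by
  funext e
  simp only [mix, Pi.add_apply, Pi.smul_apply, smul_eq_mul]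
  split_ifs <;> rfl

lemma norm_mix_zero (v : ι → ℝ) : ‖mix lev l v 0‖ ≤ ‖v‖ := by
  refine (pi_norm_le_iff_of_nonneg (norm_nonneg _)).2 fun e => ?_
  simp only [mix, Pi.zero_apply]
  split_ifs
  · exact norm_le_pi_norm v e
  · rw [norm_zero]; exact norm_nonneg _

lemma norm_zero_mix (v : ι → ℝ) : ‖mix lev l 0 v‖ ≤ ‖v‖ := by
  refine (pi_norm_le_iff_of_nonneg (norm_nonneg _)).2 fun e => ?_
  simp only [mix, Pi.zero_apply]
  split_ifs
  · rw [norm_zero]; exact norm_nonneg _
  · exact norm_le_pi_norm v e

lemma eg_mixr {h : (ι → ℝ) → ℝ} (hh : EG h) (lev : ι → ℕ) (l : ℕ) (z : ι → ℝ) :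
    EG fun w => h (mix lev l z w) := by
  obtain ⟨C, a, hC, ha, hb⟩ := hh.bdd
  refine ⟨hh.meas.comp (measurable_mix_right lev l z), C * Real.exp (a * ‖z‖), a,
    by positivity, ha, fun w => (hb _).trans ?_⟩
  rw [mul_assoc, ← Real.exp_add]
  gcongr
  have h3 := norm_mix_le (lev := lev) (l := l) z w
  nlinarith [mul_le_mul_of_nonneg_left h3 ha]

/-- One step of the recursion with the exponent `x`. -/
noncomputable def VJ (lev : ι → ℕ) (l : ℕ) (x : ℝ) (F : (ι → ℝ) → ℝ) (z : ι → ℝ) : ℝ :=
  1 / x * Real.log (J lev l (fun z => Real.exp (x * F z)) z)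

/-- the step as a layer functional at a fixed value of the lower levels -/
lemma VJ_eq_W (x : ℝ) (F : (ι → ℝ) → ℝ) (z : ι → ℝ) :
    VJ lev l x F z = W x 1 (fun w => F (mix lev l z w)) 0 := by
  unfold VJ W J
  simp

lemma C11.mixr (h : C11 F D B L) (lev : ι → ℕ) (l : ℕ) (z : ι → ℝ) :
    C11 (fun w => F (mix lev l z w)) (fun e w => if lev e ≤ l then 0 else D e (mix lev l z w))
      B L := by
  have hB := h.B0
  refine ⟨h.B0, h.L0, fun y w => ?_, fun e => ?_, fun e y => ?_, fun y w => ?_⟩
  · rw [mix_add_r]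
    exact (h.lip _ _).trans (mul_le_mul_of_nonneg_left (norm_zero_mix w) h.B0)
  · by_cases he : lev e ≤ l
    · simp only [if_pos he]
      exact measurable_const
    · simp only [if_neg he]
      exact (h.meas e).comp (measurable_mix_right lev l z)
  · split_ifs
    · rw [abs_zero]; exact h.B0
    · exact h.bd e _
  · rw [mix_add_r]
    have h1 := h.quad (mix lev l z y) (mix lev l 0 w)
    have e1 : ∑ e, D e (mix lev l z y) * mix lev l 0 w e =
        ∑ e, (if lev e ≤ l then 0 else D e (mix lev l z y)) * w e := by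
      refine Finset.sum_congr rfl fun e _ => ?_
      simp only [mix, Pi.zero_apply]
      split_ifs
      · rw [mul_zero, zero_mul]
      · rfl
    rw [e1] at h1
    refine h1.trans (mul_le_mul_of_nonneg_left ?_ h.L0)
    exact pow_le_pow_left₀ (norm_nonneg _) (norm_zero_mix w) 2

lemma LipB.VJ (h : LipB F B) (hB : 0 ≤ B) (hx : 0 < x) : LipB (VJ lev l x F) B := by
  have eg : ∀ y, EG fun w => Real.exp (x * F (mix lev l y w)) := fun y =>
    eg_mixr ((h.lip hB).exp_eg x) lev l y
  have hpos : ∀ y, 0 < ∫ w, Real.exp (x * F (mix lev l y w)) ∂(gI ι) := fun y =>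
    integral_exp_pos (eg y).integrable
  have hexp : ∀ y, Real.exp (x * H425.VJ lev l x F y) =
      ∫ w, Real.exp (x * F (mix lev l y w)) ∂(gI ι) := by
    intro y
    unfold H425.VJ J
    rw [← mul_assoc, mul_one_div_cancel hx.ne', one_mul, Real.exp_log (hpos y)]
  have key : ∀ y w, H425.VJ lev l x F (y + w) ≤ H425.VJ lev l x F y + B * ‖w‖ := by
    intro y w
    have h1 : Real.exp (x * H425.VJ lev l x F (y + w)) ≤
        Real.exp (x * (H425.VJ lev l x F y + B * ‖w‖)) := by
      rw [mul_add, Real.exp_add, hexp, hexp, ← integral_mul_const]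
      refine integral_mono (eg _).integrable ((eg _).integrable.mul_const _) fun z => ?_
      simp only
      rw [← Real.exp_add]
      refine Real.exp_le_exp.2 ?_
      have h2 := (le_abs_self _).trans (h (mix lev l y z) (mix lev l w 0))
      have h3 : B * ‖mix lev l w 0‖ ≤ B * ‖w‖ :=
        mul_le_mul_of_nonneg_left (norm_mix_zero w) hB
      rw [mix_add_l, ← mul_add]
      exact mul_le_mul_of_nonneg_left (by linarith) hx.le
    exact le_of_mul_le_mul_left (Real.exp_le_exp.1 h1) hx
  intro y w
  rw [abs_le]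
  have h1 := key y w
  have h2 := key (y + w) (-w)
  rw [add_neg_cancel_right, norm_neg] at h2
  constructor <;> linarith

/-- One step of the recursion has a bounded gradient and a quadratic remainder. -/
theorem C11.J (h : C11 F D B L) (hx : 0 < x) :
    C11 (VJ lev l x F) (fun e z => if lev e ≤ l then
      Lv.J lev l (fun z => Real.exp (x * F z) * D e z) z /
        Lv.J lev l (fun z => Real.exp (x * F z)) z else 0) B
      (L + 2 * x * (Fintype.card ι * B) ^ 2) := by
  have hF := h.lip.lip h.B0
  have eq0 : EG fun z => Real.exp (x * F z) := hF.exp_eg x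
  have eD : ∀ e, EG (D e) := fun e => EG.of_bdd (h.meas e) fun z => h.bd e z
  have hpos : ∀ y, 0 < Lv.J lev l (fun z => Real.exp (x * F z)) y := fun y =>
    J_pos eq0 (fun _ => Real.exp_pos _) y
  refine ⟨h.B0, ?_, h.lip.VJ h.B0 hx, fun e => ?_, fun e y => ?_, fun y w => ?_⟩
  · have := h.L0
    positivity
  · by_cases he : lev e ≤ l
    · simp only [if_pos he]
      exact ((eq0.mul (eD e)).J lev l).meas.div (eq0.J lev l).meas
    · simp only [if_neg he]
      exact measurable_const
  · split_ifs
    · rw [abs_div, abs_of_pos (hpos y), div_le_iff₀ (hpos y)]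
      unfold Lv.J
      refine (abs_integral_le_integral_abs).trans ?_
      rw [← integral_const_mul]
      refine integral_mono (eg_mixr (eq0.mul (eD e)) lev l y).integrable.abs
        ((eg_mixr eq0 lev l y).integrable.const_mul B) fun z => ?_
      simp only
      rw [abs_mul, abs_of_pos (Real.exp_pos _), mul_comm]
      exact mul_le_mul_of_nonneg_right (h.bd e _) (Real.exp_pos _).le
    · rw [abs_zero]; exact h.B0
  · have hN : (0 : ℝ) ≤ Fintype.card ι := Nat.cast_nonneg _
    have hB := h.B0
    set v : ι → ℝ := mix lev l w 0 with hv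
    have hvw : ‖v‖ ≤ ‖w‖ := norm_mix_zero w
    set t : (ι → ℝ) → ℝ := fun z => x * ∑ e, D e (mix lev l y z) * v e with ht
    set τ : ℝ := x * (Fintype.card ι * (B * ‖w‖)) with hτ
    have hb : ∀ z, |t z| ≤ τ := by
      intro z
      rw [ht, hτ]
      simp only
      rw [abs_mul, abs_of_pos hx]
      refine mul_le_mul_of_nonneg_left ((abs_sum_le hB fun e => h.bd e _).trans ?_) hx.le
      gcongr
    have mt : Measurable t := by
      refine Measurable.const_mul ?_ x
      exact Finset.measurable_fun_sum _ fun e _ =>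
        (((h.meas e).comp (measurable_mix_right lev l y)).mul_const _)
    obtain ⟨h1, h2⟩ := tilt_exp (eg_mixr eq0 lev l y) (fun z => (Real.exp_pos _).le)
      (hpos y) mt hb
    have hT : (∫ z, Real.exp (x * F (mix lev l y z)) * t z ∂(gI ι)) /
        ∫ z, Real.exp (x * F (mix lev l y z)) ∂(gI ι) =
        x * ∑ e, (∫ z, Real.exp (x * F (mix lev l y z)) * D e (mix lev l y z) ∂(gI ι)) /
          (∫ z, Real.exp (x * F (mix lev l y z)) ∂(gI ι)) * v e := by
      have e1 : ∀ z, Real.exp (x * F (mix lev l y z)) * t z =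
          ∑ e, (x * v e) * (Real.exp (x * F (mix lev l y z)) * D e (mix lev l y z)) := by
        intro z
        rw [ht]
        simp only
        rw [Finset.mul_sum, Finset.mul_sum]
        exact Finset.sum_congr rfl fun e _ => by ring
      simp_rw [e1]
      rw [integral_finsetSum _ fun e _ =>
        ((eg_mixr (eq0.mul (eD e)) lev l y).integrable.const_mul _), Finset.sum_div,
        Finset.mul_sum]
      refine Finset.sum_congr rfl fun e _ => ?_
      rw [integral_const_mul]
      ring
    rw [hT] at h1 h2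
    set A := ∫ z, Real.exp (x * F (mix lev l y z)) ∂(gI ι) with hA
    set S := ∑ e, (∫ z, Real.exp (x * F (mix lev l y z)) * D e (mix lev l y z) ∂(gI ι)) / A * v e
      with hS
    have hS' : ∑ e, (if lev e ≤ l then Lv.J lev l (fun z => Real.exp (x * F z) * D e z) y /
        Lv.J lev l (fun z => Real.exp (x * F z)) y else 0) * w e = S := by
      rw [hS]
      refine Finset.sum_congr rfl fun e _ => ?_
      rw [hv]
      simp only [mix, Pi.zero_apply]
      split_ifs
      · rfl
      · rw [zero_mul, mul_zero]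
    have ee : EG fun z => Real.exp (t z) := EG.of_bdd mt.exp (C := Real.exp τ) fun z => by
      rw [abs_of_pos (Real.exp_pos _)]
      exact Real.exp_le_exp.2 ((le_abs_self _).trans (hb z))
    have i2 := ((eg_mixr eq0 lev l y).mul ee).integrable
    have hq : ∀ z, |x * F (mix lev l (y + w) z) - x * F (mix lev l y z) - t z| ≤
        x * (L * ‖w‖ ^ 2) := by
      intro z
      have h3 := h.quad (mix lev l y z) v
      rw [mix_add_l, ht]
      simp only
      rw [← mul_sub, ← mul_sub, abs_mul, abs_of_pos hx]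
      refine mul_le_mul_of_nonneg_left (h3.trans (mul_le_mul_of_nonneg_left ?_ h.L0)) hx.le
      exact pow_le_pow_left₀ (norm_nonneg _) hvw 2
    have hexp : ∀ y, Real.exp (x * H425.VJ lev l x F y) =
        ∫ w, Real.exp (x * F (mix lev l y w)) ∂(gI ι) := by
      intro y
      unfold H425.VJ Lv.J
      rw [← mul_assoc, mul_one_div_cancel hx.ne', one_mul, Real.exp_log]
      exact hpos y
    have hWw := hexp (y + w)
    have hWy := hexp y
    have up : x * H425.VJ lev l x F (y + w) ≤ x * H425.VJ lev l x F y + x * S + 2 * τ ^ 2 +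
        x * (L * ‖w‖ ^ 2) := by
      rw [← Real.exp_le_exp, hWw]
      have h4 : ∫ z, Real.exp (x * F (mix lev l (y + w) z)) ∂(gI ι) ≤
          (∫ z, Real.exp (x * F (mix lev l y z)) * Real.exp (t z) ∂(gI ι)) *
            Real.exp (x * (L * ‖w‖ ^ 2)) := by
        rw [← integral_mul_const]
        refine integral_mono (eg_mixr eq0 lev l _).integrable (i2.mul_const _) fun z => ?_
        simp only
        rw [← Real.exp_add, ← Real.exp_add]
        exact Real.exp_le_exp.2 (by linarith [(abs_le.1 (hq z)).2])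
      refine h4.trans ((mul_le_mul_of_nonneg_right h2 (Real.exp_pos _).le).trans (le_of_eq ?_))
      rw [hA, ← hWy, ← Real.exp_add, ← Real.exp_add]
      congr 1
      ring
    have lo : x * H425.VJ lev l x F y + x * S - x * (L * ‖w‖ ^ 2) ≤
        x * H425.VJ lev l x F (y + w) := by
      rw [← Real.exp_le_exp, hWw]
      have h4 : (∫ z, Real.exp (x * F (mix lev l y z)) * Real.exp (t z) ∂(gI ι)) *
            Real.exp (-(x * (L * ‖w‖ ^ 2))) ≤
          ∫ z, Real.exp (x * F (mix lev l (y + w) z)) ∂(gI ι) := by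
        rw [← integral_mul_const]
        refine integral_mono (i2.mul_const _) (eg_mixr eq0 lev l _).integrable fun z => ?_
        simp only
        rw [← Real.exp_add, ← Real.exp_add]
        exact Real.exp_le_exp.2 (by linarith [(abs_le.1 (hq z)).1])
      refine le_trans (le_of_eq ?_)
        ((mul_le_mul_of_nonneg_right h1 (Real.exp_pos _).le).trans h4)
      rw [hA, ← hWy, ← Real.exp_add, ← Real.exp_add]
      congr 1
    have e5 : 2 * τ ^ 2 = x * (2 * x * (Fintype.card ι * B) ^ 2 * ‖w‖ ^ 2) := by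
      rw [hτ]; ring
    have e6 : x * (H425.VJ lev l x F (y + w) - H425.VJ lev l x F y - S) ≤
        x * ((L + 2 * x * (Fintype.card ι * B) ^ 2) * ‖w‖ ^ 2) := by
      rw [e5] at up
      nlinarith [up]
    have e7 : x * (-((L + 2 * x * (Fintype.card ι * B) ^ 2) * ‖w‖ ^ 2)) ≤
        x * (H425.VJ lev l x F (y + w) - H425.VJ lev l x F y - S) := by
      have : 0 ≤ x * (2 * x * (Fintype.card ι * B) ^ 2 * ‖w‖ ^ 2) := by positivity
      nlinarith [lo, this]
    rw [hS', abs_le]
    exact ⟨le_of_mul_le_mul_left e7 hx, le_of_mul_le_mul_left e6 hx⟩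

end Vale.Agent.P146.H425
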