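import Vale.Agent.P146.H425.SyJ

/-!
Linear layered systems: the log-weights are `C¹·¹` with the gradient `T_l a_e`, and jointly convex.
-/

open MeasureTheory ProbabilityTheory

namespace Vale.Agent.P146.H425

open Vale.Agent.P157 Vale.Agent.P157.Lv Vale.Agent.P157.Lv.Sy

set_option linter.unusedSectionVars false
set_option linter.unusedVariables false

variable {ι X : Type} [Fintype ι] [Fintype X] [Nonempty X]

/-- A regular system with an energy which is linear in the coordinates. -/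
structure LinS (S : Sy ι X) (a : X → ι → ℝ) (c : X → ℝ) : Prop where
  reg : S.Reg
  H : ∀ z x, S.H z x = c x + ∑ e, a x e * z e

variable {S : Sy ι X} {a : X → ι → ℝ} {c : X → ℝ} {l : ℕ}

/-- the bound of the coefficients -/
noncomputable def bA (a : X → ι → ℝ) : ℝ := ∑ x, ∑ e, |a x e|

lemma bA_nonneg (a : X → ι → ℝ) : 0 ≤ bA a :=
  Finset.sum_nonneg fun _ _ => Finset.sum_nonneg fun _ _ => abs_nonneg _

lemma sum_abs_le_bA (a : X → ι → ℝ) (x : X) : ∑ e, |a x e| ≤ bA a :=
  Finset.single_le_sum (f := fun x => ∑ e, |a x e|)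
    (fun x _ => Finset.sum_nonneg fun e _ => abs_nonneg _) (Finset.mem_univ x)

lemma abs_le_bA (a : X → ι → ℝ) (x : X) (e : ι) : |a x e| ≤ bA a :=
  (Finset.single_le_sum (f := fun e => |a x e|) (fun e _ => abs_nonneg _)
    (Finset.mem_univ e)).trans (sum_abs_le_bA a x)

lemma abs_lin_le (a : X → ι → ℝ) (x : X) (w : ι → ℝ) : |∑ e, a x e * w e| ≤ bA a * ‖w‖ := by
  refine (Finset.abs_sum_le_sum_abs _ _).trans ?_
  refine le_trans ?_ (mul_le_mul_of_nonneg_right (sum_abs_le_bA a x) (norm_nonneg w))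
  rw [Finset.sum_mul]
  refine Finset.sum_le_sum fun e _ => ?_
  rw [abs_mul]
  exact mul_le_mul_of_nonneg_left (by simpa using norm_le_pi_norm w e) (abs_nonneg _)

/-- elementary bounds for a finite sum of exponentials -/
lemma fin_exp {p t : X → ℝ} (hp : ∀ x, 0 ≤ p x) (h1 : ∑ x, p x = 1) {τ : ℝ}
    (ht : ∀ x, |t x| ≤ τ) :
    Real.exp (∑ x, p x * t x) ≤ ∑ x, p x * Real.exp (t x) ∧
    ∑ x, p x * Real.exp (t x) ≤ Real.exp (∑ x, p x * t x + 2 * τ ^ 2) := by
  obtain ⟨x0⟩ := ‹Nonempty X›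
  have hτ : 0 ≤ τ := (abs_nonneg _).trans (ht x0)
  constructor
  · have h2 : ∀ x, Real.exp (∑ x, p x * t x) * (1 + (t x - ∑ x, p x * t x)) ≤ Real.exp (t x) := by
      intro x
      have h3 := Real.add_one_le_exp (t x - ∑ x, p x * t x)
      have h4 : Real.exp (t x) = Real.exp (∑ x, p x * t x) * Real.exp (t x - ∑ x, p x * t x) := by
        rw [← Real.exp_add]; congr 1; ring
      rw [h4]
      exact mul_le_mul_of_nonneg_left (by linarith) (Real.exp_pos _).le
    have h3 : ∑ x, p x * (Real.exp (∑ x, p x * t x) * (1 + (t x - ∑ x, p x * t x))) =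
        Real.exp (∑ x, p x * t x) := by
      have e : ∀ x, p x * (Real.exp (∑ x, p x * t x) * (1 + (t x - ∑ x, p x * t x))) =
          Real.exp (∑ x, p x * t x) * ((1 - ∑ x, p x * t x) * p x + p x * t x) := by
        intro x; ring
      simp_rw [e]
      rw [← Finset.mul_sum, Finset.sum_add_distrib, ← Finset.mul_sum, h1]
      ring
    rw [← h3]
    exact Finset.sum_le_sum fun x _ => mul_le_mul_of_nonneg_left (h2 x) (hp x)
  · have hm : |∑ x, p x * t x| ≤ τ := by
      refine (Finset.abs_sum_le_sum_abs _ _).trans ?_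
      have : ∑ x, |p x * t x| ≤ ∑ x, p x * τ := Finset.sum_le_sum fun x _ => by
        rw [abs_mul, abs_of_nonneg (hp x)]
        exact mul_le_mul_of_nonneg_left (ht x) (hp x)
      rwa [← Finset.sum_mul, h1, one_mul] at this
    rcases le_total τ 1 with h2 | h2
    · have h3 : ∀ x, Real.exp (t x) ≤ 1 + t x + τ ^ 2 := by
        intro x
        have h4 := (le_abs_self _).trans (Real.abs_exp_sub_one_sub_id_le ((ht x).trans h2))
        have h5 : (t x) ^ 2 ≤ τ ^ 2 := sq_le_sq' (by linarith [(abs_le.1 (ht x)).1])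
          (abs_le.1 (ht x)).2
        linarith
      have h4 : ∑ x, p x * Real.exp (t x) ≤ ∑ x, ((1 + τ ^ 2) * p x + p x * t x) :=
        Finset.sum_le_sum fun x _ => by
          nlinarith [mul_le_mul_of_nonneg_left (h3 x) (hp x)]
      rw [Finset.sum_add_distrib, ← Finset.mul_sum, h1] at h4
      have h5 := Real.add_one_le_exp (∑ x, p x * t x + 2 * τ ^ 2)
      nlinarith [sq_nonneg τ]
    · have h3 : ∑ x, p x * Real.exp (t x) ≤ ∑ x, p x * Real.exp τ :=
        Finset.sum_le_sum fun x _ => mul_le_mul_of_nonneg_left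
          (Real.exp_le_exp.2 ((le_abs_self _).trans (ht x))) (hp x)
      rw [← Finset.sum_mul, h1, one_mul] at h3
      refine h3.trans (Real.exp_le_exp.2 ?_)
      nlinarith [(abs_le.1 hm).1]

namespace LinS

/-- the log-partition function is `C¹·¹` -/
theorem c11_top (h : LinS S a c) :
    C11 S.top (fun e z => S.av (fun _ x => a x e) z) (bA a) (2 * bA a ^ 2) := by
  have hb := bA_nonneg a
  have hg : ∀ y w, S.top (y + w) - S.top y =
      Real.log (∑ x, S.gb y x * Real.exp (∑ e, a x e * w e)) := by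
    intro y w
    have h0 := sum_exp_pos (S := S) y
    have h1 := sum_exp_pos (S := S) (y + w)
    rw [top, top, ← Real.log_div h1.ne' h0.ne']
    congr 1
    rw [Finset.sum_div]
    refine Finset.sum_congr rfl fun x _ => ?_
    unfold gb
    rw [div_mul_eq_mul_div, ← Real.exp_add]
    congr 2
    rw [h.H, h.H, add_assoc, ← Finset.sum_add_distrib]
    congr 1
    exact Finset.sum_congr rfl fun e _ => by rw [Pi.add_apply]; ring
  have hlip : ∀ y w, |S.top (y + w) - S.top y| ≤ bA a * ‖w‖ := by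
    intro y w
    rw [hg]
    have hpos : 0 < ∑ x, S.gb y x * Real.exp (∑ e, a x e * w e) := by
      obtain ⟨x0⟩ := ‹Nonempty X›
      exact Finset.sum_pos (fun x _ => mul_pos (gb_pos S y x) (Real.exp_pos _)) ⟨x0, Finset.mem_univ _⟩
    have h1 : ∑ x, S.gb y x * Real.exp (∑ e, a x e * w e) ≤ Real.exp (bA a * ‖w‖) := by
      have := Finset.sum_le_sum (s := Finset.univ) fun x _ => mul_le_mul_of_nonneg_left
        (Real.exp_le_exp.2 ((le_abs_self _).trans (abs_lin_le a x w))) (gb_pos S y x).le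
      rwa [← Finset.sum_mul, sum_gb, one_mul] at this
    have h2 : Real.exp (-(bA a * ‖w‖)) ≤ ∑ x, S.gb y x * Real.exp (∑ e, a x e * w e) := by
      have := Finset.sum_le_sum (s := Finset.univ) fun x _ => mul_le_mul_of_nonneg_left
        (Real.exp_le_exp.2 (neg_le_of_abs_le (abs_lin_le a x w))) (gb_pos S y x).le
      rwa [← Finset.sum_mul, sum_gb, one_mul] at this
    rw [abs_le]
    constructor
    · rw [Real.le_log_iff_exp_le hpos]; exact h2
    · rw [Real.log_le_iff_le_exp hpos]; exact h1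
  refine ⟨hb, by positivity, hlip, fun e => (h.reg.eg_av (Nh.snd fun x => a x e)).meas,
    fun e y => ?_, fun y w => ?_⟩
  · unfold av
    refine (Finset.abs_sum_le_sum_abs _ _).trans ?_
    have := Finset.sum_le_sum (s := Finset.univ) fun x _ => mul_le_mul_of_nonneg_left
        (abs_le_bA a x e) (gb_pos S y x).le
    rw [← Finset.sum_mul, sum_gb, one_mul] at this
    refine le_trans (le_of_eq (Finset.sum_congr rfl fun x _ => ?_)) this
    rw [abs_mul, abs_of_pos (gb_pos S y x)]
  · have h1 := fin_exp (p := S.gb y) (t := fun x => ∑ e, a x e * w e)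
      (fun x => (gb_pos S y x).le) (sum_gb S y) (abs_lin_le a · w)
    have e1 : ∑ e, S.av (fun _ x => a x e) y * w e = ∑ x, S.gb y x * ∑ e, a x e * w e := by
      unfold av
      simp_rw [Finset.sum_mul, Finset.mul_sum]
      rw [Finset.sum_comm]
      exact Finset.sum_congr rfl fun x _ => Finset.sum_congr rfl fun e _ => by ring
    have hpos : 0 < ∑ x, S.gb y x * Real.exp (∑ e, a x e * w e) := by
      obtain ⟨x0⟩ := ‹Nonempty X›
      exact Finset.sum_pos (fun x _ => mul_pos (gb_pos S y x) (Real.exp_pos _)) ⟨x0, Finset.mem_univ _⟩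
    rw [hg, e1, abs_le]
    have h2 := (Real.le_log_iff_exp_le hpos).2 h1.1
    have h3 := (Real.log_le_iff_le_exp hpos).2 h1.2
    have e2 : 2 * (bA a * ‖w‖) ^ 2 = 2 * bA a ^ 2 * ‖w‖ ^ 2 := by ring
    rw [e2] at h3
    constructor
    · have : 0 ≤ 2 * bA a ^ 2 * ‖w‖ ^ 2 := by positivity
      linarith
    · linarith

end LinS

section dec

variable [DecidableEq ι]

/-- the one-step tilt -/
lemma T_ratio (hS : S.Reg) (hl : l < S.K) {h : (ι → ℝ) → X → ℝ} (hh : Nh h) (z : ι → ℝ) :
    S.T l h z = J S.lev l (fun z => Real.exp (S.m (l + 1) * S.lg (l + 1) z) * S.T (l + 1) h z) z /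
      J S.lev l (fun z => Real.exp (S.m (l + 1) * S.lg (l + 1) z)) z := by
  rw [hS.T_stepI hl hh z, hS.J_exp_lg hl z]
  have hdep : Dep S.lev l (fun z => Real.exp (-(S.m (l + 1) * S.lg l z))) := by
    intro z w
    have h2 := (hS.dep_lg (l := l) hl.le) z w
    simp only [h2]
  have h4 := hdep.J_mul (fun z => Real.exp (S.m (l + 1) * S.lg (l + 1) z) *
    S.T (l + 1) h z) z
  have h5 : (fun z => Real.exp (S.m (l + 1) * (S.lg (l + 1) z - S.lg l z)) * S.T (l + 1) h z) =
      fun z => Real.exp (-(S.m (l + 1) * S.lg l z)) *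
        (Real.exp (S.m (l + 1) * S.lg (l + 1) z) * S.T (l + 1) h z) := by
    funext z
    rw [← mul_assoc, ← Real.exp_add]
    congr 2
    ring
  rw [h5, h4, Real.exp_neg, inv_mul_eq_div]

/-- the gradient of the log-weight -/
noncomputable def Dlg (S : Sy ι X) (a : X → ι → ℝ) (l : ℕ) (e : ι) (z : ι → ℝ) : ℝ :=
  if S.lev e ≤ l then S.T l (fun _ x => a x e) z else 0

lemma C11.mono {F : (ι → ℝ) → ℝ} {D : ι → (ι → ℝ) → ℝ} {B L L' : ℝ} (h : C11 F D B L)
    (hL : L ≤ L') : C11 F D B L' :=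
  ⟨h.B0, h.L0.trans hL, h.lip, h.meas, h.bd, fun y w => (h.quad y w).trans
    (mul_le_mul_of_nonneg_right hL (sq_nonneg _))⟩

lemma lg_eq_VJ (hl : l < S.K) : S.lg l = VJ S.lev l (S.m (l + 1)) (S.lg (l + 1)) := by
  rw [lg_step S hl]
  rfl

namespace LinS

/-- **The log-weights are `C¹·¹`.** -/
theorem c11_lg (h : LinS S a c) : ∀ l ≤ S.K, ∃ L, C11 (S.lg l) (Dlg S a l) (bA a) L := by
  refine down_ind (P := fun l => ∃ L, C11 (S.lg l) (Dlg S a l) (bA a) L) ?_ ?_
  · refine ⟨2 * bA a ^ 2, ?_⟩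
    rw [lg_top]
    have e : Dlg S a S.K = fun e z => S.av (fun _ x => a x e) z := by
      funext e z
      unfold Dlg
      rw [if_pos (h.reg.lev e), h.reg.T_top]
    rw [e]
    exact h.c11_top
  · rintro l hl ⟨L, ih⟩
    have hm : 0 < S.m (l + 1) := h.reg.m_pos (by omega) (by omega)
    refine ⟨L + 2 * S.m (l + 1) * (Fintype.card ι * bA a) ^ 2, ?_⟩
    have h1 := C11.J (lev := S.lev) (l := l) ih hm
    rw [← lg_eq_VJ hl] at h1
    refine cast ?_ h1
    congr 1
    funext e z
    unfold Dlg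
    by_cases he : S.lev e ≤ l
    · rw [if_pos he, if_pos he, T_ratio h.reg hl (Nh.snd fun x => a x e) z]
      have he' : S.lev e ≤ l + 1 := by omega
      simp only [if_pos he']
    · rw [if_neg he, if_neg he]

end LinS

end dec

/-- a function with supporting gradients is convex -/
lemma cv_of_tangent {F : (ι → ℝ) → ℝ} {D : ι → (ι → ℝ) → ℝ}
    (h : ∀ y w, F y + ∑ e, D e y * w e ≤ F (y + w)) : Cv F := by
  intro a b ha hb hab w0 w1
  set y := a • w0 + b • w1 with hy
  have h0 := h y (w0 - y)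
  have h1 := h y (w1 - y)
  rw [add_sub_cancel] at h0 h1
  have e : a * ∑ e, D e y * (w0 - y) e + b * ∑ e, D e y * (w1 - y) e = 0 := by
    rw [Finset.mul_sum, Finset.mul_sum, ← Finset.sum_add_distrib]
    refine Finset.sum_eq_zero fun e _ => ?_
    rw [hy]
    simp only [Pi.sub_apply, Pi.add_apply, Pi.smul_apply, smul_eq_mul]
    have hb' : b = 1 - a := by linarith
    subst hb'
    ring
  have h2 := mul_le_mul_of_nonneg_left h0 ha
  have h3 := mul_le_mul_of_nonneg_left h1 hb
  have h4 : a * F y + b * F y = F y := by rw [← add_mul, hab, one_mul]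
  nlinarith [h2, h3, h4, e]

namespace LinS

theorem cv_top (h : LinS S a c) : Cv S.top := by
  refine cv_of_tangent (D := fun e z => S.av (fun _ x => a x e) z) fun y w => ?_
  have hpos : 0 < ∑ x, S.gb y x * Real.exp (∑ e, a x e * w e) := by
    obtain ⟨x0⟩ := ‹Nonempty X›
    exact Finset.sum_pos (fun x _ => mul_pos (gb_pos S y x) (Real.exp_pos _))
      ⟨x0, Finset.mem_univ _⟩
  have hg : S.top (y + w) - S.top y =
      Real.log (∑ x, S.gb y x * Real.exp (∑ e, a x e * w e)) := by
    have h0 := sum_exp_pos (S := S) y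
    have h1 := sum_exp_pos (S := S) (y + w)
    rw [top, top, ← Real.log_div h1.ne' h0.ne']
    congr 1
    rw [Finset.sum_div]
    refine Finset.sum_congr rfl fun x _ => ?_
    unfold gb
    rw [div_mul_eq_mul_div, ← Real.exp_add]
    congr 2
    rw [h.H, h.H, add_assoc, ← Finset.sum_add_distrib]
    congr 1
    exact Finset.sum_congr rfl fun e _ => by rw [Pi.add_apply]; ring
  have h1 := fin_exp (p := S.gb y) (t := fun x => ∑ e, a x e * w e)
    (fun x => (gb_pos S y x).le) (sum_gb S y) (abs_lin_le a · w)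
  have e1 : ∑ e, S.av (fun _ x => a x e) y * w e = ∑ x, S.gb y x * ∑ e, a x e * w e := by
    unfold av
    simp_rw [Finset.sum_mul, Finset.mul_sum]
    rw [Finset.sum_comm]
    exact Finset.sum_congr rfl fun x _ => Finset.sum_congr rfl fun e _ => by ring
  have h2 := (Real.le_log_iff_exp_le hpos).2 h1.1
  rw [← hg, ← e1] at h2
  linarith

end LinS

/-- one step preserves joint convexity, jointly with the exponent -/
theorem VJ_layer {F : (ι → ℝ) → ℝ} {D : ι → (ι → ℝ) → ℝ} {B L x0 x1 p q : ℝ} {lev : ι → ℕ}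
    (h : C11 F D B L) (hc : Cv F) (h0 : 0 < x0) (h1 : 0 < x1) (hp : 0 ≤ p) (hq : 0 ≤ q)
    (hpq : p + q = 1) (z0 z1 : ι → ℝ) :
    VJ lev l (p * x0 + q * x1) F (p • z0 + q • z1) ≤ p * VJ lev l x0 F z0 + q * VJ lev l x1 F z1 := by
  have := layer (h.mixr lev l (p • z0 + q • z1)) (h.mixr lev l z0).lip h.B0 (h.mixr lev l z1).lip
    h.B0 h0 h1 hp hq hpq (fun w0 w1 => by
      rw [mix_comb]
      exact hc p q hp hq hpq _ _) 0 0
  rw [VJ_eq_W, VJ_eq_W, VJ_eq_W]
  simpa using this

namespace LinS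

/-- **The log-weights are jointly convex.** -/
theorem cv_lg [DecidableEq ι] (h : LinS S a c) : ∀ l ≤ S.K, Cv (S.lg l) := by
  refine down_ind (P := fun l => Cv (S.lg l)) ?_ ?_
  · rw [lg_top]; exact h.cv_top
  · intro l hl ih p q hp hq hpq z0 z1
    have hm : 0 < S.m (l + 1) := h.reg.m_pos (by omega) (by omega)
    obtain ⟨L, hC⟩ := h.c11_lg (l + 1) hl
    have := VJ_layer (lev := S.lev) (l := l) hC ih hm hm hp hq hpq z0 z1
    rw [← add_mul, hpq, one_mul, ← lg_eq_VJ hl] at this
    exact this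

end LinS

end Vale.Agent.P146.H425
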