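import Vale.Agent.P146.H425.Sn
import Vale.Agent.P146.Bd5.B2

/-!
The telescope over the stages, for arbitrary exponents, from the quadratic form of the cavity step.
-/

open MeasureTheory ProbabilityTheory

namespace Vale.Agent.P146.H425

open Vale.Agent.P157 Vale.Agent.P157.Lv Vale.Agent.P157.Lv.Sy
open Vale.Agent.P146.Ub (RI lc st dsk fd ph)
open Vale.Agent.P146.Ub.Ld (SN AN rlv rlv_le)
open Vale.Agent.P157.Par (Path Exponents incr spinPart)
open Vale.Agent.P146 (Pair freeEnergy disorder)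
open Vale.Agent.P146.Sk (PSK)

set_option linter.unusedSectionVars false
set_option linter.unusedVariables false

/-- The error of the stage `N`: the variances of the overlaps of the levels `1, …, K`. -/
noncomputable def VS (n K : ℕ) (m : ℕ → ℝ) (β : ℝ) {N : ℕ} (hN : N ≤ n) (s : ℕ → ℝ) : ℝ :=
  ∑ l ∈ Finset.Ico 1 (K + 1), (m (l + 1) - m l) *
    (SN n K 1 m β N s).pairEx l (fun x x' =>
      (Rov (ph hN) x x' - (SN n K 1 m β N s).Rl (ph hN) l) ^ 2)

/-- The same for all `N`. -/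
noncomputable def Vs (n K : ℕ) (m : ℕ → ℝ) (β : ℝ) (N : ℕ) (s : ℕ → ℝ) : ℝ :=
  if hN : N ≤ n then VS n K m β hN s else 0

/-- The quadratic form of the cavity step, with the constant `C`. -/
def QSt (β C : ℝ) : Prop :=
  ∀ (n K N : ℕ) (m s : ℕ → ℝ) (hN : N + 1 ≤ n), 0 < N → Exponents K m → 1 ≤ K →
    (∀ l ≤ K, 0 ≤ s l) → ∃ R : ℕ → ℝ, Path K R ∧ R K ≤ 1 ∧ R 0 = 0 ∧
      PSK β K m R ≤ AN n K 1 m β (N + 1) s - AN n K 1 m β N s + C / N +
        C * VS n K m β (Nat.le_of_succ_le hN) s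

variable {K : ℕ} {m s : ℕ → ℝ} {β C Lb : ℝ}

theorem Lb_le (hm : Exponents K m)
    (hLb : ∀ q : ℕ → ℝ, Path K q → q K ≤ 1 → q 0 = 0 → Lb ≤ PSK β K m q) :
    Lb ≤ β ^ 2 / 4 := by
  have h := hLb (fun _ => 0) ⟨le_rfl, fun l hl => le_rfl⟩ zero_le_one rfl
  refine h.trans (le_of_eq ?_)
  unfold PSK spinPart
  have hmm := WE.of_exp hm
  have h1 : ∀ l, 1 ≤ l → l ≤ K → m l ≠ 0 := by
    intro l hl
    induction l, hl using Nat.le_induction with
    | base => intro _; exact hmm.pos.ne'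
    | succ k hk ih =>
      intro hk'
      have h2 : ∀ j, 1 ≤ j → j ≤ K → 0 < m j := by
        intro j hj
        induction j, hj using Nat.le_induction with
        | base => intro _; exact hmm.pos
        | succ i hi ih2 => intro hi'; exact (ih2 (by omega)).trans_le (hmm.mono i (by omega))
      exact (h2 (k + 1) (by omega) hk').ne'
  simp only [mul_zero]
  rw [Ub.Ld.cascade_zero m _ K h1]
  simp

/-- **The telescope.** -/
theorem tele (hQ : QSt β C) (hC : 0 ≤ C) (hK : 1 ≤ K) (hm : Exponents K m)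
    (hs : ∀ l ≤ K, 0 ≤ s l)
    (hLb : ∀ q : ℕ → ℝ, Path K q → q K ≤ 1 → q 0 = 0 → Lb ≤ PSK β K m q) {n : ℕ} (hn : 1 ≤ n) :
    n * (Real.log 2 + Lb) ≤
      1 / m 1 * Real.log (∫ g, Real.exp (m 1 * freeEnergy n β g) ∂(disorder n)) +
        n * (∑ j ∈ Finset.range (K + 1), s j ^ 2) / 2 + β ^ 2 / 4 + C * (1 + Real.log n) +
        C * ∑ N ∈ Finset.Ico 1 n, Vs n K m β N s := by
  have hn0 : 0 < n := hn
  have hsum : ∑ N ∈ Finset.Ico 1 n, Lb ≤
      ∑ N ∈ Finset.Ico 1 n, ((AN n K 1 m β (N + 1) s - AN n K 1 m β N s) +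
        (C * (1 / N) + C * Vs n K m β N s)) := by
    refine Finset.sum_le_sum fun N hN => ?_
    obtain ⟨h1, h2⟩ := Finset.mem_Ico.1 hN
    obtain ⟨R, hR, hR1, hR0, h⟩ := hQ n K N m s (by omega) (by omega) hm hK hs
    have h3 := hLb R hR hR1 hR0
    unfold Vs
    rw [dif_pos (show N ≤ n by omega)]
    have e : C / (N : ℝ) = C * (1 / N) := by ring
    rw [e] at h
    linarith
  rw [Finset.sum_add_distrib, Finset.sum_Ico_sub (fun N => AN n K 1 m β N s) hn,
    Finset.sum_add_distrib, ← Finset.mul_sum, ← Finset.mul_sum, Finset.sum_const,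
    Nat.card_Ico, nsmul_eq_mul, Nat.cast_sub hn, Nat.cast_one] at hsum
  have hH := Ub.Ld.sum_one_div_le n
  have h0 := Ub.Ld.rr_nonneg (n := n) hK hm β 1 s
  have h1 := Ub.Ld.rr_le (n := n) hK hm β s
  rw [Ub.Ld.AN_zero (le_refl 1) hK hn0 hm β] at h1
  have h2 := Lb_le hm hLb
  have h3 := mul_le_mul_of_nonneg_left hH hC
  linarith

end Vale.Agent.P146.H425
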