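import Vale.Agent.P146.H425.Kf

/-!
The relative inequality between two systems which differ in the exponents: the free energy of
the second one is at least the exponential average of the difference of the log-weights under the
tilted law of the first one; hence the gain over the slope is at least a variance.
-/

open MeasureTheory ProbabilityTheory

namespace Vale.Agent.P146.H425

open Vale.Agent.P157 Vale.Agent.P157.Lv Vale.Agent.P157.Lv.Sy
open Vale.Agent.P146.H784 (rho vr eg_rho dep_rho)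

set_option linter.unusedSectionVars false
set_option linter.unusedVariables false

variable {ι X : Type} [Fintype ι] [Fintype X] [Nonempty X]

variable {S : Sy ι X} {l : ℕ} {m' : ℕ → ℝ}

/-- `1 + y + y² / 3 ≤ exp y` on `[-1/2, 1/2]` -/
lemma exp_ge_quad {y : ℝ} (h : |y| ≤ 1 / 2) : 1 + y + y ^ 2 / 3 ≤ Real.exp y := by
  have h1 := Real.exp_bound (x := y) (by linarith) (n := 3) (by norm_num)
  have h2 : ∑ m ∈ Finset.range 3, y ^ m / (m.factorial : ℝ) = 1 + y + y ^ 2 / 2 := by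
    simp [Finset.sum_range_succ, Nat.factorial]
  rw [h2] at h1
  have h3 : |y| ^ 3 * ((Nat.succ 3 : ℕ) / ((Nat.factorial 3 : ℕ) * (3 : ℕ) : ℝ)) ≤
      y ^ 2 * (1 / 9) := by
    have e1 : |y| ^ 3 = y ^ 2 * |y| := by
      rw [← sq_abs y]; ring
    rw [e1]
    have e2 : ((Nat.succ 3 : ℕ) / ((Nat.factorial 3 : ℕ) * (3 : ℕ) : ℝ)) = 2 / 9 := by
      norm_num [Nat.factorial]
    rw [e2]
    have := mul_le_mul_of_nonneg_left h (sq_nonneg y)
    nlinarith
  have h4 := (abs_le.1 (h1.trans h3)).1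
  nlinarith [sq_nonneg y]

/-- `v / 4 ≤ log (1 + v / 3)` for `0 ≤ v ≤ 1` -/
lemma log_ge_quarter {v : ℝ} (h0 : 0 ≤ v) (h1 : v ≤ 1) : v / 4 ≤ Real.log (1 + v / 3) := by
  have h2 : 0 < 1 + v / 3 := by positivity
  have h3 := Real.one_sub_inv_le_log_of_pos h2
  refine le_trans ?_ h3
  rw [le_sub_iff_add_le, ← le_sub_iff_add_le', inv_le_comm₀ h2 (by linarith)]
  rw [inv_le_comm₀ (by linarith) h2]
  have h4 : (1 - v / 4) * (1 + v / 3) ≥ 1 := by nlinarith
  rw [inv_le_iff_one_le_mul₀ h2]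
  linarith

/-- Jensen for the exponential under the tilted conditional average -/
lemma exp_T_le (hS : S.Reg) (hl : l ≤ S.K) {f : (ι → ℝ) → ℝ} (hf : EG f)
    (hfe : EG fun z => Real.exp (f z)) (z : ι → ℝ) :
    Real.exp (S.T l (fun z _ => f z) z) ≤ S.T l (fun z _ => Real.exp (f z)) z := by
  obtain ⟨t, ht⟩ : ∃ t, t = S.T l (fun z _ => f z) z := ⟨_, rfl⟩
  have h1 := hS.T_mono hl (f := fun z _ => Real.exp t * (f z - t) + Real.exp t)
    (g := fun z _ => Real.exp (f z))
    (fun _ => ((hf.sub (EG.const t)).const_mul (Real.exp t)).add (EG.const _))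
    (Nh.fst hfe) (fun z _ => by
      have h2 := Real.add_one_le_exp (f z - t)
      have h3 : Real.exp (f z) = Real.exp t * Real.exp (f z - t) := by
        rw [← Real.exp_add]; congr 1; ring
      rw [h3]
      nlinarith [Real.exp_pos t]) z
  rw [hS.T_add hl (fun _ => ((hf.sub (EG.const t)).const_mul (Real.exp t)))
    (fun _ => EG.const _), hS.T_const hl, T_const_mul,
    hS.T_sub hl (fun _ => hf) (fun _ => EG.const _), hS.T_const hl, ← ht] at h1
  rw [← ht]
  linarith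

lemma exp_Ex_le (hS : S.Reg) {f : (ι → ℝ) → ℝ} (hf : EG f)
    (hfe : EG fun z => Real.exp (f z)) :
    Real.exp (S.Ex (fun z _ => f z)) ≤ S.Ex (fun z _ => Real.exp (f z)) := by
  obtain ⟨t, ht⟩ : ∃ t, t = S.Ex (fun z _ => f z) := ⟨_, rfl⟩
  have h1 := hS.Ex_mono (f := fun z _ => Real.exp t * (f z - t) + Real.exp t)
    (g := fun z _ => Real.exp (f z))
    (fun _ => ((hf.sub (EG.const t)).const_mul (Real.exp t)).add (EG.const _))
    (Nh.fst hfe) (fun z _ => by
      have h2 := Real.add_one_le_exp (f z - t)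
      have h3 : Real.exp (f z) = Real.exp t * Real.exp (f z - t) := by
        rw [← Real.exp_add]; congr 1; ring
      rw [h3]
      nlinarith [Real.exp_pos t])
  rw [hS.Ex_add (fun _ => ((hf.sub (EG.const t)).const_mul (Real.exp t)))
    (fun _ => EG.const _), hS.Ex_const, Ex_const_mul,
    hS.Ex_sub (fun _ => hf) (fun _ => EG.const _), hS.Ex_const, ← ht] at h1
  rw [← ht]
  linarith

/-- the elementary power comparison: `(∫ w e^{r g}) ≤ (∫ w e^{m g})^{r/m}` in logarithmic form -/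
lemma exp_pow_aux {r m t g : ℝ} (hr : 0 < r) (hm : r ≤ m) :
    Real.exp (r * g) ≤ Real.exp (r * t) * (1 + r / m * (Real.exp (m * (g - t)) - 1)) := by
  have hm0 : 0 < m := hr.trans_le hm
  have h1 : Real.exp (r * g) = Real.exp (r * t) * Real.exp (r * (g - t)) := by
    rw [← Real.exp_add]; congr 1; ring
  rw [h1]
  refine mul_le_mul_of_nonneg_left ?_ (Real.exp_pos _).le
  have h2 := exp_mul_le_tangent (θ := r / m) (by positivity) ((div_le_one hm0).2 hm) (m * (g - t))
  have e : r / m * (m * (g - t)) = r * (g - t) := by field_simp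
  rw [e] at h2
  linarith

/-- **The relative inequality for the log-weights.** -/
theorem T_exp_le (hS : S.Reg) (hS' : (wm S m').Reg) {l0 : ℕ} (hl0 : l0 ≤ S.K) {r : ℝ}
    (hr : 0 < r) (heq : ∀ j, 1 ≤ j → j ≤ l0 → m' j = S.m j)
    (hrm : ∀ j, 1 ≤ j → j ≤ l0 → r ≤ S.m j) :
    ∀ l ≤ l0, ∀ z, S.T l (fun z _ => Real.exp (r * ((wm S m').lg l0 z - S.lg l0 z))) z ≤
      Real.exp (r * ((wm S m').lg l z - S.lg l z)) := by
  have hL : ∀ j ≤ S.K, Lip fun z => (wm S m').lg j z - S.lg j z := by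
    intro j hj
    have h1 := (hS'.lip_lg hj).add ((hS.lip_lg hj).const_mul (-1))
    have e : (fun z => (wm S m').lg j z - S.lg j z) =
        fun z => (wm S m').lg j z + -1 * S.lg j z := by
      funext z; ring
    rw [e]
    exact h1
  have hD : ∀ j ≤ S.K, Dep S.lev j fun z => (wm S m').lg j z - S.lg j z := by
    intro j hj z w
    have h1 := hS'.dep_lg hj z w
    have h2 := hS.dep_lg hj z w
    rw [wm_lev] at h1
    simp only [h1, h2]
  have hE : ∀ j ≤ S.K, ∀ x : ℝ, EG fun z => Real.exp (x * ((wm S m').lg j z - S.lg j z)) :=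
    fun j hj x => (hL j hj).exp_eg x
  refine down_ind (P := fun l => ∀ z, S.T l (fun z _ =>
    Real.exp (r * ((wm S m').lg l0 z - S.lg l0 z))) z ≤
      Real.exp (r * ((wm S m').lg l z - S.lg l z))) ?_ ?_
  · intro z
    refine le_of_eq (hS.T_fst hl0 (φ := fun z => Real.exp (r * ((wm S m').lg l0 z - S.lg l0 z)))
      ?_ z)
    intro z w
    have := hD l0 hl0 z w
    simp only at this
    simp only [this]
  · intro l hl ih z
    have hlK : l < S.K := by omega
    have hm1 : r ≤ S.m (l + 1) := hrm _ (by omega) (by omega)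
    have hm0 : 0 < S.m (l + 1) := hr.trans_le hm1
    have em : m' (l + 1) = S.m (l + 1) := heq _ (by omega) (by omega)
    obtain ⟨t, ht⟩ : ∃ t, t = (wm S m').lg l z - S.lg l z := ⟨_, rfl⟩
    -- the step of the second system, as a tilted average of the first one
    have h1 : J S.lev l (fun z => S.pW l z *
        Real.exp (S.m (l + 1) * ((wm S m').lg (l + 1) z - S.lg (l + 1) z))) z =
        Real.exp (S.m (l + 1) * t) := by
      have h2 := hS'.J_exp_lg (l := l) hlK z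
      rw [wm_lev, wm_m, em] at h2
      have h3 : Dep S.lev l (fun z => Real.exp (-(S.m (l + 1) * S.lg l z))) := by
        intro z w
        simp only [hS.dep_lg hlK.le z w]
      have h4 := h3.J_mul (fun z => Real.exp (S.m (l + 1) * (wm S m').lg (l + 1) z)) z
      have h5 : (fun z => S.pW l z *
          Real.exp (S.m (l + 1) * ((wm S m').lg (l + 1) z - S.lg (l + 1) z))) =
          fun z => Real.exp (-(S.m (l + 1) * S.lg l z)) *
            Real.exp (S.m (l + 1) * (wm S m').lg (l + 1) z) := by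
        funext y
        unfold pW
        rw [← Real.exp_add, ← Real.exp_add]
        congr 1
        ring
      rw [h5, h4, h2, ← Real.exp_add, ht]
      congr 1
      ring
    have hn : Nh (X := X) fun z _ => Real.exp (r * ((wm S m').lg l0 z - S.lg l0 z)) :=
      Nh.fst (hE l0 hl0 r)
    rw [hS.T_step hlK hn z, ← ht]
    have i0 : EG fun z => S.pW l z * S.T (l + 1) (fun z _ =>
        Real.exp (r * ((wm S m').lg l0 z - S.lg l0 z))) z := (hS.pW_eg hlK).mul (hS.eg_T hlK hn)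
    have i1 := (hS.pW_eg hlK).mul (hE (l + 1) hlK (S.m (l + 1)))
    have i2 : EG fun z => Real.exp (r * t) * (1 - r / S.m (l + 1)) * S.pW l z +
        Real.exp (r * t) * (r / S.m (l + 1)) * Real.exp (-(S.m (l + 1) * t)) * (S.pW l z *
          Real.exp (S.m (l + 1) * ((wm S m').lg (l + 1) z - S.lg (l + 1) z))) :=
      ((hS.pW_eg hlK).const_mul _).add (i1.const_mul _)
    refine (J_mono i0 i2 (fun y => ?_) z).trans (le_of_eq ?_)
    · have h6 := ih y
      have h7 := exp_pow_aux (t := t) (g := (wm S m').lg (l + 1) y - S.lg (l + 1) y) hr hm1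
      have h8 := mul_le_mul_of_nonneg_left (h6.trans h7) (S.pW_pos l y).le
      refine h8.trans (le_of_eq ?_)
      have h9 : Real.exp (S.m (l + 1) * ((wm S m').lg (l + 1) y - S.lg (l + 1) y - t)) =
          Real.exp (-(S.m (l + 1) * t)) *
            Real.exp (S.m (l + 1) * ((wm S m').lg (l + 1) y - S.lg (l + 1) y)) := by
        rw [← Real.exp_add]; congr 1; ring
      rw [h9]
      ring
    · rw [J_add ((hS.pW_eg hlK).const_mul _) (i1.const_mul _), J_const_mul, J_const_mul,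
        hS.J_pW hlK, h1, mul_assoc (Real.exp (r * t) * (r / S.m (l + 1))), ← Real.exp_add,
        neg_add_cancel, Real.exp_zero]
      ring

/-- **(X1) The relative inequality for the free energies**, if the level zero is inert. -/
theorem Ex_exp_le (hS : S.Reg) (hS' : (wm S m').Reg) {l0 : ℕ} (hl0 : l0 ≤ S.K) {r : ℝ}
    (hr : 0 < r) (heq : ∀ j, 1 ≤ j → j ≤ l0 → m' j = S.m j)
    (hrm : ∀ j, 1 ≤ j → j ≤ l0 → r ≤ S.m j)
    (hc : ∀ z, S.lg 0 z = S.fe) (hc' : ∀ z, (wm S m').lg 0 z = (wm S m').fe) :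
    S.Ex (fun z _ => Real.exp (r * ((wm S m').lg l0 z - S.lg l0 z))) ≤
      Real.exp (r * ((wm S m').fe - S.fe)) := by
  have hL : Lip fun z => (wm S m').lg l0 z - S.lg l0 z := by
    have h1 := (hS'.lip_lg hl0).add ((hS.lip_lg hl0).const_mul (-1))
    have e : (fun z => (wm S m').lg l0 z - S.lg l0 z) =
        fun z => (wm S m').lg l0 z + -1 * S.lg l0 z := by
      funext z; ring
    rw [e]
    exact h1
  have hn : Nh (X := X) fun z _ => Real.exp (r * ((wm S m').lg l0 z - S.lg l0 z)) :=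
    Nh.fst (hL.exp_eg r)
  rw [lc_Ex_T0 hS hn]
  have h1 := T_exp_le hS hS' hl0 hr heq hrm 0 (Nat.zero_le _)
  have h2 : ∫ z, S.T 0 (fun z _ => Real.exp (r * ((wm S m').lg l0 z - S.lg l0 z))) z ∂(gI ι) ≤
      ∫ _z : ι → ℝ, Real.exp (r * ((wm S m').fe - S.fe)) ∂(gI ι) := by
    refine integral_mono (hS.eg_T (Nat.zero_le _) hn).integrable (integrable_const _) fun z => ?_
    have h3 := h1 z
    rw [hc, hc'] at h3
    exact h3
  refine h2.trans (le_of_eq ?_)
  simp

lemma vr_nonneg' (hS : S.Reg) {h : (ι → ℝ) → X → ℝ} (hh : Nh h) : 0 ≤ vr S h := by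
  have h1 := hS.Ex_mono (f := fun _ _ => 0) (g := fun z x => (h z x - S.Ex h) ^ 2)
    (fun _ => EG.const _) (Nh.pow (Nh.sub hh (fun _ => EG.const _)) 2) (fun z x => sq_nonneg _)
  rwa [hS.Ex_const] at h1

/-- the first order part -/
theorem fe_sub_ge (hS : S.Reg) (hS' : (wm S m').Reg) {l0 : ℕ} (hl0 : l0 ≤ S.K) {r : ℝ}
    (hr : 0 < r) (heq : ∀ j, 1 ≤ j → j ≤ l0 → m' j = S.m j)
    (hrm : ∀ j, 1 ≤ j → j ≤ l0 → r ≤ S.m j)
    (hc : ∀ z, S.lg 0 z = S.fe) (hc' : ∀ z, (wm S m').lg 0 z = (wm S m').fe)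
    {g : (ι → ℝ) → ℝ} (hg : EG g) (h : ∀ z, g z ≤ (wm S m').lg l0 z - S.lg l0 z) :
    S.Ex (fun z _ => g z) ≤ (wm S m').fe - S.fe := by
  have hL : Lip fun z => (wm S m').lg l0 z - S.lg l0 z := by
    have h1 := (hS'.lip_lg hl0).add ((hS.lip_lg hl0).const_mul (-1))
    have e : (fun z => (wm S m').lg l0 z - S.lg l0 z) =
        fun z => (wm S m').lg l0 z + -1 * S.lg l0 z := by
      funext z; ring
    rw [e]
    exact h1
  have h1 := Ex_exp_le hS hS' hl0 hr heq hrm hc hc'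
  have h2 := exp_Ex_le hS (hL.eg.const_mul r) (hL.exp_eg r)
  have h3 := Real.exp_le_exp.1 (h2.trans h1)
  rw [Ex_const_mul] at h3
  have h4 := le_of_mul_le_mul_left h3 hr
  exact (hS.Ex_mono (Nh.fst hg) (Nh.fst hL.eg) fun z _ => h z).trans h4

/-- **The gain over the first order is at least a variance.** -/
theorem fe_sub_ge_var (hS : S.Reg) (hS' : (wm S m').Reg) {l0 : ℕ} (hl0 : l0 ≤ S.K) {r : ℝ}
    (hr : 0 < r) (heq : ∀ j, 1 ≤ j → j ≤ l0 → m' j = S.m j)
    (hrm : ∀ j, 1 ≤ j → j ≤ l0 → r ≤ S.m j)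
    (hc : ∀ z, S.lg 0 z = S.fe) (hc' : ∀ z, (wm S m').lg 0 z = (wm S m').fe)
    {k : (ι → ℝ) → ℝ} (hk : EG k) {h b : ℝ} (hk0 : ∀ z, 0 ≤ k z) (hkb : ∀ z, k z ≤ b)
    (hb : r * |h| * b ≤ 1 / 2) (hle : ∀ z, h * k z ≤ (wm S m').lg l0 z - S.lg l0 z) :
    h * S.Ex (fun z _ => k z) + 1 / 4 * r * h ^ 2 * vr S (fun z _ => k z) ≤
      (wm S m').fe - S.fe := by
  have h1 := Ex_exp_le hS hS' hl0 hr heq hrm hc hc'
  obtain ⟨κ, hκ⟩ : ∃ κ, κ = S.Ex (fun z _ => k z) := ⟨_, rfl⟩
  have n0 : Nh (X := X) fun z _ => k z := Nh.fst hk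
  have hκ0 : 0 ≤ κ := by
    rw [hκ, ← hS.Ex_const 0]
    exact hS.Ex_mono (fun _ => EG.const 0) n0 fun z _ => hk0 z
  have hκb : κ ≤ b := by
    rw [hκ, ← hS.Ex_const b]
    exact hS.Ex_mono n0 (fun _ => EG.const b) fun z _ => hkb z
  have hrh : 0 ≤ r * |h| := by positivity
  have hy : ∀ z, |r * h * (k z - κ)| ≤ 1 / 2 := by
    intro z
    rw [abs_mul, abs_mul, abs_of_pos hr]
    refine le_trans (mul_le_mul_of_nonneg_left ?_ hrh) hb
    rw [abs_le]
    constructor <;> linarith [hk0 z, hkb z]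
  have hL : Lip fun z => (wm S m').lg l0 z - S.lg l0 z := by
    have h1 := (hS'.lip_lg hl0).add ((hS.lip_lg hl0).const_mul (-1))
    have e : (fun z => (wm S m').lg l0 z - S.lg l0 z) =
        fun z => (wm S m').lg l0 z + -1 * S.lg l0 z := by
      funext z; ring
    rw [e]
    exact h1
  have n1 : Nh (X := X) fun z _ => (k z - κ) := Nh.fst (hk.sub (EG.const κ))
  have n2 : Nh (X := X) fun z _ => (k z - κ) ^ 2 := Nh.fst ((hk.sub (EG.const κ)).pow 2)
  have h2 := hS.Ex_mono (f := fun z _ => Real.exp (r * h * κ) * (1 + (r * h * (k z - κ) +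
      r ^ 2 * h ^ 2 / 3 * (k z - κ) ^ 2)))
    (g := fun z _ => Real.exp (r * ((wm S m').lg l0 z - S.lg l0 z)))
    (Nh.const_mul _ (Nh.add (fun _ => EG.const 1) (Nh.add (Nh.const_mul _ n1)
      (Nh.const_mul _ n2)))) (Nh.fst (hL.exp_eg r)) (fun z _ => by
      have h3 := exp_ge_quad (hy z)
      have h4 : Real.exp (r * (h * k z)) =
          Real.exp (r * h * κ) * Real.exp (r * h * (k z - κ)) := by
        rw [← Real.exp_add]; congr 1; ring
      have h5 := Real.exp_le_exp.2 (mul_le_mul_of_nonneg_left (hle z) hr.le)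
      refine le_trans ?_ h5
      rw [h4]
      refine mul_le_mul_of_nonneg_left (le_trans (le_of_eq ?_) h3) (Real.exp_pos _).le
      ring)
  have e1 : S.Ex (fun z _ => Real.exp (r * h * κ) * (1 + (r * h * (k z - κ) +
      r ^ 2 * h ^ 2 / 3 * (k z - κ) ^ 2))) =
      Real.exp (r * h * κ) * (1 + r ^ 2 * h ^ 2 * vr S (fun z _ => k z) / 3) := by
    rw [Ex_const_mul, hS.Ex_add (fun _ => EG.const 1) (Nh.add (Nh.const_mul _ n1)
      (Nh.const_mul _ n2)), hS.Ex_const, hS.Ex_add (Nh.const_mul _ n1) (Nh.const_mul _ n2),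
      Ex_const_mul, Ex_const_mul, hS.Ex_sub n0 (fun _ => EG.const κ), hS.Ex_const, ← hκ]
    unfold vr
    rw [← hκ]
    ring
  rw [e1] at h2
  obtain ⟨V, hV⟩ : ∃ V, V = vr S (fun z _ => k z) := ⟨_, rfl⟩
  rw [← hV] at h2
  have hV0 : 0 ≤ V := by rw [hV]; exact vr_nonneg' hS n0
  have hv1 : r ^ 2 * h ^ 2 * V ≤ 1 := by
    have h3 : r ^ 2 * h ^ 2 * V = S.Ex (fun z _ => r ^ 2 * h ^ 2 * (k z - κ) ^ 2) := by
      rw [Ex_const_mul, hV, hκ]
      rfl
    rw [h3, ← hS.Ex_const 1]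
    refine hS.Ex_mono (Nh.const_mul _ n2) (fun _ => EG.const 1) fun z _ => ?_
    have h4 : r ^ 2 * h ^ 2 * (k z - κ) ^ 2 = |r * h * (k z - κ)| ^ 2 := by
      rw [sq_abs]; ring
    rw [h4]
    have h5 := pow_le_pow_left₀ (abs_nonneg _) (hy z) 2
    linarith
  have h3 := h2.trans h1
  have h4 : 0 < 1 + r ^ 2 * h ^ 2 * V / 3 := by positivity
  have h5 := Real.log_le_log (mul_pos (Real.exp_pos _) h4) h3
  rw [Real.log_mul (Real.exp_pos _).ne' h4.ne', Real.log_exp, Real.log_exp] at h5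
  have h6 := log_ge_quarter (v := r ^ 2 * h ^ 2 * V) (by positivity) hv1
  have h7 : r * (h * κ + 1 / 4 * r * h ^ 2 * V) ≤ r * ((wm S m').fe - S.fe) := by
    nlinarith [h5, h6]
  rw [← hκ, ← hV]
  exact le_of_mul_le_mul_left h7 hr

end Vale.Agent.P146.H425
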